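import Mathlib

/-!
# Row 280, package RET / CT: the `∂̄` operator and the Cauchy transform on `ℂ`   (owner of the statements: helper30)

`retDbar f z = (∂_x f + i ∂_y f)/2`,   `retCauchy φ w = (1/π) ∫ φ(z)/(w - z) dA(z)`.

Statements (all classical, `E` a complete complex normed space):
* `retCauchy_integrable`, `retCauchy_bound` : `1/|z|` is locally integrable: `∫_{K} |w - z|⁻¹ ≤ 2π + vol K`.
* `retCauchy_differentiableOn` : holomorphic off the support (differentiate under the integral).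
* `retCauchy_contDiff`, `retDbar_retCauchy` : for `φ ∈ C¹_c`, `Cφ = (1/(πz)) ⋆ φ` is `C¹` and `∂̄ Cφ = φ`
  (move the derivative to `φ` (`HasCompactSupport.hasFDerivAt_convolution_right`), polar coordinates:
  `∂̄ = (e^{iθ}/2)(∂_r + (i/r) ∂_θ)`, the `θ`-derivative integrates to `0` on circles, the `r`-derivative to `-φ(w)`).
* `retDbar` calculus: Leibniz rules, `∂̄ f = 0` + real differentiability `⇒` complex differentiability.
-/

set_option autoImplicit false

namespace Claimed.Agent.R280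

open Complex MeasureTheory Topology
open scoped ContDiff

variable {E : Type*} [NormedAddCommGroup E] [NormedSpace ℂ E]

/-- the Cauchy-Riemann operator `∂̄ = (∂_x + i ∂_y)/2` -/
noncomputable def retDbar (f : ℂ → E) (z : ℂ) : E :=
  (1 / 2 : ℂ) • (fderiv ℝ f z 1 + I • fderiv ℝ f z I)

/-- the Cauchy transform `(1/π) ∫ φ(z)/(w - z) dA(z)` -/
noncomputable def retCauchy (φ : ℂ → E) (w : ℂ) : E :=
  ((Real.pi : ℂ)⁻¹) • ∫ z : ℂ, (w - z)⁻¹ • φ z

/-! ### `∂̄` calculus -/

theorem retDbar_eq_zero_of_differentiableAt {f : ℂ → E} {z : ℂ} (h : DifferentiableAt ℂ f z) :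
    retDbar f z = 0 := by
  have h1 := (differentiableAt_complex_iff_differentiableAt_real.1 h).2
  unfold retDbar
  rw [h1, smul_smul, I_mul_I, neg_one_smul, add_neg_cancel, smul_zero]

theorem differentiableAt_of_retDbar_eq_zero {f : ℂ → E} {z : ℂ} (h : DifferentiableAt ℝ f z)
    (h0 : retDbar f z = 0) : DifferentiableAt ℂ f z := by
  refine differentiableAt_complex_iff_differentiableAt_real.2 ⟨h, ?_⟩
  unfold retDbar at h0
  have h1 : fderiv ℝ f z 1 + I • fderiv ℝ f z I = 0 := by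
    rcases smul_eq_zero.1 h0 with h2 | h2
    · norm_num at h2
    · exact h2
  have h2 : I • (fderiv ℝ f z 1 + I • fderiv ℝ f z I) = 0 := by rw [h1, smul_zero]
  rw [smul_add, smul_smul, I_mul_I, neg_one_smul] at h2
  exact (sub_eq_zero.1 (by rw [sub_eq_add_neg]; exact h2)).symm

theorem retDbar_add {f g : ℂ → E} {z : ℂ} (hf : DifferentiableAt ℝ f z) (hg : DifferentiableAt ℝ g z) :
    retDbar (fun w => f w + g w) z = retDbar f z + retDbar g z := by
  unfold retDbar
  rw [fderiv_fun_add hf hg]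
  simp only [add_apply, smul_add]
  abel

theorem retDbar_sub {f g : ℂ → E} {z : ℂ} (hf : DifferentiableAt ℝ f z) (hg : DifferentiableAt ℝ g z) :
    retDbar (fun w => f w - g w) z = retDbar f z - retDbar g z := by
  unfold retDbar
  rw [fderiv_fun_sub hf hg]
  simp only [sub_apply, smul_add, smul_sub]
  abel

theorem retDbar_sum {ι : Type*} (s : Finset ι) {f : ι → ℂ → E} {z : ℂ}
    (hf : ∀ i ∈ s, DifferentiableAt ℝ (f i) z) :
    retDbar (fun w => ∑ i ∈ s, f i w) z = ∑ i ∈ s, retDbar (f i) z := by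
  unfold retDbar
  rw [fderiv_fun_sum hf]
  simp only [sum_apply, Finset.smul_sum, ← Finset.sum_add_distrib, smul_add]

theorem retDbar_smul {c : ℂ → ℂ} {f : ℂ → E} {z : ℂ} (hc : DifferentiableAt ℝ c z)
    (hf : DifferentiableAt ℝ f z) :
    retDbar (fun w => c w • f w) z = retDbar c z • f z + c z • retDbar f z := by
  unfold retDbar
  rw [fderiv_fun_smul hc hf]
  simp only [add_apply, smul_apply, ContinuousLinearMap.smulRight_apply, smul_eq_mul]
  module

/-- a holomorphic family of operators commutes with `∂̄` -/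
theorem retDbar_clm_apply {F : Type*} [NormedAddCommGroup F] [NormedSpace ℂ F] {T : ℂ → (E →L[ℂ] F)}
    {f : ℂ → E} {z : ℂ} (hT : DifferentiableAt ℂ T z) (hf : DifferentiableAt ℝ f z) :
    retDbar (fun w => T w (f w)) z = T z (retDbar f z) := by
  have hB : HasFDerivAt (𝕜 := ℂ) (fun p : (E →L[ℂ] F) × E => p.1 p.2)
      ((isBoundedBilinearMap_apply (𝕜 := ℂ) (E := E) (F := F)).deriv (T z, f z)) (T z, f z) :=
    (isBoundedBilinearMap_apply (𝕜 := ℂ) (E := E) (F := F)).hasFDerivAt (T z, f z)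
  have hB' := hB.restrictScalars ℝ
  have hT' : HasFDerivAt (𝕜 := ℝ) T ((fderiv ℂ T z).restrictScalars ℝ) z :=
    hT.hasFDerivAt.restrictScalars ℝ
  have hp : HasFDerivAt (𝕜 := ℝ) (fun w => (T w, f w))
      (((fderiv ℂ T z).restrictScalars ℝ).prod (fderiv ℝ f z)) z := hT'.prodMk hf.hasFDerivAt
  have hc := HasFDerivAt.comp z hB' hp
  have hd : ∀ v : ℂ, fderiv ℝ (fun w => T w (f w)) z v
      = T z (fderiv ℝ f z v) + (fderiv ℂ T z v) (f z) := by
    intro v
    have : fderiv ℝ (fun w => T w (f w)) z = _ := hc.fderiv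
    rw [this]
    simp [IsBoundedBilinearMap.deriv_apply]
  unfold retDbar
  rw [hd, hd]
  have e : fderiv ℂ T z I = I • fderiv ℂ T z 1 := by
    have : (I : ℂ) = I • (1 : ℂ) := by simp
    conv_lhs => rw [this, map_smul]
  rw [e]
  simp only [smul_apply, smul_add, smul_smul, map_add, map_smul]
  have e3 : (1 / 2 : ℂ) * (I * I) = -(1 / 2) := by rw [I_mul_I]; ring
  rw [e3, neg_smul]
  abel

theorem retDbar_congr {f g : ℂ → E} {z : ℂ} (h : f =ᶠ[𝓝 z] g) : retDbar f z = retDbar g z := by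
  unfold retDbar
  rw [h.fderiv_eq]

/-! ### the Cauchy transform -/

variable [CompleteSpace E]

omit [CompleteSpace E] in
theorem retCT_integrableOn_inv_norm (r : ℝ) :
    IntegrableOn (fun z : ℂ => ‖z‖⁻¹) (Metric.ball 0 r) := by
  rw [integrableOn_fun_norm_addHaar (μ := volume) (f := fun y : ℝ => y⁻¹)]
  have h1 : IntegrableOn (fun _ : ℝ => (1 : ℝ)) (Set.Ioo 0 r) := by
    simp [integrableOn_const_iff]
  refine h1.congr_fun ?_ measurableSet_Ioo
  intro y hy
  simp [Complex.finrank_real_complex, hy.1.ne']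

theorem retCT_locallyIntegrable_inv : LocallyIntegrable (fun z : ℂ => z⁻¹) volume := by
  intro x
  refine ⟨Metric.ball 0 (‖x‖ + 1), Metric.isOpen_ball.mem_nhds (by simp), ?_⟩
  have h := retCT_integrableOn_inv_norm (‖x‖ + 1)
  exact h.mono' measurable_inv.aestronglyMeasurable (Filter.Eventually.of_forall fun z => by simp)

open scoped Convolution in
omit [CompleteSpace E] in
theorem retCT_conv_eq (φ : ℂ → E) (w : ℂ) :
    ((fun z : ℂ => z⁻¹) ⋆[ContinuousLinearMap.lsmul ℝ ℂ, volume] φ) w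
      = ∫ z : ℂ, (w - z)⁻¹ • φ z := by
  rw [convolution_def, ← integral_sub_left_eq_self (fun z => (w - z)⁻¹ • φ z) volume w]
  simp

theorem retCauchy_integrable {φ : ℂ → E} (hc : Continuous φ) (hs : HasCompactSupport φ) (w : ℂ) :
    Integrable (fun z : ℂ => (w - z)⁻¹ • φ z) := by
  have h := hs.convolutionExists_right (ContinuousLinearMap.lsmul ℝ ℂ : ℂ →L[ℝ] E →L[ℝ] E)
    retCT_locallyIntegrable_inv hc w
  have h2 := h.integrable.comp_sub_left w
  simpa using h2

/-- uniform bound: the constant depends only on a compact set containing the support -/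
theorem retCauchy_bound {K : Set ℂ} (hK : IsCompact K) :
    ∃ C : ℝ, 0 ≤ C ∧ ∀ (φ : ℂ → E) (M : ℝ), Continuous φ → (∀ z, z ∉ K → φ z = 0) →
      (∀ z, ‖φ z‖ ≤ M) → ∀ w, ‖retCauchy φ w‖ ≤ C * M := by
  set h : ℂ → ℝ := (Metric.ball (0 : ℂ) 1).indicator (fun z => ‖z‖⁻¹) with hh
  have hint : Integrable h :=
    (integrable_indicator_iff measurableSet_ball).2 (retCT_integrableOn_inv_norm 1)
  have hnn : ∀ z, 0 ≤ h z := fun z =>
    Set.indicator_nonneg (fun z _ => inv_nonneg.2 (norm_nonneg z)) z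
  have hc0 : 0 ≤ ∫ z, h z := integral_nonneg hnn
  have hKint : Integrable (K.indicator (fun _ : ℂ => (1 : ℝ))) :=
    (integrable_indicator_iff hK.measurableSet).2
      (integrableOn_const hK.measure_lt_top.ne)
  refine ⟨Real.pi⁻¹ * (volume.real K + ∫ z, h z), by positivity, ?_⟩
  intro φ M hc hφK hM w
  have hM0 : 0 ≤ M := (norm_nonneg _).trans (hM 0)
  have hb : ∀ z, ‖(w - z)⁻¹ • φ z‖ ≤ M * (K.indicator (fun _ => (1 : ℝ)) z + h (w - z)) := by
    intro z
    by_cases hz : z ∈ K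
    · rw [norm_smul, norm_inv, Set.indicator_of_mem hz, mul_comm]
      refine mul_le_mul (hM z) ?_ (inv_nonneg.2 (norm_nonneg _)) hM0
      by_cases h1 : ‖w - z‖ < 1
      · have : h (w - z) = ‖w - z‖⁻¹ := by
          rw [hh, Set.indicator_of_mem (by simpa using h1)]
        rw [this]
        linarith
      · have h2 : ‖w - z‖⁻¹ ≤ 1 := inv_le_one_of_one_le₀ (not_lt.1 h1)
        linarith [hnn (w - z)]
    · rw [hφK z hz, smul_zero, norm_zero]
      exact mul_nonneg hM0 (add_nonneg (Set.indicator_nonneg (fun _ _ => zero_le_one) z) (hnn _))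
  have hI2 : Integrable (fun z => h (w - z)) := hint.comp_sub_left w
  have hI : Integrable (fun z => M * (K.indicator (fun _ => (1 : ℝ)) z + h (w - z))) :=
    (hKint.add hI2).const_mul M
  have e1 : ∫ z, M * (K.indicator (fun _ => (1 : ℝ)) z + h (w - z))
      = M * (volume.real K + ∫ z, h z) := by
    rw [integral_const_mul, integral_add hKint hI2, integral_indicator_const _ hK.measurableSet,
      integral_sub_left_eq_self h volume w]
    simp
  calc ‖retCauchy φ w‖ = Real.pi⁻¹ * ‖∫ z : ℂ, (w - z)⁻¹ • φ z‖ := by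
        rw [retCauchy, norm_smul, norm_inv, Complex.norm_real, Real.norm_of_nonneg Real.pi_pos.le]
    _ ≤ Real.pi⁻¹ * ∫ z, M * (K.indicator (fun _ => (1 : ℝ)) z + h (w - z)) := by
        gcongr
        exact norm_integral_le_of_norm_le hI (Filter.Eventually.of_forall hb)
    _ = Real.pi⁻¹ * (volume.real K + ∫ z, h z) * M := by rw [e1]; ring

theorem retCauchy_differentiableOn {φ : ℂ → E} (hc : Continuous φ) (hs : HasCompactSupport φ) :
    DifferentiableOn ℂ (retCauchy φ) (tsupport φ)ᶜ := by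
  intro w₀ hw₀
  apply DifferentiableAt.differentiableWithinAt
  have hopen : IsOpen (tsupport φ)ᶜ := (isClosed_tsupport φ).isOpen_compl
  obtain ⟨ε, hε, hball⟩ := Metric.isOpen_iff.1 hopen w₀ hw₀
  have hfar : ∀ z ∈ tsupport φ, ∀ w ∈ Metric.ball w₀ (ε / 2), ε / 2 ≤ ‖w - z‖ := by
    intro z hz w hw
    by_contra hcon
    have h1 : dist z w₀ < ε := by
      calc dist z w₀ ≤ dist z w + dist w w₀ := dist_triangle _ _ _
        _ < ε / 2 + ε / 2 := by
            refine add_lt_add ?_ hw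
            rw [dist_comm, dist_eq_norm]
            exact not_le.1 hcon
        _ = ε := by ring
    exact hball h1 hz
  have hmeas : ∀ w : ℂ, AEStronglyMeasurable (fun z : ℂ => (w - z)⁻¹ • φ z) volume := fun w =>
    ((measurable_const.sub measurable_id).inv).aestronglyMeasurable.smul hc.aestronglyMeasurable
  have key := (hasDerivAt_integral_of_dominated_loc_of_deriv_le (𝕜 := ℂ) (μ := volume)
    (F := fun w z => (w - z)⁻¹ • φ z) (F' := fun w z => (-1 / (w - z) ^ 2) • φ z)
    (bound := fun z => ((ε / 2) ^ 2)⁻¹ * ‖φ z‖) (x₀ := w₀)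
    (Metric.ball_mem_nhds w₀ (half_pos hε)) (Filter.Eventually.of_forall hmeas)
    (retCauchy_integrable hc hs w₀) ?_ ?_ ?_ ?_).2
  · unfold retCauchy
    exact (key.differentiableAt).const_smul _
  · exact ((measurable_const.div ((measurable_const.sub measurable_id).pow_const
      2))).aestronglyMeasurable.smul hc.aestronglyMeasurable
  · refine Filter.Eventually.of_forall fun z w hw => ?_
    by_cases hz : z ∈ tsupport φ
    · rw [norm_smul]
      refine mul_le_mul_of_nonneg_right ?_ (norm_nonneg _)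
      rw [norm_div, norm_neg, norm_one, norm_pow, one_div]
      have h1 := hfar z hz w hw
      have h2 : 0 < ε / 2 := half_pos hε
      gcongr
    · rw [image_eq_zero_of_notMem_tsupport hz]
      simp
  · exact (hc.norm.integrable_of_hasCompactSupport hs.norm).const_mul _
  · refine Filter.Eventually.of_forall fun z w hw => ?_
    by_cases hz : z ∈ tsupport φ
    · have h1 := hfar z hz w hw
      have h2 : w - z ≠ 0 := by
        intro h0
        rw [h0, norm_zero] at h1
        linarith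
      have h3 : HasDerivAt (fun w : ℂ => (w - z)⁻¹) (-1 / (w - z) ^ 2) w :=
        ((hasDerivAt_id w).sub_const z).fun_inv h2
      exact h3.smul_const (φ z)
    · simp only [image_eq_zero_of_notMem_tsupport hz, smul_zero]
      exact hasDerivAt_const _ _

open scoped Convolution in
omit [CompleteSpace E] in
theorem retCT_eq_conv (φ : ℂ → E) : retCauchy φ = fun w =>
    ((Real.pi : ℂ)⁻¹) • ((fun z : ℂ => z⁻¹) ⋆[ContinuousLinearMap.lsmul ℝ ℂ, volume] φ) w := by
  funext w
  rw [retCT_conv_eq]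
  rfl

open scoped Convolution in
theorem retCauchy_contDiff {φ : ℂ → E} (hc : ContDiff ℝ 1 φ) (hs : HasCompactSupport φ) :
    ContDiff ℝ 1 (retCauchy φ) := by
  rw [retCT_eq_conv]
  have h := hs.contDiff_convolution_right (n := 1)
    (ContinuousLinearMap.lsmul ℝ ℂ : ℂ →L[ℝ] E →L[ℝ] E) retCT_locallyIntegrable_inv
    (by exact_mod_cast hc)
  have h' : ContDiff ℝ 1 ((fun z : ℂ => z⁻¹) ⋆[ContinuousLinearMap.lsmul ℝ ℂ, volume] φ) := by
    exact_mod_cast h
  exact h'.const_smul _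

omit [CompleteSpace E] in
theorem retCT_rot (D : ℂ →L[ℝ] E) (θ : ℝ) :
    (Complex.exp (θ * I))⁻¹ • (D 1 + I • D I)
      = D (Complex.exp (θ * I)) + I • D (I * Complex.exp (θ * I)) := by
  have he : Complex.exp (θ * I) = (Real.cos θ : ℂ) + (Real.sin θ : ℂ) * I := by
    rw [Complex.exp_mul_I, Complex.ofReal_cos, Complex.ofReal_sin]
  have hcs : (Real.cos θ : ℂ) ^ 2 + (Real.sin θ : ℂ) ^ 2 = 1 := by
    exact_mod_cast Real.cos_sq_add_sin_sq θ
  have hinv : (Complex.exp (θ * I))⁻¹ = (Real.cos θ : ℂ) - (Real.sin θ : ℂ) * I := by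
    apply inv_eq_of_mul_eq_one_right
    rw [he]
    have : ((Real.cos θ : ℂ) + (Real.sin θ : ℂ) * I) * ((Real.cos θ : ℂ) - (Real.sin θ : ℂ) * I)
        = (Real.cos θ : ℂ) ^ 2 - (Real.sin θ : ℂ) ^ 2 * (I * I) := by ring
    rw [this, I_mul_I]
    linear_combination hcs
  have h1 : D ((Real.cos θ : ℂ) + (Real.sin θ : ℂ) * I)
      = (Real.cos θ : ℂ) • D 1 + (Real.sin θ : ℂ) • D I := by
    have : (Real.cos θ : ℂ) + (Real.sin θ : ℂ) * I = Real.cos θ • (1 : ℂ) + Real.sin θ • I := by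
      simp
    rw [this, map_add, map_smul, map_smul, Complex.coe_smul, Complex.coe_smul]
  have h2 : D (I * ((Real.cos θ : ℂ) + (Real.sin θ : ℂ) * I))
      = -(Real.sin θ : ℂ) • D 1 + (Real.cos θ : ℂ) • D I := by
    have : I * ((Real.cos θ : ℂ) + (Real.sin θ : ℂ) * I)
        = (-Real.sin θ) • (1 : ℂ) + Real.cos θ • I := by
      have e : I * ((Real.cos θ : ℂ) + (Real.sin θ : ℂ) * I)
          = (Real.cos θ : ℂ) * I + (Real.sin θ : ℂ) * (I * I) := by ring
      rw [e, I_mul_I]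
      simp
      ring
    rw [this, map_add, map_smul, map_smul, ← Complex.coe_smul, ← Complex.coe_smul]
    simp
  rw [hinv, he, h1, h2]
  have hI : ((Real.cos θ : ℂ) - (Real.sin θ : ℂ) * I) * I
      = (Real.sin θ : ℂ) + (Real.cos θ : ℂ) * I := by
    have e : ((Real.cos θ : ℂ) - (Real.sin θ : ℂ) * I) * I
        = (Real.cos θ : ℂ) * I - (Real.sin θ : ℂ) * (I * I) := by ring
    rw [e, I_mul_I]
    ring
  rw [smul_add, smul_smul, hI]
  module

omit [NormedSpace ℂ E] [CompleteSpace E] in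
/-- integrability on the polar strip -/
theorem retCT_integrableOn_strip {F : ℝ × ℝ → E} (hF : Continuous F) {R : ℝ}
    (h0 : ∀ p : ℝ × ℝ, R < p.1 → F p = 0) :
    IntegrableOn F (Set.Ioi (0 : ℝ) ×ˢ Set.Ioo (-Real.pi) Real.pi) := by
  have h1 : IntegrableOn F (Set.Icc 0 R ×ˢ Set.Icc (-Real.pi) Real.pi) :=
    hF.continuousOn.integrableOn_compact (isCompact_Icc.prod isCompact_Icc)
  refine h1.of_forall_sdiff_eq_zero (measurableSet_Ioi.prod measurableSet_Ioo) ?_
  rintro ⟨r, θ⟩ ⟨⟨hr, hθ⟩, hn⟩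
  apply h0
  by_contra hcon
  exact hn ⟨⟨le_of_lt hr, not_lt.1 hcon⟩, ⟨hθ.1.le, hθ.2.le⟩⟩

theorem retCT_radial {ψ : ℂ → E} (hc : ContDiff ℝ 1 ψ) {R : ℝ}
    (hR : ∀ t : ℂ, R < ‖t‖ → ψ t = 0) (hR' : ∀ t : ℂ, R < ‖t‖ → fderiv ℝ ψ t = 0) (e : ℂ)
    (he : ‖e‖ = 1) :
    ∫ r in Set.Ioi (0 : ℝ), fderiv ℝ ψ ((r : ℂ) * e) e = - ψ 0 := by
  have hd : ∀ r : ℝ, HasDerivAt (fun r : ℝ => ψ ((r : ℂ) * e)) (fderiv ℝ ψ ((r : ℂ) * e) e) r := by
    intro r
    have h1 : HasFDerivAt ψ (fderiv ℝ ψ ((r : ℂ) * e)) ((r : ℂ) * e) :=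
      (hc.differentiable one_ne_zero _).hasFDerivAt
    have h2 : HasDerivAt (fun r : ℝ => (r : ℂ) * e) e r := by
      simpa using (Complex.ofRealCLM.hasDerivAt (x := r)).mul_const e
    exact h1.comp_hasDerivAt r h2
  have hnorm : ∀ r : ℝ, ‖(r : ℂ) * e‖ = |r| := fun r => by
    rw [norm_mul, he, mul_one, Complex.norm_real, Real.norm_eq_abs]
  have hcont : Continuous (fun r : ℝ => fderiv ℝ ψ ((r : ℂ) * e) e) :=
    ((hc.continuous_fderiv one_ne_zero).comp (by fun_prop)).clm_apply continuous_const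
  have hint : Integrable (fun r : ℝ => fderiv ℝ ψ ((r : ℂ) * e) e) := by
    apply hcont.integrable_of_hasCompactSupport
    apply HasCompactSupport.intro (isCompact_Icc : IsCompact (Set.Icc (-R) R))
    intro r hr
    rw [hR' _ (by
      rw [hnorm]
      by_contra hcon
      exact hr (abs_le.1 (not_lt.1 hcon)))]
    simp
  have hlim : Filter.Tendsto (fun r : ℝ => ψ ((r : ℂ) * e)) Filter.atTop (𝓝 0) := by
    apply tendsto_const_nhds.congr'
    filter_upwards [Filter.eventually_gt_atTop R] with r hr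
    symm
    apply hR
    rw [hnorm]
    exact lt_of_lt_of_le hr (le_abs_self r)
  have := integral_Ioi_of_hasDerivAt_of_tendsto (a := 0)
    (hd 0).continuousAt.continuousWithinAt (fun x _ => hd x) hint.integrableOn hlim
  simpa using this

theorem retCT_angular {ψ : ℂ → E} (hc : ContDiff ℝ 1 ψ) {r : ℝ} (hr : 0 < r) :
    ∫ θ in Set.Ioo (-Real.pi) Real.pi,
      I • fderiv ℝ ψ ((r : ℂ) * Complex.exp (θ * I)) (I * Complex.exp (θ * I)) = 0 := by
  have hd : ∀ θ : ℝ, HasDerivAt (fun θ : ℝ => ψ ((r : ℂ) * Complex.exp (θ * I)))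
      (r • fderiv ℝ ψ ((r : ℂ) * Complex.exp (θ * I)) (I * Complex.exp (θ * I))) θ := by
    intro θ
    have h1 := (hc.differentiable one_ne_zero ((r : ℂ) * Complex.exp (θ * I))).hasFDerivAt
    have h2 : HasDerivAt (fun θ : ℝ => (r : ℂ) * Complex.exp (θ * I))
        ((r : ℂ) * (I * Complex.exp (θ * I))) θ := by
      have h3 : HasDerivAt (fun θ : ℝ => (θ : ℂ) * I) I θ := by
        simpa using (Complex.ofRealCLM.hasDerivAt (x := θ)).mul_const I
      have h4 := (h3.cexp).const_mul (r : ℂ)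
      rw [mul_comm I]
      exact h4
    have h5 := h1.comp_hasDerivAt θ h2
    have e : (r : ℂ) * (I * Complex.exp (θ * I)) = r • (I * Complex.exp (θ * I)) := by
      rw [Complex.real_smul]
    rw [e, map_smul] at h5
    exact h5
  have hcont : Continuous (fun θ : ℝ =>
      fderiv ℝ ψ ((r : ℂ) * Complex.exp (θ * I)) (I * Complex.exp (θ * I))) :=
    ((hc.continuous_fderiv one_ne_zero).comp (by fun_prop)).clm_apply (by fun_prop)
  have h1 := intervalIntegral.integral_eq_sub_of_hasDerivAt (a := -Real.pi) (b := Real.pi)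
    (fun θ _ => hd θ) ((hcont.const_smul r).intervalIntegrable _ _)
  have h2 : Complex.exp (((-Real.pi : ℝ) : ℂ) * I) = Complex.exp ((Real.pi : ℂ) * I) := by
    rw [Complex.exp_pi_mul_I]
    push_cast
    rw [neg_mul, Complex.exp_neg, Complex.exp_pi_mul_I]
    norm_num
  rw [h2, sub_self, intervalIntegral.integral_smul] at h1
  have h3 := (smul_eq_zero.1 h1).resolve_left hr.ne'
  rw [← integral_Ioc_eq_integral_Ioo, ← intervalIntegral.integral_of_le (by linarith [Real.pi_pos]),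
    intervalIntegral.integral_smul, h3, smul_zero]

/-- **Cauchy-Pompeiu formula** for compactly supported `C¹` functions, at the origin. -/
theorem retCT_pompeiu {ψ : ℂ → E} (hc : ContDiff ℝ 1 ψ)
    (hs : HasCompactSupport ψ) :
    ∫ t : ℂ, t⁻¹ • (fderiv ℝ ψ t 1 + I • fderiv ℝ ψ t I) = -((2 * Real.pi : ℝ) : ℂ) • ψ 0 := by
  obtain ⟨R, hRsub⟩ := hs.isCompact.isBounded.subset_closedBall 0
  have hR : ∀ t : ℂ, R < ‖t‖ → ψ t = 0 := by
    intro t ht
    apply image_eq_zero_of_notMem_tsupport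
    intro h
    have := hRsub h
    simp at this
    linarith
  have hR' : ∀ t : ℂ, R < ‖t‖ → fderiv ℝ ψ t = 0 := by
    intro t ht
    by_contra h
    have h1 : t ∈ Function.support (fderiv ℝ ψ) := h
    have := hRsub (support_fderiv_subset ℝ h1)
    simp at this
    linarith
  have hnorm : ∀ p : ℝ × ℝ, ‖(p.1 : ℂ) * Complex.exp (p.2 * I)‖ = |p.1| := fun p => by
    rw [norm_mul, Complex.norm_exp_ofReal_mul_I, mul_one, Complex.norm_real, Real.norm_eq_abs]
  set A : ℝ × ℝ → E := fun p =>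
    fderiv ℝ ψ ((p.1 : ℂ) * Complex.exp (p.2 * I)) (Complex.exp (p.2 * I)) with hA
  set B : ℝ × ℝ → E := fun p =>
    I • fderiv ℝ ψ ((p.1 : ℂ) * Complex.exp (p.2 * I)) (I * Complex.exp (p.2 * I)) with hB
  have hDc := hc.continuous_fderiv one_ne_zero
  have hAc : Continuous A := (hDc.comp (by fun_prop)).clm_apply (by fun_prop)
  have hBc : Continuous B := ((hDc.comp (by fun_prop)).clm_apply (by fun_prop)).const_smul I
  have hA0 : ∀ p : ℝ × ℝ, R < p.1 → A p = 0 := by
    intro p hp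
    simp only [hA]
    rw [hR' _ (by rw [hnorm]; exact lt_of_lt_of_le hp (le_abs_self _))]
    simp
  have hB0 : ∀ p : ℝ × ℝ, R < p.1 → B p = 0 := by
    intro p hp
    simp only [hB]
    rw [hR' _ (by rw [hnorm]; exact lt_of_lt_of_le hp (le_abs_self _))]
    simp
  have hAi := retCT_integrableOn_strip hAc hA0
  have hBi := retCT_integrableOn_strip hBc hB0
  rw [← Complex.integral_comp_polarCoord_symm]
  have hcongr : ∫ p in polarCoord.target, p.1 • ((Complex.polarCoord.symm p)⁻¹ •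
        (fderiv ℝ ψ (Complex.polarCoord.symm p) 1 + I • fderiv ℝ ψ (Complex.polarCoord.symm p) I))
      = ∫ p in Set.Ioi (0 : ℝ) ×ˢ Set.Ioo (-Real.pi) Real.pi, (A p + B p) := by
    rw [polarCoord_target]
    apply setIntegral_congr_fun (measurableSet_Ioi.prod measurableSet_Ioo)
    rintro ⟨r, θ⟩ ⟨hr, hθ⟩
    have hr0 : (r : ℂ) ≠ 0 := by
      have : r ≠ 0 := ne_of_gt hr
      exact_mod_cast this
    have e1 : Complex.polarCoord.symm (r, θ) = (r : ℂ) * Complex.exp (θ * I) := by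
      rw [Complex.polarCoord_symm_apply, Complex.exp_mul_I, Complex.ofReal_cos, Complex.ofReal_sin]
    simp only [e1, hA, hB]
    rw [← retCT_rot, ← Complex.coe_smul, smul_smul, mul_inv, mul_inv_cancel_left₀ hr0]
  rw [hcongr, integral_add hAi hBi]
  have hIA : ∫ p in Set.Ioi (0 : ℝ) ×ˢ Set.Ioo (-Real.pi) Real.pi, A p
      = -((2 * Real.pi : ℝ) : ℂ) • ψ 0 := by
    rw [Measure.volume_eq_prod, ← setIntegral_prod_swap,
      setIntegral_prod (fun z : ℝ × ℝ => A z.swap) hAi.swap]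
    have : ∀ θ : ℝ, ∫ r in Set.Ioi (0 : ℝ), A (Prod.swap (θ, r)) = - ψ 0 := fun θ =>
      retCT_radial hc hR hR' _ (Complex.norm_exp_ofReal_mul_I θ)
    simp only [this]
    rw [setIntegral_const]
    simp only [Real.volume_real_Ioo_of_le (by linarith [Real.pi_pos] : -Real.pi ≤ Real.pi)]
    rw [← Complex.coe_smul]
    simp only [smul_neg, neg_smul]
    have e2 : Real.pi - -Real.pi = 2 * Real.pi := by ring
    rw [e2]
  have hIB : ∫ p in Set.Ioi (0 : ℝ) ×ˢ Set.Ioo (-Real.pi) Real.pi, B p = 0 := by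
    rw [Measure.volume_eq_prod, setIntegral_prod _ hBi]
    apply setIntegral_eq_zero_of_forall_eq_zero
    intro r hr
    exact retCT_angular hc hr
  rw [hIA, hIB, add_zero]


open scoped Convolution in
theorem retCT_fderiv_apply {φ : ℂ → E} (hc : ContDiff ℝ 1 φ) (hs : HasCompactSupport φ) (w v : ℂ) :
    fderiv ℝ (retCauchy φ) w v = ((Real.pi : ℂ)⁻¹) • ∫ t : ℂ, t⁻¹ • fderiv ℝ φ (w - t) v := by
  have h := hs.hasFDerivAt_convolution_right
    (ContinuousLinearMap.lsmul ℝ ℂ : ℂ →L[ℝ] E →L[ℝ] E) retCT_locallyIntegrable_inv hc w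
  have h2 := h.const_smul ((Real.pi : ℂ)⁻¹)
  have h3 : fderiv ℝ (retCauchy φ) w = (Real.pi : ℂ)⁻¹ • ((fun z : ℂ => z⁻¹)
      ⋆[ContinuousLinearMap.precompR ℂ (ContinuousLinearMap.lsmul ℝ ℂ), volume] fderiv ℝ φ) w := by
    rw [retCT_eq_conv]
    exact h2.fderiv
  rw [h3, smul_apply, convolution_precompR_apply _ retCT_locallyIntegrable_inv (hs.fderiv ℝ)
    (hc.continuous_fderiv one_ne_zero), convolution_def]
  rfl

/-- **`∂̄ C φ = φ`** -/
theorem retDbar_retCauchy {φ : ℂ → E} (hc : ContDiff ℝ 1 φ) (hs : HasCompactSupport φ) (w : ℂ) :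
    retDbar (retCauchy φ) w = φ w := by
  set ψ : ℂ → E := fun t => φ (w - t) with hψ
  have hψc : ContDiff ℝ 1 ψ := hc.comp (contDiff_const.sub contDiff_id)
  have hψs : HasCompactSupport ψ := hs.comp_homeomorph (Homeomorph.subLeft w)
  have hψd : ∀ t v, fderiv ℝ ψ t v = - fderiv ℝ φ (w - t) v := by
    intro t v
    have h1 : HasFDerivAt φ (fderiv ℝ φ (w - t)) (w - t) :=
      (hc.differentiable one_ne_zero _).hasFDerivAt
    have h2 : HasFDerivAt (fun t : ℂ => w - t) (-(ContinuousLinearMap.id ℝ ℂ)) t :=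
      (hasFDerivAt_id t).const_sub w
    have h3 := h1.comp t h2
    have h4 : fderiv ℝ ψ t = _ := h3.fderiv
    rw [h4]
    simp
  have hP := retCT_pompeiu hψc hψs
  have hint : ∀ v, Integrable (fun t : ℂ => t⁻¹ • fderiv ℝ φ (w - t) v) := by
    intro v
    have hg : Continuous (fun a => fderiv ℝ φ a v) :=
      (hc.continuous_fderiv one_ne_zero).clm_apply continuous_const
    have hgs : HasCompactSupport (fun a => fderiv ℝ φ a v) :=
      (hs.fderiv ℝ).comp_left (g := fun L : ℂ →L[ℝ] E => L v) (by simp)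
    exact (hgs.convolutionExists_right (ContinuousLinearMap.lsmul ℝ ℂ : ℂ →L[ℝ] E →L[ℝ] E)
      retCT_locallyIntegrable_inv hg w).integrable
  have e : ∫ t : ℂ, t⁻¹ • (fderiv ℝ ψ t 1 + I • fderiv ℝ ψ t I)
      = -((∫ t : ℂ, t⁻¹ • fderiv ℝ φ (w - t) 1) + I • ∫ t : ℂ, t⁻¹ • fderiv ℝ φ (w - t) I) := by
    rw [← integral_smul, ← integral_add (hint 1) ((hint I).fun_smul I), ← integral_neg]
    congr 1
    funext t
    rw [hψd, hψd, smul_comm I]
    simp only [smul_add, smul_neg]
    abel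
  rw [e, neg_smul, neg_inj] at hP
  unfold retDbar
  rw [retCT_fderiv_apply hc hs, retCT_fderiv_apply hc hs, smul_comm I, ← smul_add, hP, smul_smul,
    smul_smul]
  have hpi : (Real.pi : ℂ) ≠ 0 := by exact_mod_cast Real.pi_ne_zero
  have e2 : (1 / 2 : ℂ) * (Real.pi : ℂ)⁻¹ * ((2 * Real.pi : ℝ) : ℂ) = 1 := by
    push_cast
    field_simp
  rw [e2, one_smul, hψ]
  simp

end Claimed.Agent.R280
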