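import Claimed.Agent.R280.RET.P1Defs

/-!
# Row 280, package RET0 (EVERYTHING IN THIS FILE IS PROVED): change of the ground field along an isomorphism `e : k' ≃+* k`

`M` is an algebra over `k` and over `k'`, compatibly with `e`.  Places, `Sur`, transcendence, generation and Weierstrass equations do not change.

Owner: helper256.
-/

set_option autoImplicit false

namespace Claimed.Agent.R280

open WithZero
open scoped Pointwise

variable {k k' M : Type} [Field k] [Field k'] [Field M] [Algebra k M] [Algebra k' M]

/-- the same valuation, regarded as a place over `k'` -/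
def Place.reBase (e : k' ≃+* k) (he : ∀ a, algebraMap k' M a = algebraMap k M (e a))
    (P : Place k M) : Place k' M where
  v := P.v
  surj := P.surj
  triv := fun a ha => by
    rw [he]
    exact P.triv _ (by simpa using ha)

theorem Place.reBase_injective (e : k' ≃+* k) (he : ∀ a, algebraMap k' M a = algebraMap k M (e a)) :
    Function.Injective (Place.reBase (M := M) e he) := fun P Q h => by
  have : P.v = Q.v := congrArg (fun R : Place k' M => R.v) h
  exact Place.ext this

theorem Place.reBase_surjective (e : k' ≃+* k)
    (he : ∀ a, algebraMap k' M a = algebraMap k M (e a)) :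
    Function.Surjective (Place.reBase (M := M) e he) := fun P =>
  ⟨P.reBase e.symm (fun a => by rw [he, e.apply_symm_apply]), Place.ext rfl⟩

theorem sur_reBase (e : k' ≃+* k) (he : ∀ a, algebraMap k' M a = algebraMap k M (e a)) (E : Type)
    [Field E] [Algebra M E] (J : Type) [Group J] {n : ℕ} (ξ : Fin n → Place k M) (ζ : k')
    (C : Multiset (ConjClasses J)) :
    Sur E J (fun i => (ξ i).reBase e he) ζ C = Sur E J ξ (e ζ) C := by
  ext φ
  simp only [Sur, Set.mem_ofPred_eq]
  refine and_congr_right fun _ => and_congr_right fun _ => and_congr ?_ ?_
  · constructor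
    · intro h P hP
      exact h (P.reBase e he) (by
        rintro ⟨i, hi⟩
        exact hP ⟨i, Place.reBase_injective e he hi⟩)
    · intro h P' hP'
      obtain ⟨P, rfl⟩ := Place.reBase_surjective e he P'
      exact h P (by
        rintro ⟨i, rfl⟩
        exact hP' ⟨i, rfl⟩)
  · refine exists_congr fun c => and_congr_right fun _ => forall_congr' fun i =>
      forall_congr' fun V => forall_congr' fun g => ?_
    have h1 : ((ξ i).reBase e he).Above E V ↔ (ξ i).Above E V := Iff.rfl
    have h2 : IsCanon E ((ξ i).reBase e he) V (Nat.card J) ζ g ↔
        IsCanon E (ξ i) V (Nat.card J) (e ζ) g := by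
      simp only [IsCanon, he]
      rfl
    rw [h1, h2]

theorem transcendental_reBase (e : k' ≃+* k) (he : ∀ a, algebraMap k' M a = algebraMap k M (e a))
    {x : M} (hx : Transcendental k x) : Transcendental k' x := by
  intro ⟨p, hp0, hp⟩
  apply hx
  refine ⟨p.map e.toRingHom, (Polynomial.map_ne_zero_iff e.injective).2 hp0, ?_⟩
  rw [Polynomial.aeval_def, Polynomial.eval₂_map]
  rw [Polynomial.aeval_def] at hp
  have : (algebraMap k M).comp e.toRingHom = algebraMap k' M := RingHom.ext fun a => (he a).symm
  rw [this]
  exact hp

theorem adjoin_reBase (e : k' ≃+* k) (he : ∀ a, algebraMap k' M a = algebraMap k M (e a))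
    {S : Set M} (hS : IntermediateField.adjoin k S = ⊤) : IntermediateField.adjoin k' S = ⊤ := by
  rw [eq_top_iff]
  intro z _
  let T : IntermediateField k M :=
    { (IntermediateField.adjoin k' S).toSubfield with
      algebraMap_mem' := fun a => by
        have := (IntermediateField.adjoin k' S).algebraMap_mem (e.symm a)
        rw [he, e.apply_symm_apply] at this
        exact this }
  have hT : IntermediateField.adjoin k S ≤ T :=
    IntermediateField.adjoin_le_iff.2 (fun s hs => IntermediateField.subset_adjoin k' S hs)
  have : z ∈ T := hT (hS ▸ IntermediateField.mem_top)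
  exact this

theorem weier_reBase (e : k' ≃+* k) (he : ∀ a, algebraMap k' M a = algebraMap k M (e a))
    (W : WeierstrassCurve k) :
    (W.map e.symm.toRingHom).baseChange M = W.baseChange M := by
  have : (algebraMap k' M).comp e.symm.toRingHom = algebraMap k M := RingHom.ext fun a => by
    simp [he]
  rw [WeierstrassCurve.baseChange, WeierstrassCurve.baseChange, WeierstrassCurve.map_map, this]

end Claimed.Agent.R280
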