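import Claimed.Agent.R280.RET.P1Defs

/-!
# Row 280, package RETB: braid moves; a sphere datum exists for every enumeration of the places

`(γ_j, γ_{j+1}) ↦ (γ_j γ_{j+1} γ_j⁻¹, γ_j)`, `(V_j, V_{j+1}) ↦ (γ_j • V_{j+1}, V_j)`, `(P_j, P_{j+1}) ↦ (P_{j+1}, P_j)`.

Everything in this file is PROVED (from the statements `IsCanon.conj`, `Place.above_smul` of package Gal1).

Owner: helper256.
-/

set_option autoImplicit false

namespace Claimed.Agent.R280

open scoped Pointwise

/-- the braid move on tuples -/
def braidFun {G : Type} [Group G] {r : ℕ} (j j' : Fin r) (g : Fin r → G) : Fin r → G :=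
  fun k => if k = j then g j * g j' * (g j)⁻¹ else if k = j' then g j else g k

theorem braidFun_prod_aux {G : Type} [Group G] : ∀ {r : ℕ} (j j' : Fin r) (_ : (j' : ℕ) = j + 1)
    (g : Fin r → G), (List.ofFn (braidFun j j' g)).prod = (List.ofFn g).prod := by
  intro r
  induction r with
  | zero => intro j; exact j.elim0
  | succ r ih =>
    intro j j' hj g
    have hj'0 : j' ≠ 0 := by
      intro h
      rw [h] at hj
      simp at hj
    obtain ⟨j1, rfl⟩ := Fin.exists_succ_eq.2 hj'0
    induction j using Fin.cases with
    | zero =>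
      have hj1 : (j1 : ℕ) = 0 := by simpa using hj
      cases r with
      | zero => exact j1.elim0
      | succ r =>
        have hj1' : j1 = 0 := Fin.ext hj1
        subst hj1'
        rw [List.ofFn_succ, List.ofFn_succ, List.ofFn_succ (f := g), List.ofFn_succ]
        have e : (fun i : Fin r => braidFun (0 : Fin (r + 1 + 1)) (Fin.succ 0) g i.succ.succ)
            = fun i => g i.succ.succ := by
          funext i
          have h1 : i.succ.succ ≠ (0 : Fin (r + 1 + 1)) := Fin.succ_ne_zero _
          have h2 : i.succ.succ ≠ (Fin.succ 0 : Fin (r + 1 + 1)) := by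
            intro h
            exact Fin.succ_ne_zero _ (Fin.succ_injective _ h)
          simp only [braidFun, h1, h2, if_false]
        have e0 : braidFun (0 : Fin (r + 1 + 1)) (Fin.succ 0) g 0
            = g 0 * g (Fin.succ 0) * (g 0)⁻¹ := by simp [braidFun]
        have e1 : braidFun (0 : Fin (r + 1 + 1)) (Fin.succ 0) g (Fin.succ 0) = g 0 := by
          have h1 : (Fin.succ 0 : Fin (r + 1 + 1)) ≠ 0 := Fin.succ_ne_zero _
          simp only [braidFun, h1, if_false, if_true]
        simp only [List.prod_cons]
        rw [e, e0, e1]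
        group
    | succ j0 =>
      have hj0 : (j1 : ℕ) = j0 + 1 := by simpa using hj
      rw [List.ofFn_succ, List.ofFn_succ (f := g), List.prod_cons, List.prod_cons]
      have e : (fun i : Fin r => braidFun j0.succ j1.succ g i.succ)
          = braidFun j0 j1 (fun i => g i.succ) := by
        funext i
        simp only [braidFun, Fin.succ_inj]
      have e0 : braidFun j0.succ j1.succ g 0 = g 0 := by
        have h1 : (0 : Fin (r + 1)) ≠ j0.succ := (Fin.succ_ne_zero _).symm
        have h2 : (0 : Fin (r + 1)) ≠ j1.succ := (Fin.succ_ne_zero _).symm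
        simp only [braidFun, h1, h2, if_false]
      rw [e, e0, ih j0 j1 hj0]

theorem braidFun_prod {G : Type} [Group G] {r : ℕ} (j j' : Fin r) (hj : (j' : ℕ) = j + 1)
    (g : Fin r → G) : (List.ofFn (braidFun j j' g)).prod = (List.ofFn g).prod :=
  braidFun_prod_aux j j' hj g

/-- the inverse braid move -/
def braidInv {G : Type} [Group G] {r : ℕ} (j j' : Fin r) (g : Fin r → G) : Fin r → G :=
  fun k => if k = j then g j' else if k = j' then (g j')⁻¹ * g j * g j' else g k

theorem braidFun_bijective {G : Type} [Group G] {r : ℕ} (j j' : Fin r) (hj : (j' : ℕ) = j + 1) :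
    Function.Bijective (braidFun (G := G) j j') := by
  have hne : j' ≠ j := by
    intro h
    rw [h] at hj
    omega
  refine Function.bijective_iff_has_inverse.2 ⟨braidInv j j', fun g => ?_, fun g => ?_⟩
  · funext k
    by_cases h1 : k = j
    · subst h1
      simp [braidInv, braidFun, hne]
    · by_cases h2 : k = j'
      · subst h2
        simp [braidInv, braidFun, hne]
        group
      · simp [braidInv, braidFun, h1, h2]
  · funext k
    by_cases h1 : k = j
    · subst h1
      simp [braidInv, braidFun, hne]
      group
    · by_cases h2 : k = j'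
      · subst h2
        simp [braidInv, braidFun, hne]
      · simp [braidInv, braidFun, h1, h2]

theorem braidFun_map {G H : Type} [Group G] [Group H] (φ : G →* H) {r : ℕ} (j j' : Fin r)
    (g : Fin r → G) : (fun k => φ (braidFun j j' g k)) = braidFun j j' (fun k => φ (g k)) := by
  funext k
  by_cases h1 : k = j
  · simp [braidFun, h1]
  · by_cases h2 : k = j'
    · subst h2
      simp [braidFun, h1]
    · simp [braidFun, h1, h2]

variable {M : Type} {E : Type} [Field M] [Field E] [Algebra ℂ M] [Algebra M E] [IsFF ℂ M]
  [IsAlgClosure M E]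

theorem IsP1Datum.braid {r : ℕ} {P : Fin r → Place ℂ M} {γ : Fin r → (E ≃ₐ[M] E)}
    {V : Fin r → ValuationSubring E} (h : IsP1Datum E P γ V) (j j' : Fin r)
    (hj : (j' : ℕ) = j + 1) :
    IsP1Datum E (P ∘ Equiv.swap j j') (braidFun j j' γ)
      (fun k => if k = j then γ j • V j' else if k = j' then V j else V k) := by
  have hne : j' ≠ j := by
    intro h
    rw [h] at hj
    omega
  refine ⟨fun k => ?_, fun k m hm => ?_, fun G _ _ => ?_⟩
  · by_cases h1 : k = j
    · subst h1
      simp only [Function.comp_apply, Equiv.swap_apply_left, if_true]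
      exact Place.above_smul (h.above j') _
    · by_cases h2 : k = j'
      · subst h2
        simp only [Function.comp_apply, Equiv.swap_apply_right, if_true, h1, if_false]
        exact h.above j
      · simp only [Function.comp_apply, Equiv.swap_apply_of_ne_of_ne h1 h2, h1, h2, if_false]
        exact h.above k
  · by_cases h1 : k = j
    · subst h1
      simp only [Function.comp_apply, Equiv.swap_apply_left, if_true, braidFun]
      exact (h.canon j' m hm).conj _
    · by_cases h2 : k = j'
      · subst h2
        simp only [Function.comp_apply, Equiv.swap_apply_right, if_true, h1, if_false, braidFun]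
        exact h.canon j m hm
      · simp only [Function.comp_apply, Equiv.swap_apply_of_ne_of_ne h1 h2, h1, h2, if_false,
          braidFun]
        exact h.canon k m hm
  · have hr : Set.range (P ∘ Equiv.swap j j') = Set.range P :=
      (Equiv.swap j j').surjective.range_comp P
    rw [hr]
    have hfun : (fun (φ : (E ≃ₐ[M] E) →* G) (k : Fin r) => φ (braidFun j j' γ k))
        = braidFun j j' ∘ (fun (φ : (E ≃ₐ[M] E) →* G) (k : Fin r) => φ (γ k)) := by
      funext φ
      exact braidFun_map φ j j' γ
    rw [hfun]
    refine Set.BijOn.comp ?_ (h.bij G)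
    refine ⟨fun g hg => ?_, (braidFun_bijective j j' hj).injective.injOn, fun g hg => ?_⟩
    · show (List.ofFn (braidFun j j' g)).prod = 1
      rw [braidFun_prod j j' hj]
      exact hg
    · obtain ⟨g0, rfl⟩ := (braidFun_bijective (G := G) j j' hj).surjective g
      refine ⟨g0, ?_, rfl⟩
      have : (List.ofFn (braidFun j j' g0)).prod = 1 := hg
      rwa [braidFun_prod j j' hj] at this

/-- a sphere datum can be re-enumerated arbitrarily -/
theorem IsP1Datum.perm {r : ℕ} {P : Fin r → Place ℂ M} {γ : Fin r → (E ≃ₐ[M] E)}
    {V : Fin r → ValuationSubring E} (h : IsP1Datum E P γ V) (π : Equiv.Perm (Fin r)) :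
    ∃ γ' V', IsP1Datum E (P ∘ π) γ' V' := by
  cases r with
  | zero =>
    have : P ∘ π = P := Subsingleton.elim _ _
    exact ⟨γ, V, by rwa [this]⟩
  | succ n =>
    have key : ∀ π : Equiv.Perm (Fin (n + 1)), ∀ (P : Fin (n + 1) → Place ℂ M)
        (γ : Fin (n + 1) → (E ≃ₐ[M] E)) (V : Fin (n + 1) → ValuationSubring E),
        IsP1Datum E P γ V → ∃ γ' V', IsP1Datum E (P ∘ π) γ' V' := by
      intro π
      have hπ : π ∈ Submonoid.closure
          (Set.range fun i : Fin n => Equiv.swap i.castSucc i.succ) := by
        rw [Equiv.Perm.mclosure_swap_castSucc_succ]; trivial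
      induction hπ using Submonoid.closure_induction with
      | mem x hx =>
        obtain ⟨i, rfl⟩ := hx
        intro P γ V h
        exact ⟨_, _, h.braid i.castSucc i.succ (by simp)⟩
      | one => intro P γ V h; exact ⟨γ, V, h⟩
      | mul x y _ _ hx hy =>
        intro P γ V h
        obtain ⟨γ1, V1, h1⟩ := hx P γ V h
        obtain ⟨γ2, V2, h2⟩ := hy _ _ _ h1
        exact ⟨γ2, V2, h2⟩
    exact key π P γ V h

end Claimed.Agent.R280
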