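import Claimed.Agent.R280.RET.P1Defs

/-!
# Row 280, package RETC: from a torus datum to the count of marked covers (EVERYTHING IN THIS FILE IS PROVED)

* `sur_comp_perm` : `Sur` does not depend on the enumeration of the marked places.
* `IsTorusDatum.bijOn_sur` : `φ ↦ (φ α, φ β, φ ∘ γ)` is a bijection `Sur E J P (zetaC |J|) C → Tup J n C`.
  - classes: `c i = mk (φ (γ i))`; every canonical `g` at `V'` above `P i` is handled by `Place.above_conj`, `IsCanon.conj`, `IsCanon.map_eq`.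
  - `φ` surjective `↔` the tuple generates `J`: for `⇒` apply `bij` to the subgroup `H` generated by the tuple and use injectivity for `J`.

Owner: helper256.
-/

set_option autoImplicit false

namespace Claimed.Agent.R280

open scoped Pointwise

theorem sur_comp_perm {k M : Type} (E : Type) [Field k] [Field M] [Field E] [Algebra k M]
    [Algebra M E] (J : Type) [Group J] {n : ℕ} (ξ : Fin n → Place k M) (π : Equiv.Perm (Fin n))
    (ζ : k) (C : Multiset (ConjClasses J)) : Sur E J (ξ ∘ π) ζ C = Sur E J ξ ζ C := by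
  have hr : Set.range (ξ ∘ π) = Set.range ξ := π.surjective.range_comp ξ
  have hmap : ∀ (c : Fin n → ConjClasses J) (ρ : Equiv.Perm (Fin n)),
      Finset.univ.val.map (c ∘ ρ) = Finset.univ.val.map c := by
    intro c ρ
    rw [← Multiset.map_map]
    congr 1
    have := Finset.map_univ_equiv ρ
    have h2 := congrArg Finset.val this
    simpa [Finset.map_val] using h2
  ext φ
  simp only [Sur, Set.mem_ofPred_eq, hr]
  refine and_congr_right fun _ => and_congr_right fun _ => and_congr_right fun _ => ?_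
  constructor
  · rintro ⟨c, hc, h⟩
    refine ⟨c ∘ π.symm, by rw [hmap, hc], fun i V g hV hg => ?_⟩
    have := h (π.symm i) V g (by simpa using hV) (by simpa using hg)
    simpa using this
  · rintro ⟨c, hc, h⟩
    exact ⟨c ∘ π, by rw [hmap, hc], fun i V g hV hg => h (π i) V g hV hg⟩

variable {M : Type} {E : Type} [Field M] [Field E] [Algebra ℂ M] [Algebra M E] [IsFF ℂ M]
  [IsAlgClosure M E]

theorem IsTorusDatum.class_iff {n : ℕ} {P : Fin n → Place ℂ M} {α β : E ≃ₐ[M] E}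
    {γ : Fin n → (E ≃ₐ[M] E)} {V : Fin n → ValuationSubring E} (h : IsTorusDatum E P α β γ V)
    (J : Type) [Group J] [Finite J] (C : Multiset (ConjClasses J)) (φ : (E ≃ₐ[M] E) →* J)
    (hφ : IsOpen (φ.ker : Set (E ≃ₐ[M] E))) :
    (∃ c : Fin n → ConjClasses J, Finset.univ.val.map c = C ∧
      ∀ (i : Fin n) (V' : ValuationSubring E) (g : E ≃ₐ[M] E), (P i).Above E V' →
        IsCanon E (P i) V' (Nat.card J) (zetaC (Nat.card J)) g → ConjClasses.mk (φ g) = c i) ↔
    (Finset.univ.val.map fun i => ConjClasses.mk (φ (γ i))) = C := by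
  have hm : 0 < Nat.card J := Nat.card_pos
  constructor
  · rintro ⟨c, hc, hh⟩
    have : (fun i => ConjClasses.mk (φ (γ i))) = c :=
      funext fun i => hh i (V i) (γ i) (h.above i) (h.canon i _ hm)
    rw [this, hc]
  · intro hC
    refine ⟨_, hC, fun i V' g hV' hg => ?_⟩
    obtain ⟨g₀, rfl⟩ := Place.above_conj (h.above i) hV'
    have h1 := (h.canon i _ hm).conj g₀
    have h2 := IsCanon.map_eq φ hφ hV' (zetaC_isPrimitiveRoot hm.ne') dvd_rfl hm hg h1
    rw [h2, ConjClasses.mk_eq_mk_iff_isConj, isConj_comm, isConj_iff]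
    exact ⟨φ g₀, by simp⟩

omit [IsFF ℂ M] [IsAlgClosure M E] in
theorem IsTorusDatum.surj_iff {n : ℕ} {P : Fin n → Place ℂ M} {α β : E ≃ₐ[M] E}
    {γ : Fin n → (E ≃ₐ[M] E)} {V : Fin n → ValuationSubring E} (h : IsTorusDatum E P α β γ V)
    (J : Type) [Group J] [Finite J] (φ : (E ≃ₐ[M] E) →* J) (hφ : φ ∈ HomUnram E J (Set.range P)) :
    Function.Surjective φ ↔
      Subgroup.closure ({φ α, φ β} ∪ Set.range fun k => φ (γ k)) = ⊤ := by
  constructor
  · intro hs
    set H := Subgroup.closure ({φ α, φ β} ∪ Set.range fun k => φ (γ k)) with hH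
    have hα : φ α ∈ H := Subgroup.subset_closure (Or.inl (by simp))
    have hβ : φ β ∈ H := Subgroup.subset_closure (Or.inl (by simp))
    have hγ : ∀ k, φ (γ k) ∈ H := fun k => Subgroup.subset_closure (Or.inr ⟨k, rfl⟩)
    have hrel := (h.bij J).mapsTo hφ
    have hrel' : ((⟨φ α, hα⟩, ⟨φ β, hβ⟩, fun k => ⟨φ (γ k), hγ k⟩) : H × H × (Fin n → H)) ∈
        {t : H × H × (Fin n → H) | t.1 * t.2.1 * t.1⁻¹ * t.2.1⁻¹ * (List.ofFn t.2.2).prod = 1} := by
      show (⟨φ α, hα⟩ : H) * ⟨φ β, hβ⟩ * (⟨φ α, hα⟩ : H)⁻¹ * (⟨φ β, hβ⟩ : H)⁻¹ *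
        (List.ofFn fun k => (⟨φ (γ k), hγ k⟩ : H)).prod = 1
      apply Subtype.ext
      have e : ((List.ofFn fun k => (⟨φ (γ k), hγ k⟩ : H)).prod : J)
          = (List.ofFn fun k => φ (γ k)).prod := by
        rw [← Subgroup.coe_subtype, map_list_prod, List.map_ofFn]
        rfl
      simp only [Subgroup.coe_mul, Subgroup.coe_inv, e, Subgroup.coe_one]
      exact hrel
    obtain ⟨ψ, hψ, hψt⟩ := (h.bij H).surjOn hrel'
    have hcomp := homUnram_comp H.subtype hψ
    have heq : H.subtype.comp ψ = φ := (h.bij J).injOn hcomp hφ (by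
      simp only [Prod.mk.injEq] at hψt
      obtain ⟨e1, e2, e3⟩ := hψt
      simp only [MonoidHom.comp_apply, Subgroup.coe_subtype, e1, e2, Prod.mk.injEq, true_and]
      funext k
      rw [congrFun e3 k])
    rw [eq_top_iff]
    intro j _
    obtain ⟨g, rfl⟩ := hs j
    rw [← heq]
    exact (ψ g).2
  · intro hc
    rw [← MonoidHom.range_eq_top, eq_top_iff, ← hc, Subgroup.closure_le]
    rintro _ (hx | ⟨k, rfl⟩)
    · rcases hx with rfl | rfl
      · exact ⟨α, rfl⟩
      · exact ⟨β, rfl⟩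
    · exact ⟨γ k, rfl⟩

theorem IsTorusDatum.bijOn_sur {n : ℕ} {P : Fin n → Place ℂ M} {α β : E ≃ₐ[M] E}
    {γ : Fin n → (E ≃ₐ[M] E)} {V : Fin n → ValuationSubring E} (h : IsTorusDatum E P α β γ V)
    (J : Type) [Group J] [Finite J] (C : Multiset (ConjClasses J)) :
    Set.BijOn (fun (φ : (E ≃ₐ[M] E) →* J) => ((φ α, φ β, fun k => φ (γ k)) : J × J × (Fin n → J)))
      (Sur E J P (zetaC (Nat.card J)) C) (Tup J n C) := by
  have hsub : Sur E J P (zetaC (Nat.card J)) C ⊆ HomUnram E J (Set.range P) :=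
    fun φ hφ => ⟨hφ.1, hφ.2.2.1⟩
  refine ⟨fun φ hφ => ?_, (h.bij J).injOn.mono hsub, fun t ht => ?_⟩
  · exact ⟨(h.bij J).mapsTo (hsub hφ), (h.surj_iff J φ (hsub hφ)).1 hφ.2.1,
      (h.class_iff J C φ hφ.1).1 hφ.2.2.2⟩
  · obtain ⟨φ, hφ, rfl⟩ := (h.bij J).surjOn ht.1
    exact ⟨φ, ⟨hφ.1, (h.surj_iff J φ hφ).2 ht.2.1, hφ.2, (h.class_iff J C φ hφ.1).2 ht.2.2⟩, rfl⟩

theorem IsTorusDatum.card_sur {n : ℕ} {P : Fin n → Place ℂ M} {α β : E ≃ₐ[M] E}
    {γ : Fin n → (E ≃ₐ[M] E)} {V : Fin n → ValuationSubring E} (h : IsTorusDatum E P α β γ V)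
    (J : Type) [Group J] [Finite J] (C : Multiset (ConjClasses J)) :
    Nat.card (Sur E J P (zetaC (Nat.card J)) C) = Nat.card (Tup J n C) :=
  Nat.card_congr (h.bijOn_sur J C).equiv

end Claimed.Agent.R280
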