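import Claimed.Agent.R280.RET.P1Defs

/-! # Row 280, RET / TOP-2 (overview: `Sorted.lean`) -/

set_option autoImplicit false

namespace Claimed.Agent.R280

open Polynomial WithZero
open scoped Pointwise

/-- `φ (γ) = 1` for a canonical generator `γ` at `V` above `P` ⇒ `φ` is unramified at `P` -/
theorem ret_unramAt_of_canon {M E : Type} [Field M] [Field E] [Algebra ℂ M] [Algebra M E] [IsFF ℂ M]
    [IsAlgClosure M E] {G : Type} [Group G] [Finite G] (φ : (E ≃ₐ[M] E) →* G)
    (hφ : IsOpen (φ.ker : Set (E ≃ₐ[M] E))) {P : Place ℂ M} {V : ValuationSubring E}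
    (hV : P.Above E V) {γ : E ≃ₐ[M] E} (hc : ∀ m, 0 < m → IsCanon E P V m (zetaC m) γ)
    (h1 : φ γ = 1) : UnramAt E φ P := by
  intro V' hV' g hg
  obtain ⟨h, hh⟩ := Place.above_conj hV hV'
  have hfix : (h⁻¹ * g * h) • V = V := by
    rw [mul_smul, mul_smul, hh, hg, ← hh, inv_smul_smul]
  have hcard : 0 < Nat.card G := Nat.card_pos
  have hmem := IsCanon.map_mem_zpowers φ hφ hV (zetaC_isPrimitiveRoot hcard.ne') dvd_rfl hcard
    (hc _ hcard) hfix
  rw [h1, Subgroup.zpowers_one_eq_bot, Subgroup.mem_bot, map_mul, map_mul, map_inv] at hmem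
  have : φ g = φ h * ((φ h)⁻¹ * φ g * φ h) * (φ h)⁻¹ := by group
  rw [this, hmem]
  group

/-- TOP-2.  `φ` unramified at `P (last)` ⇒ `φ (γ last) = 1`; conversely `φ (γ last) = 1` ⇒ `φ` unramified at `P (last)` (`Place.above_conj`, `IsCanon.map_mem_zpowers` with `m = Nat.card G`). -/
theorem IsP1Datum.drop_last {M E : Type} [Field M] [Field E] [Algebra ℂ M] [Algebra M E] [IsFF ℂ M]
    [IsAlgClosure M E] {r : ℕ} {P : Fin (r + 1) → Place ℂ M} {γ : Fin (r + 1) → (E ≃ₐ[M] E)}
    {V : Fin (r + 1) → ValuationSubring E} (h : IsP1Datum E P γ V) (hinj : Function.Injective P) :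
    IsP1Datum E (P ∘ Fin.castSucc) (γ ∘ Fin.castSucc) (V ∘ Fin.castSucc) := by
  refine ⟨fun k => h.above _, fun k m hm => h.canon _ m hm, ?_⟩
  intro G _ _
  have hB := h.bij G
  have hsub : Set.range (P ∘ Fin.castSucc) ⊆ Set.range P := Set.range_comp_subset_range _ _
  have hlast : P (Fin.last r) ∉ Set.range (P ∘ Fin.castSucc) := by
    rintro ⟨k, hk⟩
    exact (Fin.castSucc_lt_last k).ne (hinj hk)
  -- the two descriptions of the smaller set of homomorphisms
  have hA1 : ∀ φ ∈ HomUnram E G (Set.range (P ∘ Fin.castSucc)),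
      φ ∈ HomUnram E G (Set.range P) ∧ φ (γ (Fin.last r)) = 1 := by
    intro φ hφ
    refine ⟨⟨hφ.1, fun Q hQ => hφ.2 Q (fun hQ' => hQ (hsub hQ'))⟩, ?_⟩
    exact hφ.2 _ hlast (V (Fin.last r)) (h.above _) _ (h.canon _ 1 one_pos).1
  have hA2 : ∀ φ ∈ HomUnram E G (Set.range P), φ (γ (Fin.last r)) = 1 →
      φ ∈ HomUnram E G (Set.range (P ∘ Fin.castSucc)) := by
    intro φ hφ h1
    refine ⟨hφ.1, fun Q hQ => ?_⟩
    by_cases hQP : Q ∈ Set.range P
    · obtain ⟨k, rfl⟩ := hQP
      induction k using Fin.lastCases with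
      | last => exact ret_unramAt_of_canon φ hφ.1 (h.above _) (h.canon _) h1
      | cast k => exact absurd ⟨k, rfl⟩ hQ
    · exact hφ.2 Q hQP
  have hprod : ∀ g : Fin (r + 1) → G, (List.ofFn g).prod
      = (List.ofFn (g ∘ Fin.castSucc)).prod * g (Fin.last r) := by
    intro g
    rw [List.ofFn_succ_last, List.prod_append, List.prod_singleton]
    rfl
  refine ⟨?_, ?_, ?_⟩
  · intro φ hφ
    obtain ⟨h1, h2⟩ := hA1 φ hφ
    have h3 : (List.ofFn fun k => φ (γ k)).prod = 1 := hB.mapsTo h1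
    rw [hprod, h2, mul_one] at h3
    exact h3
  · intro φ hφ φ' hφ' heq
    obtain ⟨h1, h2⟩ := hA1 φ hφ
    obtain ⟨h1', h2'⟩ := hA1 φ' hφ'
    apply hB.injOn h1 h1'
    funext k
    induction k using Fin.lastCases with
    | last => simp only [h2, h2']
    | cast k => exact congrFun heq k
  · intro g hg
    have hg' : (List.ofFn g).prod = 1 := hg
    have hsn : (List.ofFn (Fin.snoc g 1 : Fin (r + 1) → G)).prod = 1 := by
      rw [hprod, Fin.snoc_last, mul_one]
      have : ((Fin.snoc g 1 : Fin (r + 1) → G) ∘ Fin.castSucc) = g := by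
        funext k; simp
      rw [this, hg']
    obtain ⟨φ, hφ, hφg⟩ := hB.surjOn hsn
    have hl : φ (γ (Fin.last r)) = 1 := by
      have := congrFun hφg (Fin.last r)
      simpa using this
    refine ⟨φ, hA2 φ hφ hl, ?_⟩
    funext k
    have := congrFun hφg (Fin.castSucc k)
    simpa using this

end Claimed.Agent.R280
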