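import Claimed.Agent.R280.RET.FrameH

/-!
# Row 280, RET / FRAME-2g: the two frames of the chart at infinity   (owner of the statements: helper30)
`up z = if R < z.im then (ρ (h j(z)))⁻¹ else 1`, `dn z = if z.im < -R then ρ (h j(z)) else 1`, `j(z) = retJ b z`: locally constant on
`retExt R ∩ retDup b` resp. `retExt R ∩ retDdn b`.
-/

set_option autoImplicit false
set_option linter.unusedSectionVars false

namespace Claimed.Agent.R280

open Complex Topology

variable {r : ℕ} {S : Type} [Fintype S]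

open Classical in
/-- `ρ (η (j(z)))` on `Ω`, the identity elsewhere -/
noncomputable def retSw (b : Fin r → ℂ) (Ω : Set ℂ) (η : ℕ → Equiv.Perm S) (z : ℂ) :
    (S → ℂ) →L[ℂ] (S → ℂ) :=
  if z ∈ Ω then retRho (η (retJ b z)) else ContinuousLinearMap.id ℂ (S → ℂ)

variable (b : Fin r → ℂ) (Ω : Set ℂ) (η : ℕ → Equiv.Perm S)

theorem retSw_of_one {z : ℂ} (h : η (retJ b z) = 1) :
    retSw b Ω η z = ContinuousLinearMap.id ℂ (S → ℂ) := by
  rw [retSw, h, retRho_one, ite_self]

theorem retSw_of_mem {z : ℂ} (h : z ∈ Ω) : retSw b Ω η z = retRho (η (retJ b z)) := by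
  rw [retSw, if_pos h]

theorem retSw_of_not_mem {z : ℂ} (h : z ∉ Ω) :
    retSw b Ω η z = ContinuousLinearMap.id ℂ (S → ℂ) := by
  rw [retSw, if_neg h]

theorem retSw_norm_le (z : ℂ) : ‖retSw b Ω η z‖ ≤ 1 := by
  by_cases h : z ∈ Ω
  · rw [retSw_of_mem b Ω η h]; exact retRho_norm_le _
  · rw [retSw_of_not_mem b Ω η h]; exact ContinuousLinearMap.norm_id_le

theorem retSw_comp_inv (z : ℂ) :
    (retSw b Ω η z).comp (retSw b Ω (fun j => (η j)⁻¹) z) = ContinuousLinearMap.id ℂ (S → ℂ) := by
  by_cases h : z ∈ Ω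
  · rw [retSw_of_mem b Ω _ h, retSw_of_mem b Ω _ h, retRho_comp_inv]
  · rw [retSw_of_not_mem b Ω _ h, retSw_of_not_mem b Ω _ h, ContinuousLinearMap.id_comp]

theorem retSw_inv_comp (z : ℂ) :
    (retSw b Ω (fun j => (η j)⁻¹) z).comp (retSw b Ω η z) = ContinuousLinearMap.id ℂ (S → ℂ) := by
  by_cases h : z ∈ Ω
  · rw [retSw_of_mem b Ω _ h, retSw_of_mem b Ω _ h, retRho_inv_comp]
  · rw [retSw_of_not_mem b Ω _ h, retSw_of_not_mem b Ω _ h, ContinuousLinearMap.id_comp]

theorem retSw_eventually_of_re {R : ℝ} (hη : ∀ w : ℂ, R < |w.re| → η (retJ b w) = 1) {z : ℂ}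
    (hz : R < |z.re|) : ∀ᶠ w in 𝓝 z, retSw b Ω η w = ContinuousLinearMap.id ℂ (S → ℂ) := by
  have : ∀ᶠ w : ℂ in 𝓝 z, R < |w.re| :=
    continuousAt_const.eventually_lt (Complex.continuous_re.abs).continuousAt hz
  filter_upwards [this] with w hw using retSw_of_one b Ω η (hη w hw)

theorem retSw_eventually_of_mem (hΩ : IsOpen Ω) {z : ℂ} (hz : z ∈ Ω) (hre : ∀ k, z.re ≠ (b k).re) :
    ∀ᶠ w in 𝓝 z, retSw b Ω η w = retSw b Ω η z := by
  filter_upwards [hΩ.mem_nhds hz, retJ_eventually_eq b hre] with w hw1 hw2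
  rw [retSw_of_mem b Ω η hw1, retSw_of_mem b Ω η hz, hw2]

theorem retSw_eventually_of_not_mem {Ω' : Set ℂ} (hΩ' : IsOpen Ω') (hd : Disjoint Ω Ω') {z : ℂ}
    (hz : z ∈ Ω') : ∀ᶠ w in 𝓝 z, retSw b Ω η w = ContinuousLinearMap.id ℂ (S → ℂ) := by
  filter_upwards [hΩ'.mem_nhds hz] with w hw
  exact retSw_of_not_mem b Ω η (fun h => Set.disjoint_left.1 hd h hw)

theorem ret_differentiableAt_of_eventually_const {F : Type} [NormedAddCommGroup F] [NormedSpace ℂ F]
    {f : ℂ → F} {z : ℂ} {c : F} (h : ∀ᶠ w in 𝓝 z, f w = c) : DifferentiableAt ℂ f z :=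
  (differentiableAt_const c).congr_of_eventuallyEq h

variable {b}

theorem retSw_up_differentiableAt {R : ℝ} (hR0 : 0 ≤ R)
    (hR : ∀ k, |(b k).re| ≤ R ∧ |(b k).im| ≤ R)
    (hη : ∀ w : ℂ, R < |w.re| → η (retJ b w) = 1) {z : ℂ} (hE : z ∈ retExt R) (hD : z ∈ retDup b) :
    DifferentiableAt ℂ (retSw b {z | R < z.im} η) z := by
  rcases hE with h | h
  · exact ret_differentiableAt_of_eventually_const (retSw_eventually_of_re b _ η hη h)
  · rcases lt_abs.1 h with h | h
    · refine ret_differentiableAt_of_eventually_const (retSw_eventually_of_mem b _ η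
        (isOpen_lt continuous_const Complex.continuous_im) h ?_)
      intro k hk
      have h1 := hD k hk
      have h2 := (le_abs_self _).trans (hR k).2
      linarith
    · refine ret_differentiableAt_of_eventually_const (retSw_eventually_of_not_mem b _ η
        (Ω' := {z | z.im < R}) (isOpen_lt Complex.continuous_im continuous_const) ?_ ?_)
      · rw [Set.disjoint_left]
        intro w (hw1 : R < w.im) (hw2 : w.im < R)
        exact absurd hw1 (not_lt.2 (le_of_lt hw2))
      · show z.im < R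
        linarith

theorem retSw_dn_differentiableAt {R : ℝ} (hR0 : 0 ≤ R)
    (hR : ∀ k, |(b k).re| ≤ R ∧ |(b k).im| ≤ R)
    (hη : ∀ w : ℂ, R < |w.re| → η (retJ b w) = 1) {z : ℂ} (hE : z ∈ retExt R) (hD : z ∈ retDdn b) :
    DifferentiableAt ℂ (retSw b {z | z.im < -R} η) z := by
  rcases hE with h | h
  · exact ret_differentiableAt_of_eventually_const (retSw_eventually_of_re b _ η hη h)
  · rcases lt_abs.1 h with h | h
    · refine ret_differentiableAt_of_eventually_const (retSw_eventually_of_not_mem b _ η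
        (Ω' := {z | -R < z.im}) (isOpen_lt continuous_const Complex.continuous_im) ?_ ?_)
      · rw [Set.disjoint_left]
        intro w (hw1 : w.im < -R) (hw2 : -R < w.im)
        exact absurd hw1 (not_lt.2 (le_of_lt hw2))
      · show -R < z.im
        linarith
    · refine ret_differentiableAt_of_eventually_const (retSw_eventually_of_mem b _ η
        (isOpen_lt Complex.continuous_im continuous_const) (by show z.im < -R; linarith) ?_)
      intro k hk
      have h1 := hD k hk
      have h2 := (neg_abs_le _).trans' (neg_le_neg (hR k).2)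
      linarith

end Claimed.Agent.R280
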