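import Claimed.Agent.R280.RET.Geom

/-!
# Row 280, package RET / LOGS (~300 lines): the two branches of `w ^ (1/m)`   (owner of the statements: helper30)
-/

set_option autoImplicit false

namespace Claimed.Agent.R280

open Complex

theorem retLogs_exp_half_pi : Complex.exp ((Real.pi / 2 : ℝ) * I) = I := by
  rw [Complex.exp_mul_I, ← Complex.ofReal_cos, ← Complex.ofReal_sin, Real.cos_pi_div_two,
    Real.sin_pi_div_two]
  simp

theorem retLogUp_exp {w : ℂ} (hw : w ≠ 0) : Complex.exp (retLogUp w) = w := by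
  unfold retLogUp
  rw [Complex.exp_sub, Complex.exp_log (mul_ne_zero hw I_ne_zero), retLogs_exp_half_pi]
  field_simp

theorem retLogDn_exp {w : ℂ} (hw : w ≠ 0) : Complex.exp (retLogDn w) = w := by
  unfold retLogDn
  rw [Complex.exp_add, Complex.exp_log (mul_ne_zero hw (neg_ne_zero.2 I_ne_zero)),
    retLogs_exp_half_pi, mul_assoc, neg_mul, I_mul_I, neg_neg, mul_one]

theorem retLogUp_differentiableAt {w : ℂ} (hw : ¬ (w.re = 0 ∧ 0 ≤ w.im)) :
    DifferentiableAt ℂ retLogUp w := by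
  unfold retLogUp
  have hs : w * I ∈ Complex.slitPlane := by
    rw [Complex.mem_slitPlane_iff]
    simp only [mul_re, I_re, mul_zero, I_im, mul_one, zero_sub, mul_im]
    by_contra hcon
    push Not at hcon
    exact hw ⟨by linarith [hcon.2], by linarith [hcon.1]⟩
  exact ((differentiableAt_id.mul_const I).clog hs).sub_const _

theorem retLogDn_differentiableAt {w : ℂ} (hw : ¬ (w.re = 0 ∧ w.im ≤ 0)) :
    DifferentiableAt ℂ retLogDn w := by
  unfold retLogDn
  have hs : w * (-I) ∈ Complex.slitPlane := by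
    rw [Complex.mem_slitPlane_iff]
    simp only [mul_re, neg_re, I_re, mul_zero, neg_im, I_im, mul_neg, mul_one, mul_im]
    by_contra hcon
    push Not at hcon
    exact hw ⟨by linarith [hcon.2], by linarith [hcon.1]⟩
  exact ((differentiableAt_id.mul_const (-I)).clog hs).add_const _

theorem retLogs_log_mul_I {v : ℂ} (hv : 0 < v.re) :
    Complex.log (v * I) = Complex.log v + (Real.pi / 2 : ℝ) * I := by
  have hv0 : v ≠ 0 := fun h => by rw [h] at hv; simp at hv
  have harg : |v.arg| < Real.pi / 2 := Complex.abs_arg_lt_pi_div_two_iff.2 (Or.inl hv)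
  rw [abs_lt] at harg
  rw [(Complex.log_mul_eq_add_log_iff hv0 I_ne_zero).2 ?_, Complex.log_I]
  · push_cast; ring
  · rw [Complex.arg_I]
    constructor <;> linarith [harg.1, harg.2, Real.pi_pos]

theorem retLogs_log_mul_neg_I {v : ℂ} (hv : 0 < v.re) :
    Complex.log (v * (-I)) = Complex.log v - (Real.pi / 2 : ℝ) * I := by
  have hv0 : v ≠ 0 := fun h => by rw [h] at hv; simp at hv
  have harg : |v.arg| < Real.pi / 2 := Complex.abs_arg_lt_pi_div_two_iff.2 (Or.inl hv)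
  rw [abs_lt] at harg
  rw [(Complex.log_mul_eq_add_log_iff hv0 (neg_ne_zero.2 I_ne_zero)).2 ?_, Complex.log_neg_I]
  · push_cast; ring
  · rw [Complex.arg_neg_I]
    constructor <;> linarith [harg.1, harg.2, Real.pi_pos]

theorem retLogDn_eq_of_re_pos {w : ℂ} (hw : 0 < w.re) : retLogDn w = retLogUp w := by
  unfold retLogDn retLogUp
  rw [retLogs_log_mul_I hw, retLogs_log_mul_neg_I hw]
  ring

theorem retLogDn_eq_of_re_neg {w : ℂ} (hw : w.re < 0) :
    retLogDn w = retLogUp w + 2 * Real.pi * I := by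
  unfold retLogDn retLogUp
  have hv : 0 < (-w).re := by simpa using hw
  have h1 : w * (-I) = (-w) * I := by ring
  have h2 : w * I = (-w) * (-I) := by ring
  rw [h1, h2, retLogs_log_mul_I hv, retLogs_log_mul_neg_I hv]
  push_cast
  ring

theorem retRootUp_pow {m : ℕ} (hm : 0 < m) {w : ℂ} (hw : w ≠ 0) : retRootUp m w ^ m = w := by
  unfold retRootUp
  have hm' : (m : ℂ) ≠ 0 := by exact_mod_cast hm.ne'
  rw [← Complex.exp_nat_mul, mul_div_cancel₀ _ hm', retLogUp_exp hw]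

theorem retRootDn_pow {m : ℕ} (hm : 0 < m) {w : ℂ} (hw : w ≠ 0) : retRootDn m w ^ m = w := by
  unfold retRootDn
  have hm' : (m : ℂ) ≠ 0 := by exact_mod_cast hm.ne'
  rw [← Complex.exp_nat_mul, mul_div_cancel₀ _ hm', retLogDn_exp hw]

theorem retRootUp_ne_zero (m : ℕ) (w : ℂ) : retRootUp m w ≠ 0 := Complex.exp_ne_zero _

theorem retRootDn_ne_zero (m : ℕ) (w : ℂ) : retRootDn m w ≠ 0 := Complex.exp_ne_zero _

theorem retRootUp_differentiableAt (m : ℕ) {w : ℂ} (hw : ¬ (w.re = 0 ∧ 0 ≤ w.im)) :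
    DifferentiableAt ℂ (retRootUp m) w := by
  unfold retRootUp
  exact ((retLogUp_differentiableAt hw).div_const _).cexp

theorem retRootDn_differentiableAt (m : ℕ) {w : ℂ} (hw : ¬ (w.re = 0 ∧ w.im ≤ 0)) :
    DifferentiableAt ℂ (retRootDn m) w := by
  unfold retRootDn
  exact ((retLogDn_differentiableAt hw).div_const _).cexp

theorem retRootDn_eq_of_re_pos (m : ℕ) {w : ℂ} (hw : 0 < w.re) : retRootDn m w = retRootUp m w := by
  unfold retRootDn retRootUp
  rw [retLogDn_eq_of_re_pos hw]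

theorem retRootDn_eq_of_re_neg (m : ℕ) {w : ℂ} (hw : w.re < 0) :
    retRootDn m w = Complex.exp (2 * Real.pi * I / m) * retRootUp m w := by
  unfold retRootDn retRootUp
  rw [retLogDn_eq_of_re_neg hw, add_div, Complex.exp_add, mul_comm]

theorem retLogs_norm_le_of_pow {m : ℕ} (hm : 0 < m) {t w : ℂ} (h : t ^ m = w) : ‖t‖ ≤ 1 + ‖w‖ := by
  have h1 : ‖t‖ ^ m = ‖w‖ := by rw [← norm_pow, h]
  by_cases ht : ‖t‖ ≤ 1
  · linarith [norm_nonneg w]
  · push Not at ht
    have := le_self_pow₀ ht.le hm.ne'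
    linarith

/-- `|w^(1/m)| ≤ 1 + |w|` -/
theorem retRootUp_norm_le {m : ℕ} (hm : 0 < m) (w : ℂ) (hw : w ≠ 0) : ‖retRootUp m w‖ ≤ 1 + ‖w‖ :=
  retLogs_norm_le_of_pow hm (retRootUp_pow hm hw)

theorem retRootDn_norm_le {m : ℕ} (hm : 0 < m) (w : ℂ) (hw : w ≠ 0) : ‖retRootDn m w‖ ≤ 1 + ‖w‖ :=
  retLogs_norm_le_of_pow hm (retRootDn_pow hm hw)

/-- `w^(1/m) → 0` as `w → 0` -/
theorem retRootUp_tendsto_zero {m : ℕ} (hm : 0 < m) :
    Filter.Tendsto (retRootUp m) (nhdsWithin 0 {0}ᶜ) (nhds 0) := by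
  rw [Metric.tendsto_nhdsWithin_nhds]
  intro ε hε
  refine ⟨ε ^ m, pow_pos hε m, fun w hw hd => ?_⟩
  have hw0 : w ≠ 0 := hw
  rw [dist_zero_right] at hd ⊢
  have h1 : ‖retRootUp m w‖ ^ m = ‖w‖ := by rw [← norm_pow, retRootUp_pow hm hw0]
  rw [← h1] at hd
  exact lt_of_pow_lt_pow_left₀ m hε.le hd

end Claimed.Agent.R280
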