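import Claimed.Agent.R280.RET.FrameH
import Claimed.Agent.R280.RET.Logs

/-!
# Row 280, RET / FRAME-2f: the two frames of the chart at a branch point   (owner of the statements: helper30)
`up z = Ψ_{σ k} ((z - b k)^{1/m})` (branch `retRootUp`), `dn z = ρ (h (k+1)) ∘ Ψ_{σ k} ((z - b k)^{1/m})` (branch `retRootDn`).
-/

set_option autoImplicit false
set_option linter.unusedSectionVars false

namespace Claimed.Agent.R280

open Complex Topology

variable {r : ℕ} {S : Type} [Fintype S]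

noncomputable def retUpK (b : Fin r → ℂ) (σ : Fin r → Equiv.Perm S) (k : Fin r) (z : ℂ) :
    (S → ℂ) →L[ℂ] (S → ℂ) := retPsi (σ k) (retRootUp (orderOf (σ k)) (z - b k))

noncomputable def retUpKI (b : Fin r → ℂ) (σ : Fin r → Equiv.Perm S) (k : Fin r) (z : ℂ) :
    (S → ℂ) →L[ℂ] (S → ℂ) := retPsi (σ k) (retRootUp (orderOf (σ k)) (z - b k))⁻¹

noncomputable def retDnK (b : Fin r → ℂ) (σ : Fin r → Equiv.Perm S) (k : Fin r) (z : ℂ) :
    (S → ℂ) →L[ℂ] (S → ℂ) :=
  (retRho (retH σ (k.val + 1))).comp (retPsi (σ k) (retRootDn (orderOf (σ k)) (z - b k)))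

noncomputable def retDnKI (b : Fin r → ℂ) (σ : Fin r → Equiv.Perm S) (k : Fin r) (z : ℂ) :
    (S → ℂ) →L[ℂ] (S → ℂ) :=
  (retPsi (σ k) (retRootDn (orderOf (σ k)) (z - b k))⁻¹).comp (retRho (retH σ (k.val + 1))⁻¹)

variable (b : Fin r → ℂ) (σ : Fin r → Equiv.Perm S) (k : Fin r)

theorem ret_sub_up {z : ℂ} (hz : z ∈ retDup b) : ¬ ((z - b k).re = 0 ∧ 0 ≤ (z - b k).im) := by
  rintro ⟨h1, h2⟩
  rw [Complex.sub_re, sub_eq_zero] at h1
  rw [Complex.sub_im] at h2
  linarith [hz k h1]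

theorem ret_sub_dn {z : ℂ} (hz : z ∈ retDdn b) : ¬ ((z - b k).re = 0 ∧ (z - b k).im ≤ 0) := by
  rintro ⟨h1, h2⟩
  rw [Complex.sub_re, sub_eq_zero] at h1
  rw [Complex.sub_im] at h2
  linarith [hz k h1]

theorem ret_rootUp_sub_differentiableAt (m : ℕ) {z : ℂ} (hz : z ∈ retDup b) :
    DifferentiableAt ℂ (fun z => retRootUp m (z - b k)) z :=
  DifferentiableAt.comp (g := retRootUp m) (f := fun z => z - b k) z
    (retRootUp_differentiableAt m (ret_sub_up b k hz)) (differentiableAt_id.sub_const _)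

theorem ret_rootDn_sub_differentiableAt (m : ℕ) {z : ℂ} (hz : z ∈ retDdn b) :
    DifferentiableAt ℂ (fun z => retRootDn m (z - b k)) z :=
  DifferentiableAt.comp (g := retRootDn m) (f := fun z => z - b k) z
    (retRootDn_differentiableAt m (ret_sub_dn b k hz)) (differentiableAt_id.sub_const _)

theorem retUpK_differentiableAt {z : ℂ} (hz : z ∈ retDup b) :
    DifferentiableAt ℂ (retUpK b σ k) z :=
  DifferentiableAt.comp (g := retPsi (σ k)) (f := fun z => retRootUp (orderOf (σ k)) (z - b k)) z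
    (retPsi_differentiable (σ k)).differentiableAt (ret_rootUp_sub_differentiableAt b k _ hz)

theorem retUpKI_differentiableAt {z : ℂ} (hz : z ∈ retDup b) :
    DifferentiableAt ℂ (retUpKI b σ k) z :=
  DifferentiableAt.comp (g := retPsi (σ k)) (f := fun z => (retRootUp (orderOf (σ k)) (z - b k))⁻¹) z
    (retPsi_differentiable (σ k)).differentiableAt
    ((ret_rootUp_sub_differentiableAt b k _ hz).inv (retRootUp_ne_zero _ _))

theorem retDnK_differentiableAt {z : ℂ} (hz : z ∈ retDdn b) :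
    DifferentiableAt ℂ (retDnK b σ k) z :=
  DifferentiableAt.clm_comp (c := fun _ => retRho (retH σ (k.val + 1)))
    (d := fun z => retPsi (σ k) (retRootDn (orderOf (σ k)) (z - b k))) (differentiableAt_const _)
    (DifferentiableAt.comp (g := retPsi (σ k)) (f := fun z => retRootDn (orderOf (σ k)) (z - b k)) z
      (retPsi_differentiable (σ k)).differentiableAt (ret_rootDn_sub_differentiableAt b k _ hz))

theorem retDnKI_differentiableAt {z : ℂ} (hz : z ∈ retDdn b) :
    DifferentiableAt ℂ (retDnKI b σ k) z :=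
  DifferentiableAt.clm_comp (d := fun _ => retRho (retH σ (k.val + 1))⁻¹)
    (c := fun z => retPsi (σ k) (retRootDn (orderOf (σ k)) (z - b k))⁻¹)
    (DifferentiableAt.comp (g := retPsi (σ k))
      (f := fun z => (retRootDn (orderOf (σ k)) (z - b k))⁻¹) z
      (retPsi_differentiable (σ k)).differentiableAt
      ((ret_rootDn_sub_differentiableAt b k _ hz).inv (retRootDn_ne_zero _ _)))
    (differentiableAt_const _)

theorem retUpKI_comp (z : ℂ) :
    (retUpKI b σ k z).comp (retUpK b σ k z) = ContinuousLinearMap.id ℂ (S → ℂ) := by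
  rw [retUpKI, retUpK, retPsi_comp, inv_mul_cancel₀ (retRootUp_ne_zero _ _), retPsi_one]

theorem retUpK_comp (z : ℂ) :
    (retUpK b σ k z).comp (retUpKI b σ k z) = ContinuousLinearMap.id ℂ (S → ℂ) := by
  rw [retUpKI, retUpK, retPsi_comp, mul_inv_cancel₀ (retRootUp_ne_zero _ _), retPsi_one]

theorem retDnKI_comp (z : ℂ) :
    (retDnKI b σ k z).comp (retDnK b σ k z) = ContinuousLinearMap.id ℂ (S → ℂ) := by
  rw [retDnKI, retDnK, ContinuousLinearMap.comp_assoc, ← ContinuousLinearMap.comp_assoc (retRho _),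
    retRho_inv_comp, ContinuousLinearMap.id_comp, retPsi_comp,
    inv_mul_cancel₀ (retRootDn_ne_zero _ _), retPsi_one]

theorem retDnK_comp (z : ℂ) :
    (retDnK b σ k z).comp (retDnKI b σ k z) = ContinuousLinearMap.id ℂ (S → ℂ) := by
  rw [retDnKI, retDnK, ContinuousLinearMap.comp_assoc, ← ContinuousLinearMap.comp_assoc (retPsi _ _),
    retPsi_comp, mul_inv_cancel₀ (retRootDn_ne_zero _ _), retPsi_one, ContinuousLinearMap.id_comp,
    retRho_comp_inv]

variable {b}

theorem retDnK_rel (hb : StrictMono fun k => (b k).re) {z : ℂ} (hW : z ∈ retW b k)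
    (h1 : z ∈ retDup b) (h2 : z ∈ retDdn b) :
    retDnK b σ k z = (retG b σ z).comp (retUpK b σ k z) := by
  rcases retW_cases hb k hW with h | h | h
  · -- left of `b k`
    have hre : (z - b k).re < 0 := by
      rw [Complex.sub_re]; linarith [(h k).2 le_rfl]
    rw [retDnK, retG, retUpK, retJ_of_mem_retA k.isLt.le h, retRootDn_eq_of_re_neg _ hre,
      retPsi_zeta, ← ContinuousLinearMap.comp_assoc, retRho_comp, retH_succ]
  · have hre : 0 < (z - b k).re := by
      rw [Complex.sub_re]; linarith [(h k).1 (Nat.lt_succ_self _)]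
    rw [retDnK, retG, retUpK, retJ_of_mem_retA k.isLt h, retRootDn_eq_of_re_pos _ hre]
  · exact absurd (h1 k h) (not_lt.2 (h2 k h).le)

variable (b)

theorem retUpK_bound {B : ℝ} : ∃ C : ℝ, ∀ z : ℂ, ‖z‖ ≤ B → z ∈ retDup b → ‖retUpK b σ k z‖ ≤ C := by
  obtain ⟨C, hC⟩ := retPsi_norm_le (σ k)
  refine ⟨max C 0 * (1 + (1 + (B + ‖b k‖))) ^ orderOf (σ k), ?_⟩
  intro z hz hzD
  have hne : z - b k ≠ 0 := by
    intro h
    rw [sub_eq_zero] at h
    exact not_mem_retDup b k (h ▸ hzD)
  have h1 : ‖retRootUp (orderOf (σ k)) (z - b k)‖ ≤ 1 + (B + ‖b k‖) :=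
    (retRootUp_norm_le (orderOf_pos _) _ hne).trans (by linarith [norm_sub_le z (b k)])
  calc ‖retUpK b σ k z‖ ≤ C * (1 + ‖retRootUp (orderOf (σ k)) (z - b k)‖) ^ orderOf (σ k) := hC _
    _ ≤ max C 0 * (1 + ‖retRootUp (orderOf (σ k)) (z - b k)‖) ^ orderOf (σ k) :=
        mul_le_mul_of_nonneg_right (le_max_left _ _) (by positivity)
    _ ≤ max C 0 * (1 + (1 + (B + ‖b k‖))) ^ orderOf (σ k) := by
        apply mul_le_mul_of_nonneg_left _ (le_max_right _ _)
        exact pow_le_pow_left₀ (by positivity) (by linarith) _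

end Claimed.Agent.R280
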