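import Claimed.Agent.R280.RET.FrameDefs
import Claimed.Agent.R280.RET.FrameK
import Claimed.Agent.R280.RET.FrameInf

/-!
# Row 280, RET / FRAME-2h: the concrete two-frame system of a branch datum   (owner of the statements: helper30)
Charts `ι = Option (Fin r)`: `U (some k) = retW b k ∩ retBox (R+1)`, `U none = retExt R`.
-/

set_option autoImplicit false
set_option linter.unusedSectionVars false

namespace Claimed.Agent.R280

open Complex Topology

variable {r : ℕ} {S : Type} [Fintype S]

theorem exists_mem_retW (hr : 0 < r) {b : Fin r → ℂ} (hb : StrictMono fun k => (b k).re) (z : ℂ) :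
    ∃ k, z ∈ retW b k := by
  classical
  by_cases h : ∃ k : Fin r, z.re ≤ (b k).re
  · -- the smallest such `k`
    obtain ⟨k, hk, hmin⟩ : ∃ k : Fin r, z.re ≤ (b k).re ∧ ∀ l, l < k → ¬ z.re ≤ (b l).re := by
      have hne : (Finset.univ.filter fun k : Fin r => z.re ≤ (b k).re).Nonempty := by
        obtain ⟨k, hk⟩ := h; exact ⟨k, by simp [hk]⟩
      refine ⟨Finset.min' _ hne, (Finset.mem_filter.1 (Finset.min'_mem _ hne)).2, fun l hl hcon => ?_⟩
      exact absurd hl (not_lt.2 (Finset.min'_le _ l (by simp [hcon])))
    refine ⟨k, fun l => ⟨fun hl => not_le.1 (hmin l hl), fun hl => lt_of_le_of_lt hk (hb hl)⟩⟩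
  · push Not at h
    refine ⟨⟨r - 1, by omega⟩, fun l => ⟨fun _ => h l, fun hl => ?_⟩⟩
    exfalso
    have := l.isLt
    rw [Fin.lt_def] at hl
    simp at hl
    omega

theorem eq_of_mem_retW {b : Fin r → ℂ} {k l : Fin r} (h : b l ∈ retW b k) : l = k := by
  rcases lt_trichotomy l k with h1 | h1 | h1
  · exact absurd ((h l).1 h1) (lt_irrefl _)
  · exact h1
  · exact absurd ((h l).2 h1) (lt_irrefl _)

theorem retBox_norm_le {R : ℝ} {z : ℂ} (hz : z ∈ retBox R) : ‖z‖ ≤ 2 * R := by
  have := Complex.norm_le_abs_re_add_abs_im z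
  linarith [hz.1, hz.2]

theorem retBox_isBounded (R : ℝ) : Bornology.IsBounded (retBox R) :=
  (Metric.isBounded_closedBall (x := (0 : ℂ)) (r := 2 * R)).subset fun z hz => by
    rw [mem_closedBall_zero_iff]; exact retBox_norm_le hz

theorem retExt_compl_isBounded (R : ℝ) : Bornology.IsBounded (retExt R)ᶜ :=
  (Metric.isBounded_closedBall (x := (0 : ℂ)) (r := 2 * R)).subset fun z hz => by
    rw [mem_closedBall_zero_iff]
    have h1 : ¬ (R < |z.re| ∨ R < |z.im|) := hz
    push Not at h1
    have := Complex.norm_le_abs_re_add_abs_im z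
    linarith [h1.1, h1.2]

/-- the concrete two-frame system -/
noncomputable def retFrames (hr : 0 < r) (b : Fin r → ℂ) (hb : StrictMono fun k => (b k).re)
    (σ : Fin r → Equiv.Perm S) (hσ : (List.ofFn σ).prod = 1) (R : ℝ) (hR0 : 0 ≤ R)
    (hR : ∀ k, |(b k).re| ≤ R ∧ |(b k).im| ≤ R) :
    RetFrames (Option (Fin r)) (S → ℂ) (retDup b) (retDdn b) (retG b σ) where
  U := fun i => match i with
    | some k => retW b k ∩ retBox (R + 1)
    | none => retExt R
  inf := none
  up := fun i => match i with
    | some k => retUpK b σ k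
    | none => retSw b {z | R < z.im} (fun j => (retH σ j)⁻¹)
  upI := fun i => match i with
    | some k => retUpKI b σ k
    | none => retSw b {z | R < z.im} (fun j => retH σ j)
  dn := fun i => match i with
    | some k => retDnK b σ k
    | none => retSw b {z | z.im < -R} (fun j => retH σ j)
  dnI := fun i => match i with
    | some k => retDnKI b σ k
    | none => retSw b {z | z.im < -R} (fun j => (retH σ j)⁻¹)
  isOpen := by
    rintro (_ | k)
    · exact retExt_isOpen R
    · exact (retW_isOpen b k).inter (retBox_isOpen _)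
  cover := by
    intro z
    by_cases hz : z ∈ retExt R
    · exact ⟨none, hz⟩
    · obtain ⟨k, hk⟩ := exists_mem_retW hr hb z
      have h1 : ¬ (R < |z.re| ∨ R < |z.im|) := hz
      push Not at h1
      exact ⟨some k, hk, by constructor <;> linarith [h1.1, h1.2]⟩
  bdd := by
    rintro (_ | k) h
    · exact absurd rfl h
    · exact (retBox_isBounded _).subset Set.inter_subset_right
  bdd_inf := retExt_compl_isBounded R
  inter := by
    intro i j hij z hz
    by_cases hzb : z ∈ Set.range b
    · exfalso
      obtain ⟨l, rfl⟩ := hzb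
      have key : ∀ i : Option (Fin r), b l ∈ (match i with
          | some k => retW b k ∩ retBox (R + 1)
          | none => retExt R : Set ℂ) → i = some l := by
        rintro (_ | k) h
        · exfalso
          rcases h with h | h
          · exact absurd h (not_lt.2 (hR l).1)
          · exact absurd h (not_lt.2 (hR l).2)
        · rw [eq_of_mem_retW h.1]
      exact hij ((key i hz.1).trans (key j hz.2).symm)
    · exact mem_retDup_or_retDdn hb hzb
  up_holo := by
    rintro (_ | k) z hz
    · exact (retSw_up_differentiableAt _ hR0 hR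
        (fun w hw => by rw [retH_retJ_of_abs_re hR σ hσ hw, inv_one]) hz.1 hz.2).differentiableWithinAt
    · exact (retUpK_differentiableAt b σ k hz.2).differentiableWithinAt
  upI_holo := by
    rintro (_ | k) z hz
    · exact (retSw_up_differentiableAt _ hR0 hR
        (fun w hw => retH_retJ_of_abs_re hR σ hσ hw) hz.1 hz.2).differentiableWithinAt
    · exact (retUpKI_differentiableAt b σ k hz.2).differentiableWithinAt
  dn_holo := by
    rintro (_ | k) z hz
    · exact (retSw_dn_differentiableAt _ hR0 hR
        (fun w hw => retH_retJ_of_abs_re hR σ hσ hw) hz.1 hz.2).differentiableWithinAt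
    · exact (retDnK_differentiableAt b σ k hz.2).differentiableWithinAt
  dnI_holo := by
    rintro (_ | k) z hz
    · exact (retSw_dn_differentiableAt _ hR0 hR
        (fun w hw => by rw [retH_retJ_of_abs_re hR σ hσ hw, inv_one]) hz.1 hz.2).differentiableWithinAt
    · exact (retDnKI_differentiableAt b σ k hz.2).differentiableWithinAt
  upI_up := by
    rintro (_ | k) z _ _
    · exact retSw_comp_inv b _ _ z
    · exact retUpKI_comp b σ k z
  up_upI := by
    rintro (_ | k) z _ _
    · exact retSw_inv_comp b _ _ z
    · exact retUpK_comp b σ k z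
  dnI_dn := by
    rintro (_ | k) z _ _
    · exact retSw_inv_comp b _ _ z
    · exact retDnKI_comp b σ k z
  dn_dnI := by
    rintro (_ | k) z _ _
    · exact retSw_comp_inv b _ _ z
    · exact retDnK_comp b σ k z
  rel := by
    rintro (_ | k) z hz h1 h2
    · change retSw b {z | z.im < -R} (fun j => retH σ j) z
        = (retG b σ z).comp (retSw b {z | R < z.im} (fun j => (retH σ j)⁻¹) z)
      by_cases hup : R < z.im
      · rw [retSw_of_mem b {z | R < z.im} _ hup, retG, retRho_comp_inv]
        exact retSw_of_not_mem b _ _ (fun h : z.im < -R => by linarith)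
      · rw [retSw_of_not_mem b {z | R < z.im} _ hup, ContinuousLinearMap.comp_id, retG]
        by_cases hdn : z.im < -R
        · exact retSw_of_mem b {z | z.im < -R} _ hdn
        · have hre : R < |z.re| := by
            rcases hz with h | h
            · exact h
            · exfalso
              rcases lt_abs.1 h with h | h
              · exact hup h
              · exact hdn (by linarith)
          rw [retSw_of_not_mem b {z | z.im < -R} _ hdn, retH_retJ_of_abs_re hR σ hσ hre, retRho_one]
    · exact retDnK_rel σ k hb hz.1 h1 h2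
  up_bound := by
    rintro (_ | k)
    · exact ⟨1, fun z _ _ => retSw_norm_le b _ _ z⟩
    · obtain ⟨C, hC⟩ := retUpK_bound b σ k (B := 2 * (R + 1))
      exact ⟨C, fun z hz hzD => hC z (retBox_norm_le hz.2) hzD⟩

theorem retFrames_U_none (hr : 0 < r) (b : Fin r → ℂ) (hb : StrictMono fun k => (b k).re)
    (σ : Fin r → Equiv.Perm S) (hσ : (List.ofFn σ).prod = 1) (R : ℝ) (hR0 : 0 ≤ R)
    (hR : ∀ k, |(b k).re| ≤ R ∧ |(b k).im| ≤ R) :
    (retFrames hr b hb σ hσ R hR0 hR).U none = retExt R := rfl

theorem retFrames_up_none (hr : 0 < r) (b : Fin r → ℂ) (hb : StrictMono fun k => (b k).re)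
    (σ : Fin r → Equiv.Perm S) (hσ : (List.ofFn σ).prod = 1) (R : ℝ) (hR0 : 0 ≤ R)
    (hR : ∀ k, |(b k).re| ≤ R ∧ |(b k).im| ≤ R) :
    (retFrames hr b hb σ hσ R hR0 hR).up none
      = retSw b {z | R < z.im} (fun j => (retH σ j)⁻¹) := rfl

end Claimed.Agent.R280
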