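import Claimed.Agent.R280.RET.FrameSection
import Claimed.Agent.R280.RET.FrameConcrete

/-!
# Row 280, package RET / FRAME: functions on the branched cover with prescribed monodromy  (LAYER 3 OUTPUT)
(owner of the statements: helper30)

`S` finite set of sheets, `σ k : Perm S` with `σ 0 * ⋯ * σ (r-1) = 1`, `h j = retH σ j = (σ 0 ⋯ σ (j-1))⁻¹`.
**`ret_family`**: there are `f s` holomorphic on `retDup b`, `F s` holomorphic on `retDdn b`, `F s = f (h j s)` on `retA b j`,
of polynomial growth, and a point `q` where `f s0 q ≠ 0` and `f s q = 0` for `s ≠ s0`.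

## Construction (apply `ret_par_main`)
`E = S → ℂ`, `ρ h v = v ∘ h` (`retRho`; ANTI-homomorphism: `ρ a ∘ ρ b = ρ (b * a)`).
`Ψ_σ t = ∑_{j<m} t^j Π_j`, `m = orderOf σ`, `Π_j = (1/m) ∑_{i<m} ζ^{-ij} ρ(σ^i)` the spectral projections of `ρ σ` (`retPsi`):
`Ψ(t) Ψ(t') = Ψ(t t')`, `Ψ 1 = 1`, `Ψ(ζ t) = ρ σ ∘ Ψ t`.
Charts `ι = Option (Fin r)`: `U (some k) = retW b k ∩ retBox (R+1)`, `U none = retExt R`, `R` large.  Every chart carries TWO frames,
`up` (holomorphic and invertible on `U ∩ retDup b`) and `dn` (on `U ∩ retDdn b`), with `dn = ρ (h j) ∘ up` on `U ∩ retA b j`: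
* `some k`: `up z = Ψ_{σ k} (retRootUp m (z - b k))`, `dn z = ρ (h (k+1)) ∘ Ψ_{σ k} (retRootDn m (z - b k))`
  (right of `b k` the roots agree; left of it `rootDn = ζ rootUp`, and `ρ (h (k+1)) ∘ ρ (σ k) = ρ (σ k * h (k+1)) = ρ (h k)`);
* `none`: `up z = if R < z.im then (ρ (h j(z)))⁻¹ else 1`, `dn z = if z.im < -R then ρ (h j(z)) else 1`, `j(z) = #{k | (b k).re < z.re}`
  (uses `h 0 = h r = 1`).
`T i j z = if z ∈ retDup b then (up i z)⁻¹ ∘ up j z else (dn i z)⁻¹ ∘ dn j z`: holomorphic on `U i ∩ U j ⊆ retDup b ∪ retDdn b` (`i ≠ j`)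
because both formulas agree on `retDup b ∩ retDdn b`; the cocycle identities are formal.
Principal parts `P n z = (z - q)^{-(n+1)} • e_{s0}`, `q = -(R+1) ∈ retA b 0 ∩ retExt R`, `i0 = none` (`up none = 1` near `q`).
PROVED in `FrameDefs` (cocycle), `FrameRaw`, `FramePole`, `FrameSection` (abstract two-frame systems), `FrameH`, `FrameK`, `FrameInf`, `FrameConcrete`.
From the section `a`: `f = up i (a i)` on `U i ∩ retDup b`, `F = dn i (a i)` on `U i ∩ retDdn b` (well defined), multiply by `(z - q)^M`,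
`M - 1` the largest `n` with `co n ≠ 0`, and remove the singularity at `q`.
Growth: `a i` is continuous on compact subsets `K i ⊆ U i` covering the square, `a none` is bounded near `∞`, `‖Ψ(root)‖ ≤ C (1 + |z|)^m`.
-/

set_option autoImplicit false

namespace Claimed.Agent.R280

open Complex Topology

/-- FRAME-2: **Layer 3 output.** -/
theorem ret_family {r : ℕ} (hr : 0 < r) (b : Fin r → ℂ) (hb : StrictMono fun k => (b k).re)
    {S : Type} [Fintype S] [DecidableEq S] (σ : Fin r → Equiv.Perm S) (hσ : (List.ofFn σ).prod = 1)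
    (s0 : S) :
    ∃ (f F : S → ℂ → ℂ) (q : ℂ) (C : ℝ) (n : ℕ),
      (∀ s, DifferentiableOn ℂ (f s) (retDup b)) ∧ (∀ s, DifferentiableOn ℂ (F s) (retDdn b)) ∧
      (∀ j, j ≤ r → ∀ s, Set.EqOn (F s) (f (retH σ j s)) (retA b j)) ∧
      (∀ s, ∀ z ∈ retDup b, ‖f s z‖ ≤ C * (1 + ‖z‖) ^ n) ∧
      q ∈ retA b 0 ∧ f s0 q ≠ 0 ∧ ∀ s, s ≠ s0 → f s q = 0 := by
  obtain ⟨R, hR0, hR⟩ : ∃ R : ℝ, 0 ≤ R ∧ ∀ k, |(b k).re| ≤ R ∧ |(b k).im| ≤ R := by
    refine ⟨∑ k, (|(b k).re| + |(b k).im|), Finset.sum_nonneg fun k _ => by positivity, fun k => ?_⟩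
    have := Finset.single_le_sum (f := fun k => |(b k).re| + |(b k).im|)
      (fun k _ => by positivity) (Finset.mem_univ k)
    constructor <;> linarith [abs_nonneg (b k).re, abs_nonneg (b k).im]
  set q : ℂ := ((-(R + 1) : ℝ) : ℂ) with hq
  have hqre : q.re = -(R + 1) := Complex.ofReal_re _
  have hqA : q ∈ retA b 0 := left_subset_retA hR (by show q.re < -R; rw [hqre]; linarith)
  have hqabs : R < |q.re| := by rw [hqre, abs_neg]; exact lt_of_lt_of_le (by linarith) (le_abs_self _)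
  have hnear : ∀ᶠ w : ℂ in 𝓝 q, R < |w.re| :=
    continuousAt_const.eventually_lt (Complex.continuous_re.abs).continuousAt hqabs
  have hU : q ∈ (retFrames hr b hb σ hσ R hR0 hR).U none := by
    rw [retFrames_U_none]; exact Or.inl hqabs
  have hup : ∀ᶠ z in 𝓝 q, (retFrames hr b hb σ hσ R hR0 hR).up none z
      = ContinuousLinearMap.id ℂ (S → ℂ) := by
    rw [retFrames_up_none]
    exact retSw_eventually_of_re b _ _
      (fun w hw => by rw [retH_retJ_of_abs_re hR σ hσ hw, inv_one]) hqabs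
  have hG : ∀ᶠ z in 𝓝 q, retG b σ z = ContinuousLinearMap.id ℂ (S → ℂ) := by
    filter_upwards [hnear] with w hw
    rw [retG, retH_retJ_of_abs_re hR σ hσ hw, retRho_one]
  obtain ⟨fv, Fv, c, C, n, hf, hF, hrel, hgrow, hc, hfq⟩ :=
    (retFrames hr b hb σ hσ R hR0 hR).exists_section (retDup_isOpen b) (retDdn_isOpen b) none q
      hU (retA_subset_Dup b 0 hqA) (retA_subset_Ddn b 0 hqA) hup hG (Pi.single s0 1)
  refine ⟨fun s z => fv z s, fun s z => Fv z s, q, C, n, fun s => differentiableOn_pi.1 hf s,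
    fun s => differentiableOn_pi.1 hF s, ?_, ?_, hqA, ?_, ?_⟩
  · intro j hj s z hz
    change Fv z s = fv z (retH σ j s)
    rw [hrel z (retA_subset_Dup b j hz) (retA_subset_Ddn b j hz), retG, retJ_of_mem_retA hj hz,
      retRho_apply]
  · intro s z hz
    exact (norm_le_pi_norm (fv z) s).trans (hgrow z hz)
  · change fv q s0 ≠ 0
    rw [hfq]
    simpa using hc
  · intro s hs
    change fv q s = 0
    rw [hfq]
    simp [hs]

end Claimed.Agent.R280
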