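import Claimed.Agent.R280.RET.GlueFun

/-!
# Row 280, RET / M10a, analytic part: the polynomial `∏ s, (T - f s)` of a family on the cover   (owner: helper30; PROVED from `ret_glue_polynomial`)
-/

set_option autoImplicit false

namespace Claimed.Agent.R280

open Polynomial

/-- holomorphic of polynomial growth on `D` -/
def RetPG (D : Set ℂ) (u : ℂ → ℂ) : Prop :=
  DifferentiableOn ℂ u D ∧ ∃ (C : ℝ) (n : ℕ), ∀ z ∈ D, ‖u z‖ ≤ C * (1 + ‖z‖) ^ n

theorem RetPG.const (D : Set ℂ) (c : ℂ) : RetPG D fun _ => c :=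
  ⟨differentiableOn_const c, ‖c‖, 0, fun z _ => by simp⟩

theorem RetPG.mul {D : Set ℂ} {u v : ℂ → ℂ} (hu : RetPG D u) (hv : RetPG D v) :
    RetPG D fun z => u z * v z := by
  obtain ⟨hu1, C, n, hu2⟩ := hu
  obtain ⟨hv1, C', n', hv2⟩ := hv
  refine ⟨hu1.mul hv1, C * C', n + n', fun z hz => ?_⟩
  rw [norm_mul, pow_add]
  calc ‖u z‖ * ‖v z‖ ≤ (C * (1 + ‖z‖) ^ n) * (C' * (1 + ‖z‖) ^ n') :=
        mul_le_mul (hu2 z hz) (hv2 z hz) (norm_nonneg _) ((norm_nonneg _).trans (hu2 z hz))
    _ = C * C' * ((1 + ‖z‖) ^ n * (1 + ‖z‖) ^ n') := by ring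

theorem RetPG.sub {D : Set ℂ} {u v : ℂ → ℂ} (hu : RetPG D u) (hv : RetPG D v) :
    RetPG D fun z => u z - v z := by
  obtain ⟨hu1, C, n, hu2⟩ := hu
  obtain ⟨hv1, C', n', hv2⟩ := hv
  refine ⟨hu1.sub hv1, max C 0 + max C' 0, n + n', fun z hz => ?_⟩
  have h1 : (1 : ℝ) ≤ 1 + ‖z‖ := by linarith [norm_nonneg z]
  have h2 : (1 + ‖z‖) ^ n ≤ (1 + ‖z‖) ^ (n + n') := pow_le_pow_right₀ h1 (Nat.le_add_right _ _)
  have h3 : (1 + ‖z‖) ^ n' ≤ (1 + ‖z‖) ^ (n + n') := pow_le_pow_right₀ h1 (Nat.le_add_left _ _)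
  calc ‖u z - v z‖ ≤ ‖u z‖ + ‖v z‖ := norm_sub_le _ _
    _ ≤ C * (1 + ‖z‖) ^ n + C' * (1 + ‖z‖) ^ n' := add_le_add (hu2 z hz) (hv2 z hz)
    _ ≤ max C 0 * (1 + ‖z‖) ^ (n + n') + max C' 0 * (1 + ‖z‖) ^ (n + n') := by
        apply add_le_add
        · exact mul_le_mul (le_max_left _ _) h2 (by positivity) (le_max_right _ _)
        · exact mul_le_mul (le_max_left _ _) h3 (by positivity) (le_max_right _ _)
    _ = _ := by ring

theorem RetPG.neg {D : Set ℂ} {u : ℂ → ℂ} (hu : RetPG D u) : RetPG D fun z => - u z := by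
  have := (RetPG.const D 0).sub hu
  simpa using this

/-- the coefficients of `∏ (T - f s)` are holomorphic of polynomial growth -/
theorem RetPG.coeff_prod {D : Set ℂ} {ι : Type} (s : Finset ι) {f : ι → ℂ → ℂ}
    (hf : ∀ j ∈ s, RetPG D (f j)) (i : ℕ) :
    RetPG D fun z => (∏ j ∈ s, (X - C (f j z))).coeff i := by
  classical
  induction s using Finset.induction_on generalizing i with
  | empty =>
    simp only [Finset.prod_empty]
    exact RetPG.const D _
  | insert a s ha ih =>
    have ih' := ih fun j hj => hf j (Finset.mem_insert_of_mem hj)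
    have hfa := hf a (Finset.mem_insert_self _ _)
    simp only [Finset.prod_insert ha]
    cases i with
    | zero =>
      have : (fun z => ((X - C (f a z)) * ∏ j ∈ s, (X - C (f j z))).coeff 0)
          = fun z => (- f a z) * (∏ j ∈ s, (X - C (f j z))).coeff 0 := by
        funext z
        simp [Polynomial.mul_coeff_zero]
      rw [this]
      exact hfa.neg.mul (ih' 0)
    | succ i =>
      simp only [coeff_X_sub_C_mul]
      exact (ih' i).sub (hfa.mul (ih' (i + 1)))

variable {r : ℕ} {b : Fin r → ℂ}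

theorem ret_exists_poly_of_family (hb : StrictMono fun k => (b k).re) {ι : Type} [Fintype ι]
    {f F : ι → ℂ → ℂ} (hf : ∀ s, DifferentiableOn ℂ (f s) (retDup b))
    (hF : ∀ s, DifferentiableOn ℂ (F s) (retDdn b))
    (hperm : ∀ j, j ≤ r → ∃ π : Equiv.Perm ι, ∀ s, Set.EqOn (F s) (f (π s)) (retA b j))
    {C₀ : ℝ} {n : ℕ} (hbd : ∀ s, ∀ z ∈ retDup b, ‖f s z‖ ≤ C₀ * (1 + ‖z‖) ^ n) :
    ∃ Gp : ℂ[X][X], Gp.Monic ∧ Gp.natDegree = Fintype.card ι ∧
      (∀ z ∈ retDup b, Gp.map (evalRingHom z) = ∏ s, (X - C (f s z))) ∧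
      ∀ z ∈ retDdn b, Gp.map (evalRingHom z) = ∏ s, (X - C (F s z)) := by
  classical
  have hcoef : ∀ i : ℕ, ∃ p : ℂ[X],
      (∀ z ∈ retDup b, (∏ s, (X - C (f s z))).coeff i = p.eval z) ∧
      ∀ z ∈ retDdn b, (∏ s, (X - C (F s z))).coeff i = p.eval z := by
    intro i
    obtain ⟨hu, C', n', hu'⟩ := RetPG.coeff_prod (D := retDup b) Finset.univ (f := f)
      (fun j _ => ⟨hf j, C₀, n, hbd j⟩) i
    -- only the holomorphy is needed on the lower side: use a trivial growth class
    have hv : DifferentiableOn ℂ (fun z => (∏ s, (X - C (F s z))).coeff i) (retDdn b) := by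
      have key : ∀ (t : Finset ι) (i : ℕ),
          DifferentiableOn ℂ (fun z => (∏ s ∈ t, (X - C (F s z))).coeff i) (retDdn b) := by
        intro t
        induction t using Finset.induction_on with
        | empty => intro i; simp only [Finset.prod_empty]; exact differentiableOn_const _
        | insert a t ha ih =>
          intro i
          simp only [Finset.prod_insert ha]
          cases i with
          | zero =>
            have : (fun z => ((X - C (F a z)) * ∏ j ∈ t, (X - C (F j z))).coeff 0)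
                = fun z => (- F a z) * (∏ j ∈ t, (X - C (F j z))).coeff 0 := by
              funext z
              simp [Polynomial.mul_coeff_zero]
            rw [this]
            exact (hF a).neg.mul (ih 0)
          | succ i =>
            simp only [coeff_X_sub_C_mul]
            exact (ih i).sub ((hF a).mul (ih (i + 1)))
      exact key Finset.univ i
    refine ret_glue_polynomial hb hu hv ?_ hu'
    intro j hj z hz
    obtain ⟨π, hπ⟩ := hperm j hj
    simp only
    congr 1
    rw [← Equiv.prod_comp π]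
    exact Finset.prod_congr rfl fun s _ => by rw [hπ s hz]
  choose p hp1 hp2 using hcoef
  set N := Fintype.card ι with hN
  have hdeg : (∑ i ∈ Finset.range N, C (p i) * X ^ i : ℂ[X][X]).degree < N := by
    rw [Finset.sum_range]
    exact degree_sum_fin_lt _
  have hmonic : (X ^ N + ∑ i ∈ Finset.range N, C (p i) * X ^ i : ℂ[X][X]).Monic :=
    monic_X_pow_add hdeg
  have hmap : ∀ z, (X ^ N + ∑ i ∈ Finset.range N, C (p i) * X ^ i : ℂ[X][X]).map (evalRingHom z)
      = X ^ N + ∑ i ∈ Finset.range N, C ((p i).eval z) * X ^ i := by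
    intro z
    simp [Polynomial.map_sum]
  have hprod : ∀ φ : ι → ℂ, (∏ s, (X - C (φ s)) : ℂ[X])
      = X ^ N + ∑ i ∈ Finset.range N, C ((∏ s, (X - C (φ s)) : ℂ[X]).coeff i) * X ^ i := by
    intro φ
    have h1 := (monic_prod_X_sub_C φ Finset.univ).as_sum
    rw [natDegree_finsetProd_X_sub_C_eq_card, Finset.card_univ] at h1
    exact h1
  refine ⟨_, hmonic, ?_, ?_, ?_⟩
  · have h1 : (X ^ N + ∑ i ∈ Finset.range N, C (p i) * X ^ i : ℂ[X][X]).degree = N := by
      rw [degree_add_eq_left_of_degree_lt (by rw [degree_X_pow]; exact hdeg), degree_X_pow]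
    exact natDegree_eq_of_degree_eq_some h1
  · intro z hz
    rw [hmap, hprod fun s => f s z]
    congr 1
    exact Finset.sum_congr rfl fun i _ => by rw [hp1 i z hz]
  · intro z hz
    rw [hmap, hprod fun s => F s z]
    congr 1
    exact Finset.sum_congr rfl fun i _ => by rw [hp2 i z hz]

end Claimed.Agent.R280
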