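import Mathlib

/-!
# Row 280, package RET / FR: `1 + K` has a range of finite codimension   (owner of the statements: helper30)

* `ret_fin_codim` (abstract, ~80 lines): `X` Banach, `‖K - F‖ < 1`, `F` of finite rank.  Then `A = 1 + (K - F)` is invertible
  (Neumann series), `1 + K = A + F`; with `N = rank F + 1`, among any `N` vectors `γ n` some nontrivial combination `γ` satisfies
  `F (A⁻¹ γ) = 0`, hence `(1 + K) (A⁻¹ γ) = γ`.
* `ret_kernel_op` (~500 lines): an integral operator on `ℂ →ᵇ E'` with continuous compactly supported kernel is a bounded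
  operator and a norm limit of finite rank operators: by uniform continuity choose a finite measurable partition `Z_l` of the
  `z`-support into sets of small diameter, points `z_l ∈ Z_l`, and put `F h x = ∑_l k x z_l (∫_{Z_l} h)`.
* `ret_kernel_fin_codim` : the combination used by `Par.lean`.
-/

set_option autoImplicit false

namespace Claimed.Agent.R280

open MeasureTheory Topology
open scoped BoundedContinuousFunction

theorem ret_fin_codim {X : Type*} [NormedAddCommGroup X] [NormedSpace ℂ X] [CompleteSpace X]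
    (K F : X →L[ℂ] X) (hF : FiniteDimensional ℂ (LinearMap.range (F : X →ₗ[ℂ] X)))
    (hKF : ‖K - F‖ < 1) :
    ∃ N : ℕ, ∀ γ : ℕ → X, ∃ c : ℕ → ℂ, (∃ n < N, c n ≠ 0) ∧
      ∃ h : X, h + K h = ∑ n ∈ Finset.range N, c n • γ n := by
  classical
  have hnorm : ‖F - K‖ < 1 := by rwa [norm_sub_rev]
  set u : (X →L[ℂ] X)ˣ := Units.oneSub (F - K) hnorm with hu
  have huv : (u : X →L[ℂ] X) = 1 - (F - K) := Units.val_oneSub _ _
  set B : X →L[ℂ] X := ((u⁻¹ : (X →L[ℂ] X)ˣ) : X →L[ℂ] X) with hB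
  have hAB : ∀ x, B x + K (B x) = x + F (B x) := by
    intro x
    have h1 : (u : X →L[ℂ] X) * B = 1 := Units.mul_inv u
    have h2 := congrArg (fun T : X →L[ℂ] X => T x) h1
    rw [huv] at h2
    simp only [mul_apply_eq_comp, sub_apply, one_apply_eq_self] at h2
    generalize B x = y at h2 ⊢
    rw [← h2]
    abel
  set N := Module.finrank ℂ (LinearMap.range (F : X →ₗ[ℂ] X)) + 1 with hN
  refine ⟨N, fun γ => ?_⟩
  let v : Fin N → LinearMap.range (F : X →ₗ[ℂ] X) := fun n => ⟨F (B (γ n)), ⟨B (γ n), rfl⟩⟩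
  have hdep : ¬ LinearIndependent ℂ v := by
    intro hli
    have := hli.fintype_card_le_finrank
    rw [Fintype.card_fin] at this
    omega
  obtain ⟨g, hg, i, hi⟩ := Fintype.not_linearIndependent_iff.1 hdep
  refine ⟨fun n => if h : n < N then g ⟨n, h⟩ else 0, ⟨i, i.2, by simpa using hi⟩, ?_⟩
  have hsum : ∀ f : ℕ → X, ∑ n ∈ Finset.range N, (if h : n < N then g ⟨n, h⟩ else 0) • f n
      = ∑ n : Fin N, g n • f n := by
    intro f
    rw [Finset.sum_range]
    refine Finset.sum_congr rfl fun n _ => ?_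
    simp
  refine ⟨B (∑ n ∈ Finset.range N, (if h : n < N then g ⟨n, h⟩ else 0) • γ n), ?_⟩
  rw [hAB, hsum]
  have h0 : F (B (∑ n : Fin N, g n • γ n)) = 0 := by
    have h1 := congrArg (Subtype.val) hg
    simp only [map_sum, map_smul]
    simpa [v] using h1
  rw [h0, add_zero]

theorem retFR_slice_bound {E' : Type*} [NormedAddCommGroup E'] [NormedSpace ℂ E']
    (κ : ℂ → (E' →L[ℂ] E')) {Z : Set ℂ} (hZ : IsCompact Z) (h0 : ∀ z, z ∉ Z → κ z = 0)
    {η : ℝ} (hη : ∀ z, ‖κ z‖ ≤ η) (h : ℂ →ᵇ E') :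
    ‖∫ z : ℂ, κ z (h z)‖ ≤ η * (volume : Measure ℂ).real Z * ‖h‖ := by
  have h1 : ∫ z in Z, κ z (h z) = ∫ z : ℂ, κ z (h z) :=
    setIntegral_eq_integral_of_forall_compl_eq_zero (fun z hz => by rw [h0 z hz]; simp)
  rw [← h1]
  have h2 : ‖∫ z in Z, κ z (h z)‖ ≤ (η * ‖h‖) * (volume : Measure ℂ).real Z := by
    refine norm_setIntegral_le_of_norm_le_const hZ.measure_lt_top (fun z _ => ?_)
    calc ‖κ z (h z)‖ ≤ ‖κ z‖ * ‖h z‖ := (κ z).le_opNorm _
      _ ≤ η * ‖h‖ := mul_le_mul (hη z) (h.norm_coe_le_norm z) (norm_nonneg _)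
          ((norm_nonneg _).trans (hη z))
  linarith [h2]

theorem retFR_integrable {E' : Type*} [NormedAddCommGroup E'] [NormedSpace ℂ E']
    (κ : ℂ → (E' →L[ℂ] E')) (hκ : Continuous κ) {Z : Set ℂ} (hZ : IsCompact Z)
    (h0 : ∀ z, z ∉ Z → κ z = 0) (h : ℂ →ᵇ E') :
    Integrable (fun z : ℂ => κ z (h z)) := by
  refine Continuous.integrable_of_hasCompactSupport (hκ.clm_apply h.continuous) ?_
  exact HasCompactSupport.intro hZ (fun z hz => by rw [h0 z hz]; simp)

/-- the operator -/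
theorem retFR_exists_op {E' : Type*} [NormedAddCommGroup E'] [NormedSpace ℂ E'] [CompleteSpace E']
    [SecondCountableTopology E']
    (k : ℂ → ℂ → (E' →L[ℂ] E')) (hk : Continuous (fun p : ℂ × ℂ => k p.1 p.2))
    {Z : Set ℂ} (hZ : IsCompact Z) (h0 : ∀ x z, z ∉ Z → k x z = 0)
    {M : ℝ} (hM : ∀ x z, ‖k x z‖ ≤ M) :
    ∃ K : (ℂ →ᵇ E') →L[ℂ] (ℂ →ᵇ E'), ∀ (h : ℂ →ᵇ E') (x : ℂ), K h x = ∫ z : ℂ, k x z (h z) := by
  have hkx : ∀ x, Continuous (k x) := fun x =>
    hk.comp (Continuous.prodMk continuous_const continuous_id)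
  have hcont : ∀ h : ℂ →ᵇ E', Continuous (fun x : ℂ => ∫ z : ℂ, k x z (h z)) := by
    intro h
    have h1 : Continuous (fun x : ℂ => ∫ z in Z, k x z (h z)) := by
      refine continuous_parametric_integral_of_continuous (f := fun x z => k x z (h z)) ?_ hZ
      exact hk.clm_apply (h.continuous.comp continuous_snd)
    have h2 : (fun x : ℂ => ∫ z in Z, k x z (h z)) = fun x : ℂ => ∫ z : ℂ, k x z (h z) := by
      funext x
      exact setIntegral_eq_integral_of_forall_compl_eq_zero (fun z hz => by rw [h0 x z hz]; simp)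
    rwa [h2] at h1
  let L : (ℂ →ᵇ E') →ₗ[ℂ] (ℂ →ᵇ E') :=
    { toFun := fun h => BoundedContinuousFunction.ofNormedAddCommGroup
        (fun x => ∫ z : ℂ, k x z (h z)) (hcont h) (M * (volume : Measure ℂ).real Z * ‖h‖)
        (fun x => retFR_slice_bound (k x) hZ (h0 x) (hM x) h)
      map_add' := by
        intro h₁ h₂
        ext x
        simp only [BoundedContinuousFunction.coe_ofNormedAddCommGroup,
          BoundedContinuousFunction.coe_add, Pi.add_apply, map_add]
        exact integral_add (retFR_integrable (k x) (hkx x) hZ (h0 x) h₁)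
          (retFR_integrable (k x) (hkx x) hZ (h0 x) h₂)
      map_smul' := by
        intro c h
        ext x
        simp only [BoundedContinuousFunction.coe_ofNormedAddCommGroup,
          BoundedContinuousFunction.coe_smul, map_smul, RingHom.id_apply]
        exact integral_smul c _ }
  refine ⟨L.mkContinuous (M * (volume : Measure ℂ).real Z) (fun h => ?_), fun h x => rfl⟩
  have hM0 : 0 ≤ M := (norm_nonneg _).trans (hM 0 0)
  refine (BoundedContinuousFunction.norm_le (by positivity)).2 (fun x => ?_)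
  exact retFR_slice_bound (k x) hZ (h0 x) (hM x) h

theorem retFR_approx {E' : Type*} [NormedAddCommGroup E'] [NormedSpace ℂ E'] [FiniteDimensional ℂ E']
    (K : (ℂ →ᵇ E') →L[ℂ] (ℂ →ᵇ E')) {X₁ : Set ℂ} (hX : IsCompact X₁)
    (h0 : ∀ (h : ℂ →ᵇ E') (x : ℂ), x ∉ X₁ → K h x = 0) {δ ε : ℝ} (hδ : 0 < δ) (hε : 0 ≤ ε)
    (hosc : ∀ (h : ℂ →ᵇ E') (x x' : ℂ), dist x x' < δ → ‖K h x - K h x'‖ ≤ ε * ‖h‖) :
    ∃ F : (ℂ →ᵇ E') →L[ℂ] (ℂ →ᵇ E'),
        FiniteDimensional ℂ (LinearMap.range (F : (ℂ →ᵇ E') →ₗ[ℂ] (ℂ →ᵇ E'))) ∧ ‖K - F‖ ≤ ε := by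
  classical
  obtain ⟨t, -, htfin, htcov⟩ := hX.finite_cover_balls hδ
  have : Fintype t := htfin.fintype
  obtain ⟨χ, hχ⟩ := PartitionOfUnity.exists_isSubordinate hX.isClosed
    (fun i : t => Metric.ball (i : ℂ) δ) (fun i => Metric.isOpen_ball) (by
      intro x hx
      obtain ⟨i, hi, hxi⟩ := Set.mem_iUnion₂.1 (htcov hx)
      exact Set.mem_iUnion.2 ⟨⟨i, hi⟩, hxi⟩)
  have hsum_le : ∀ x, ∑ i : t, χ i x ≤ 1 := by
    intro x
    have := χ.sum_le_one x
    rwa [finsum_eq_sum_of_fintype] at this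
  have hsum_eq : ∀ x ∈ X₁, ∑ i : t, χ i x = 1 := by
    intro x hx
    have := χ.sum_eq_one hx
    rwa [finsum_eq_sum_of_fintype] at this
  have hχ0 : ∀ (i : t) x, ¬ dist x (i : ℂ) < δ → χ i x = 0 := by
    intro i x hx
    by_contra hne
    exact hx (Metric.mem_ball.1 (hχ i (subset_tsupport _ hne)))
  -- the synthesis map
  let J : (t → E') →ₗ[ℂ] (ℂ →ᵇ E') :=
    { toFun := fun v => BoundedContinuousFunction.ofNormedAddCommGroup
        (fun x => ∑ i : t, ((χ i x : ℝ) : ℂ) • v i)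
        (continuous_finsetSum _ fun i _ =>
          (Complex.continuous_ofReal.comp (χ i).continuous).smul continuous_const)
        (∑ i : t, ‖v i‖)
        (fun x => by
          refine (norm_sum_le _ _).trans (Finset.sum_le_sum fun i _ => ?_)
          rw [norm_smul, Complex.norm_real, Real.norm_eq_abs, abs_of_nonneg (χ.nonneg i x)]
          exact mul_le_of_le_one_left (norm_nonneg _) (χ.le_one i x))
      map_add' := by
        intro v w
        ext x
        simp [smul_add, Finset.sum_add_distrib]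
      map_smul' := by
        intro c v
        ext x
        simp [Finset.smul_sum, smul_comm c] }
  let P : (ℂ →ᵇ E') →L[ℂ] (t → E') :=
    ContinuousLinearMap.pi fun i : t => (BoundedContinuousFunction.evalCLM ℂ (i : ℂ)).comp K
  let F : (ℂ →ᵇ E') →L[ℂ] (ℂ →ᵇ E') := (LinearMap.toContinuousLinearMap J).comp P
  have hF : ∀ (h : ℂ →ᵇ E') x, F h x = ∑ i : t, ((χ i x : ℝ) : ℂ) • K h (i : ℂ) := by
    intro h x
    rfl
  refine ⟨F, ?_, ?_⟩
  · have hle : LinearMap.range (F : (ℂ →ᵇ E') →ₗ[ℂ] (ℂ →ᵇ E')) ≤ LinearMap.range J := by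
      rintro _ ⟨h, rfl⟩
      exact ⟨P h, rfl⟩
    exact Submodule.finiteDimensional_of_le hle
  · refine ContinuousLinearMap.opNorm_le_bound _ hε (fun h => ?_)
    refine (BoundedContinuousFunction.norm_le (by positivity)).2 (fun x => ?_)
    have hdec : (K - F) h x = ∑ i : t, ((χ i x : ℝ) : ℂ) • (K h x - K h (i : ℂ)) := by
      have h1 : (K - F) h x = K h x - F h x := rfl
      rw [h1, hF]
      simp only [smul_sub, Finset.sum_sub_distrib]
      congr 1
      rw [← Finset.sum_smul]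
      by_cases hx : x ∈ X₁
      · rw [← Complex.ofReal_sum, hsum_eq x hx]; simp
      · rw [h0 h x hx]; simp
    rw [hdec]
    calc ‖∑ i : t, ((χ i x : ℝ) : ℂ) • (K h x - K h (i : ℂ))‖
        ≤ ∑ i : t, χ i x * (ε * ‖h‖) := by
          refine (norm_sum_le _ _).trans (Finset.sum_le_sum fun i _ => ?_)
          rw [norm_smul, Complex.norm_real, Real.norm_eq_abs, abs_of_nonneg (χ.nonneg i x)]
          by_cases hd : dist x (i : ℂ) < δ
          · exact mul_le_mul_of_nonneg_left (hosc h x i hd) (χ.nonneg i x)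
          · rw [hχ0 i x hd]; simp
      _ = (∑ i : t, χ i x) * (ε * ‖h‖) := by rw [Finset.sum_mul]
      _ ≤ 1 * (ε * ‖h‖) := mul_le_mul_of_nonneg_right (hsum_le x) (by positivity)
      _ = ε * ‖h‖ := one_mul _

theorem ret_kernel_op {E' : Type*} [NormedAddCommGroup E'] [NormedSpace ℂ E'] [FiniteDimensional ℂ E']
    (k : ℂ → ℂ → (E' →L[ℂ] E')) (hk : Continuous (fun p : ℂ × ℂ => k p.1 p.2))
    (hs : HasCompactSupport (fun p : ℂ × ℂ => k p.1 p.2)) :
    ∃ K : (ℂ →ᵇ E') →L[ℂ] (ℂ →ᵇ E'), (∀ (h : ℂ →ᵇ E') (x : ℂ), K h x = ∫ z : ℂ, k x z (h z)) ∧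
      ∀ ε : ℝ, 0 < ε → ∃ F : (ℂ →ᵇ E') →L[ℂ] (ℂ →ᵇ E'),
        FiniteDimensional ℂ (LinearMap.range (F : (ℂ →ᵇ E') →ₗ[ℂ] (ℂ →ᵇ E'))) ∧ ‖K - F‖ ≤ ε := by
  have hcs : CompleteSpace E' := FiniteDimensional.complete ℂ E'
  have hsc : SecondCountableTopology E' := by
    have : ProperSpace E' := FiniteDimensional.proper ℂ E'
    infer_instance
  obtain ⟨M, hM⟩ := hk.bounded_above_of_compact_support hs
  set S : Set (ℂ × ℂ) := tsupport (fun p : ℂ × ℂ => k p.1 p.2) with hS
  have hSc : IsCompact S := hs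
  have hZ : IsCompact (Prod.snd '' S) := hSc.image continuous_snd
  have hX : IsCompact (Prod.fst '' S) := hSc.image continuous_fst
  have hkS : ∀ x z, (x, z) ∉ S → k x z = 0 := fun x z h =>
    image_eq_zero_of_notMem_tsupport (f := fun p : ℂ × ℂ => k p.1 p.2) h
  have h0Z : ∀ x z, z ∉ Prod.snd '' S → k x z = 0 := fun x z hz =>
    hkS x z (fun h => hz ⟨(x, z), h, rfl⟩)
  have h0X : ∀ x z, x ∉ Prod.fst '' S → k x z = 0 := fun x z hx =>
    hkS x z (fun h => hx ⟨(x, z), h, rfl⟩)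
  have hkx : ∀ x, Continuous (k x) := fun x =>
    hk.comp (Continuous.prodMk continuous_const continuous_id)
  obtain ⟨K, hK⟩ := retFR_exists_op k hk hZ h0Z (fun x z => hM (x, z))
  refine ⟨K, hK, fun ε hε => ?_⟩
  set V : ℝ := (volume : Measure ℂ).real (Prod.snd '' S) with hV
  have hV0 : 0 ≤ V := measureReal_nonneg
  have hη : 0 < ε / (V + 1) := by positivity
  obtain ⟨δ, hδ, hδk⟩ := Metric.uniformContinuous_iff.1 (hs.uniformContinuous_of_continuous hk)
    (ε / (V + 1)) hη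
  refine retFR_approx K hX (fun h x hx => ?_) hδ hε.le (fun h x x' hxx => ?_)
  · rw [hK]
    simp [h0X x _ hx]
  · rw [hK, hK, ← integral_sub (retFR_integrable (k x) (hkx x) hZ (h0Z x) h)
      (retFR_integrable (k x') (hkx x') hZ (h0Z x') h)]
    have h1 := retFR_slice_bound (fun z => k x z - k x' z) hZ
      (fun z hz => by rw [h0Z x z hz, h0Z x' z hz, sub_zero]) (η := ε / (V + 1)) (fun z => by
        have := hδk (a := (x, z)) (b := (x', z)) (by
          rw [Prod.dist_eq]; simpa using hxx)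
        rw [dist_eq_norm] at this
        exact this.le) h
    simp only [sub_apply] at h1
    refine h1.trans (mul_le_mul_of_nonneg_right ?_ (norm_nonneg _))
    rw [div_mul_eq_mul_div, div_le_iff₀ (by positivity)]
    nlinarith

theorem ret_kernel_fin_codim {E' : Type*} [NormedAddCommGroup E'] [NormedSpace ℂ E']
    [FiniteDimensional ℂ E']
    (k : ℂ → ℂ → (E' →L[ℂ] E')) (hk : Continuous (fun p : ℂ × ℂ => k p.1 p.2))
    (hs : HasCompactSupport (fun p : ℂ × ℂ => k p.1 p.2)) :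
    ∃ N : ℕ, ∀ γ : ℕ → (ℂ →ᵇ E'), ∃ c : ℕ → ℂ, (∃ n < N, c n ≠ 0) ∧
      ∃ h : ℂ →ᵇ E', ∀ x : ℂ, h x + ∫ z : ℂ, k x z (h z) = ∑ n ∈ Finset.range N, c n • γ n x := by
  haveI : CompleteSpace E' := FiniteDimensional.complete ℂ E'
  obtain ⟨K, hK, hap⟩ := ret_kernel_op k hk hs
  obtain ⟨F, hF, hKF⟩ := hap (1 / 2) (by norm_num)
  obtain ⟨N, hN⟩ := ret_fin_codim K F hF (lt_of_le_of_lt hKF (by norm_num))
  refine ⟨N, fun γ => ?_⟩
  obtain ⟨c, hc, h, hh⟩ := hN γ
  refine ⟨c, hc, h, fun x => ?_⟩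
  have := congrArg (fun g : ℂ →ᵇ E' => g x) hh
  simp only [BoundedContinuousFunction.coe_add, Pi.add_apply, hK] at this
  rw [this]
  simp [BoundedContinuousFunction.coe_sum]

end Claimed.Agent.R280
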