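import Claimed.Agent.R280.RET.Par

/-!
# Row 280, RET / FRAME-2a: two-frame systems and their cocycle   (owner of the statements: helper30)

`D1`, `D2` open subsets of `ℂ` (the two cut planes), `G z : End E` the "monodromy" on `D1 ∩ D2`.
A function on the cover is a pair `f : D1 → E`, `F : D2 → E` with `F z = G z (f z)` on `D1 ∩ D2`.
`RetFrames ι E D1 D2 G` : charts `U i` covering `ℂ`, every chart carries TWO frames, `up i` (holomorphic, invertible on `U i ∩ D1`) and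
`dn i` (on `U i ∩ D2`) with `dn i z = G z ∘ up i z` on `U i ∩ D1 ∩ D2`; two different charts meet inside `D1 ∪ D2`.
Transition operators: `T i j z = (up i z)⁻¹ ∘ up j z` on `D1`, `= (dn i z)⁻¹ ∘ dn j z` on `D2` (both agree on `D1 ∩ D2`).
A section `a i = T i j (a j)` gives `f = up i (a i)`, `F = dn i (a i)`.
-/

set_option autoImplicit false

namespace Claimed.Agent.R280

open Complex Topology

/-- a two-frame system -/
structure RetFrames (ι : Type) (E : Type) [NormedAddCommGroup E] [NormedSpace ℂ E]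
    (D1 D2 : Set ℂ) (G : ℂ → (E →L[ℂ] E)) where
  U : ι → Set ℂ
  inf : ι
  up : ι → ℂ → (E →L[ℂ] E)
  upI : ι → ℂ → (E →L[ℂ] E)
  dn : ι → ℂ → (E →L[ℂ] E)
  dnI : ι → ℂ → (E →L[ℂ] E)
  isOpen : ∀ i, IsOpen (U i)
  cover : ∀ z, ∃ i, z ∈ U i
  bdd : ∀ i, i ≠ inf → Bornology.IsBounded (U i)
  bdd_inf : Bornology.IsBounded (U inf)ᶜ
  inter : ∀ i j, i ≠ j → U i ∩ U j ⊆ D1 ∪ D2
  up_holo : ∀ i, DifferentiableOn ℂ (up i) (U i ∩ D1)
  upI_holo : ∀ i, DifferentiableOn ℂ (upI i) (U i ∩ D1)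
  dn_holo : ∀ i, DifferentiableOn ℂ (dn i) (U i ∩ D2)
  dnI_holo : ∀ i, DifferentiableOn ℂ (dnI i) (U i ∩ D2)
  upI_up : ∀ i, ∀ z ∈ U i, z ∈ D1 → (upI i z).comp (up i z) = ContinuousLinearMap.id ℂ E
  up_upI : ∀ i, ∀ z ∈ U i, z ∈ D1 → (up i z).comp (upI i z) = ContinuousLinearMap.id ℂ E
  dnI_dn : ∀ i, ∀ z ∈ U i, z ∈ D2 → (dnI i z).comp (dn i z) = ContinuousLinearMap.id ℂ E
  dn_dnI : ∀ i, ∀ z ∈ U i, z ∈ D2 → (dn i z).comp (dnI i z) = ContinuousLinearMap.id ℂ E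
  rel : ∀ i, ∀ z ∈ U i, z ∈ D1 → z ∈ D2 → dn i z = (G z).comp (up i z)
  up_bound : ∀ i, ∃ C : ℝ, ∀ z ∈ U i, z ∈ D1 → ‖up i z‖ ≤ C

variable {ι : Type} {E : Type} [NormedAddCommGroup E] [NormedSpace ℂ E]
  {D1 D2 : Set ℂ} {G : ℂ → (E →L[ℂ] E)}

open Classical in
/-- the transition operators of a two-frame system -/
noncomputable def RetFrames.T (𝔉 : RetFrames ι E D1 D2 G) (i j : ι) (z : ℂ) : E →L[ℂ] E :=
  if i = j then ContinuousLinearMap.id ℂ E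
  else if z ∈ D1 then (𝔉.upI i z).comp (𝔉.up j z) else (𝔉.dnI i z).comp (𝔉.dn j z)

theorem RetFrames.T_self (𝔉 : RetFrames ι E D1 D2 G) (i : ι) (z : ℂ) :
    𝔉.T i i z = ContinuousLinearMap.id ℂ E := by
  simp [RetFrames.T]

theorem RetFrames.T_eq_up (𝔉 : RetFrames ι E D1 D2 G) {i j : ι} (hij : i ≠ j) {z : ℂ}
    (hz : z ∈ D1) : 𝔉.T i j z = (𝔉.upI i z).comp (𝔉.up j z) := by
  simp [RetFrames.T, hij, hz]

theorem RetFrames.T_eq_dn (𝔉 : RetFrames ι E D1 D2 G) {i j : ι} (hij : i ≠ j) {z : ℂ}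
    (hi : z ∈ 𝔉.U i) (hj : z ∈ 𝔉.U j) (hz : z ∈ D2) :
    𝔉.T i j z = (𝔉.dnI i z).comp (𝔉.dn j z) := by
  by_cases h1 : z ∈ D1
  · rw [𝔉.T_eq_up hij h1, 𝔉.rel j z hj h1 hz]
    have h2 : (𝔉.dnI i z).comp (G z) = 𝔉.upI i z := by
      calc (𝔉.dnI i z).comp (G z)
          = ((𝔉.dnI i z).comp (G z)).comp ((𝔉.up i z).comp (𝔉.upI i z)) := by
            rw [𝔉.up_upI i z hi h1, ContinuousLinearMap.comp_id]
        _ = ((𝔉.dnI i z).comp ((G z).comp (𝔉.up i z))).comp (𝔉.upI i z) := by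
            simp only [ContinuousLinearMap.comp_assoc]
        _ = 𝔉.upI i z := by
            rw [← 𝔉.rel i z hi h1 hz, 𝔉.dnI_dn i z hi hz, ContinuousLinearMap.id_comp]
    rw [← ContinuousLinearMap.comp_assoc, h2]
  · simp [RetFrames.T, hij, h1]

theorem RetFrames.T_holo (𝔉 : RetFrames ι E D1 D2 G) (hD1 : IsOpen D1) (hD2 : IsOpen D2) (i j : ι) :
    DifferentiableOn ℂ (𝔉.T i j) (𝔉.U i ∩ 𝔉.U j) := by
  by_cases hij : i = j
  · subst hij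
    have : 𝔉.T i i = fun _ => ContinuousLinearMap.id ℂ E := funext fun z => 𝔉.T_self i z
    rw [this]
    exact differentiableOn_const _
  · intro z hz
    apply DifferentiableAt.differentiableWithinAt
    rcases 𝔉.inter i j hij hz with h1 | h2
    · have he : 𝔉.T i j =ᶠ[𝓝 z] fun w => (𝔉.upI i w).comp (𝔉.up j w) := by
        filter_upwards [hD1.mem_nhds h1] with w hw using 𝔉.T_eq_up hij hw
      refine DifferentiableAt.congr_of_eventuallyEq ?_ he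
      exact ((𝔉.upI_holo i).differentiableAt (((𝔉.isOpen i).inter hD1).mem_nhds ⟨hz.1, h1⟩)).clm_comp
        ((𝔉.up_holo j).differentiableAt (((𝔉.isOpen j).inter hD1).mem_nhds ⟨hz.2, h1⟩))
    · have he : 𝔉.T i j =ᶠ[𝓝 z] fun w => (𝔉.dnI i w).comp (𝔉.dn j w) := by
        filter_upwards [hD2.mem_nhds h2, (𝔉.isOpen i).mem_nhds hz.1, (𝔉.isOpen j).mem_nhds hz.2]
          with w hw hwi hwj using 𝔉.T_eq_dn hij hwi hwj hw
      refine DifferentiableAt.congr_of_eventuallyEq ?_ he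
      exact ((𝔉.dnI_holo i).differentiableAt (((𝔉.isOpen i).inter hD2).mem_nhds ⟨hz.1, h2⟩)).clm_comp
        ((𝔉.dn_holo j).differentiableAt (((𝔉.isOpen j).inter hD2).mem_nhds ⟨hz.2, h2⟩))

theorem RetFrames.T_comp (𝔉 : RetFrames ι E D1 D2 G) (i j k : ι) (z : ℂ) (hi : z ∈ 𝔉.U i)
    (hj : z ∈ 𝔉.U j) (hk : z ∈ 𝔉.U k) : (𝔉.T i j z).comp (𝔉.T j k z) = 𝔉.T i k z := by
  by_cases hij : i = j
  · subst hij; rw [𝔉.T_self, ContinuousLinearMap.id_comp]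
  by_cases hjk : j = k
  · subst hjk; rw [𝔉.T_self, ContinuousLinearMap.comp_id]
  rcases 𝔉.inter i j hij ⟨hi, hj⟩ with h1 | h2
  · rw [𝔉.T_eq_up hij h1, 𝔉.T_eq_up hjk h1]
    have : ((𝔉.upI i z).comp (𝔉.up j z)).comp ((𝔉.upI j z).comp (𝔉.up k z))
        = (𝔉.upI i z).comp (((𝔉.up j z).comp (𝔉.upI j z)).comp (𝔉.up k z)) := by
      simp only [ContinuousLinearMap.comp_assoc]
    rw [this, 𝔉.up_upI j z hj h1, ContinuousLinearMap.id_comp]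
    by_cases hik : i = k
    · subst hik; rw [𝔉.T_self, 𝔉.upI_up i z hi h1]
    · rw [𝔉.T_eq_up hik h1]
  · rw [𝔉.T_eq_dn hij hi hj h2, 𝔉.T_eq_dn hjk hj hk h2]
    have : ((𝔉.dnI i z).comp (𝔉.dn j z)).comp ((𝔉.dnI j z).comp (𝔉.dn k z))
        = (𝔉.dnI i z).comp (((𝔉.dn j z).comp (𝔉.dnI j z)).comp (𝔉.dn k z)) := by
      simp only [ContinuousLinearMap.comp_assoc]
    rw [this, 𝔉.dn_dnI j z hj h2, ContinuousLinearMap.id_comp]
    by_cases hik : i = k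
    · subst hik; rw [𝔉.T_self, 𝔉.dnI_dn i z hi h2]
    · rw [𝔉.T_eq_dn hik hi hk h2]

/-- the cocycle of a two-frame system -/
noncomputable def RetFrames.cocycle (𝔉 : RetFrames ι E D1 D2 G) (hD1 : IsOpen D1) (hD2 : IsOpen D2) :
    RetCocycle ι E where
  U := 𝔉.U
  T := 𝔉.T
  inf := 𝔉.inf
  isOpen := 𝔉.isOpen
  cover := 𝔉.cover
  bdd := 𝔉.bdd
  bdd_inf := 𝔉.bdd_inf
  holo := 𝔉.T_holo hD1 hD2
  self := fun i z _ => 𝔉.T_self i z
  comp := 𝔉.T_comp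

end Claimed.Agent.R280
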