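import Mathlib

/-!
# Row 280, RET / FRAME-1 (~350 lines): `t ^ A` for a permutation operator   (owner of the statements: helper30)

`ρ h v = v ∘ h` (`retRho`; ANTI-homomorphism: `ρ a ∘ ρ b = ρ (b * a)`).
`Ψ_σ t = ∑_{j<m} t^j Π_j`, `m = orderOf σ`, `Π_j = (1/m) ∑_{i<m} ζ^{-ij} ρ(σ^i)` the spectral projections of `ρ σ` (`retPsi`):
`Ψ(t) Ψ(t') = Ψ(t t')`, `Ψ 1 = 1`, `Ψ(ζ t) = ρ σ ∘ Ψ t`.
-/

set_option autoImplicit false
set_option linter.unusedSectionVars false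

namespace Claimed.Agent.R280

open Complex Topology

section PsiAlg

variable {A : Type*} [Ring A] [Algebra ℂ A]

/-- spectral projections of an element of finite order -/
noncomputable def retPsiPi (ω : ℂ) (m : ℕ) (x : A) (j : ℕ) : A :=
  ((m : ℂ)⁻¹) • ∑ i ∈ Finset.range m, ω ^ (i * j) • x ^ i

theorem retPsi_geom {m : ℕ} {θ : ℂ} (h1 : θ ^ m = 1) (hne : θ ≠ 1) :
    ∑ i ∈ Finset.range m, θ ^ i = 0 := by
  have h := geom_sum_mul θ m
  rw [h1, sub_self] at h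
  exact (mul_eq_zero.1 h).resolve_right (sub_ne_zero.2 hne)

theorem retPsiPi_mul_left {ω : ℂ} {m : ℕ} (hω : ω ^ m = 1) {x : A} (hx : x ^ m = 1) (j : ℕ) :
    ω ^ j • (x * retPsiPi ω m x j) = retPsiPi ω m x j := by
  unfold retPsiPi
  rw [mul_smul_comm, smul_comm, Finset.mul_sum, Finset.smul_sum]
  congr 1
  have h1 : ∀ i, ω ^ j • (x * (ω ^ (i * j) • x ^ i)) = ω ^ ((i + 1) * j) • x ^ (i + 1) := by
    intro i
    rw [mul_smul_comm, smul_smul, ← pow_succ', ← pow_add]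
    congr 2
    ring
  simp only [h1]
  have k1 := Finset.sum_range_succ' (fun i => ω ^ (i * j) • x ^ i) m
  have k2 := Finset.sum_range_succ (fun i => ω ^ (i * j) • x ^ i) m
  rw [k1] at k2
  have k3 : ω ^ (m * j) • x ^ m = ω ^ (0 * j) • x ^ 0 := by
    rw [pow_mul, hω, hx]; simp
  rw [k3] at k2
  exact add_right_cancel k2

theorem retPsiPi_pow_mul {ω : ℂ} {m : ℕ} (hω : ω ^ m = 1) {x : A} (hx : x ^ m = 1) (i j : ℕ) :
    ω ^ (i * j) • (x ^ i * retPsiPi ω m x j) = retPsiPi ω m x j := by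
  induction i with
  | zero => simp
  | succ i ih =>
    have h1 : ω ^ ((i + 1) * j) • (x ^ (i + 1) * retPsiPi ω m x j)
        = ω ^ (i * j) • (x ^ i * (ω ^ j • (x * retPsiPi ω m x j))) := by
      rw [mul_smul_comm, smul_smul, ← pow_add, pow_succ, mul_assoc]
      congr 2
      ring
    rw [h1, retPsiPi_mul_left hω hx, ih]

theorem retPsiPi_mul {ω : ℂ} {m : ℕ} (hm : 0 < m) (hω : IsPrimitiveRoot ω m) {x : A}
    (hx : x ^ m = 1) {j k : ℕ} (hj : j < m) (hk : k < m) :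
    retPsiPi ω m x k * retPsiPi ω m x j = if k = j then retPsiPi ω m x j else 0 := by
  have hω0 : ω ≠ 0 := hω.ne_zero hm.ne'
  have hm' : (m : ℂ) ≠ 0 := by exact_mod_cast hm.ne'
  have h1 : ∀ i, x ^ i * retPsiPi ω m x j = ((ω ^ (i * j))⁻¹) • retPsiPi ω m x j := by
    intro i
    conv_rhs => rw [← retPsiPi_pow_mul hω.pow_eq_one hx i j]
    rw [smul_smul, inv_mul_cancel₀ (pow_ne_zero _ hω0), one_smul]
  generalize retPsiPi ω m x j = Q at h1 ⊢
  unfold retPsiPi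
  rw [smul_mul_assoc, Finset.sum_mul]
  simp only [smul_mul_assoc, h1, smul_smul]
  rw [← Finset.sum_smul, smul_smul]
  have h2 : ∀ i, ω ^ (i * k) * (ω ^ (i * j))⁻¹ = (ω ^ k * (ω ^ j)⁻¹) ^ i := by
    intro i
    rw [mul_pow, inv_pow, ← pow_mul, ← pow_mul, mul_comm k i, mul_comm j i]
  simp only [h2]
  split_ifs with hkj
  · subst hkj
    rw [mul_inv_cancel₀ (pow_ne_zero _ hω0)]
    simp [hm']
  · rw [retPsi_geom (θ := ω ^ k * (ω ^ j)⁻¹) ?_ ?_]
    · simp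
    · rw [mul_pow, inv_pow, ← pow_mul, ← pow_mul, mul_comm k m, mul_comm j m, pow_mul, pow_mul,
        hω.pow_eq_one]
      simp
    · intro h3
      apply hkj
      have h4 : ω ^ k = ω ^ j := by
        field_simp at h3
        exact h3
      exact hω.pow_inj hk hj h4

theorem retPsiPi_sum {ω : ℂ} {m : ℕ} (hm : 0 < m) (hω : IsPrimitiveRoot ω m) (x : A) :
    ∑ j ∈ Finset.range m, retPsiPi ω m x j = 1 := by
  have hm' : (m : ℂ) ≠ 0 := by exact_mod_cast hm.ne'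
  unfold retPsiPi
  rw [← Finset.smul_sum, Finset.sum_comm]
  simp only [← Finset.sum_smul, pow_mul]
  rw [Finset.sum_eq_single 0]
  · simp [hm']
  · intro i hi hi0
    rw [retPsi_geom (θ := ω ^ i) ?_ ?_, zero_smul]
    · rw [← pow_mul, mul_comm, pow_mul, hω.pow_eq_one, one_pow]
    · exact hω.pow_ne_one_of_pos_of_lt hi0 (Finset.mem_range.1 hi)
  · intro h
    exact absurd (Finset.mem_range.2 hm) h

/-- `Ψ t = ∑ t^j Π_j` -/
noncomputable def retPsiAlg (ω : ℂ) (m : ℕ) (x : A) (t : ℂ) : A :=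
  ∑ j ∈ Finset.range m, t ^ j • retPsiPi ω m x j

theorem retPsiAlg_mul {ω : ℂ} {m : ℕ} (hm : 0 < m) (hω : IsPrimitiveRoot ω m) {x : A}
    (hx : x ^ m = 1) (t t' : ℂ) :
    retPsiAlg ω m x t * retPsiAlg ω m x t' = retPsiAlg ω m x (t * t') := by
  unfold retPsiAlg
  rw [Finset.sum_mul]
  refine Finset.sum_congr rfl fun k hk => ?_
  rw [Finset.mul_sum, Finset.sum_eq_single k]
  · rw [smul_mul_smul_comm, retPsiPi_mul hm hω hx (Finset.mem_range.1 hk) (Finset.mem_range.1 hk),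
      if_pos rfl, mul_pow]
  · intro j hj hjk
    rw [smul_mul_smul_comm, retPsiPi_mul hm hω hx (Finset.mem_range.1 hj) (Finset.mem_range.1 hk),
      if_neg (Ne.symm hjk), smul_zero]
  · intro h; exact absurd hk h

theorem retPsiAlg_one {ω : ℂ} {m : ℕ} (hm : 0 < m) (hω : IsPrimitiveRoot ω m) (x : A) :
    retPsiAlg ω m x 1 = 1 := by
  unfold retPsiAlg
  simp only [one_pow, one_smul]
  exact retPsiPi_sum hm hω x

theorem retPsiAlg_zeta {ω : ℂ} {m : ℕ} (hm : 0 < m) (hω : IsPrimitiveRoot ω m) {x : A}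
    (hx : x ^ m = 1) (t : ℂ) :
    retPsiAlg ω m x (ω⁻¹ * t) = x * retPsiAlg ω m x t := by
  have hω0 : ω ≠ 0 := hω.ne_zero hm.ne'
  unfold retPsiAlg
  rw [Finset.mul_sum]
  refine Finset.sum_congr rfl fun j _ => ?_
  conv_lhs => rw [← retPsiPi_mul_left hω.pow_eq_one hx j]
  rw [smul_smul, mul_smul_comm, mul_pow, inv_pow, mul_right_comm,
    inv_mul_cancel₀ (pow_ne_zero _ hω0), one_mul]

end PsiAlg

section Psi

variable {S : Type} [Fintype S]

/-- `ρ h v = v ∘ h` -/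
noncomputable def retRho (h : Equiv.Perm S) : (S → ℂ) →L[ℂ] (S → ℂ) :=
  ContinuousLinearMap.pi fun s => ContinuousLinearMap.proj (h s)

/-- `Ψ_σ t = t ^ A`, `A = ∑ (j/m) Π_j`, written in the variable `t = w^(1/m)` -/
noncomputable def retPsi (σ : Equiv.Perm S) (t : ℂ) : (S → ℂ) →L[ℂ] (S → ℂ) :=
  ∑ j ∈ Finset.range (orderOf σ), t ^ j • (((orderOf σ : ℕ) : ℂ)⁻¹ •
    ∑ i ∈ Finset.range (orderOf σ),
      (Complex.exp (2 * Real.pi * I / (orderOf σ : ℕ))) ^ (-((i * j : ℕ) : ℤ)) • retRho (σ ^ i))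

@[simp] theorem retRho_apply (h : Equiv.Perm S) (v : S → ℂ) (s : S) : retRho h v s = v (h s) := rfl

/-! FRAME-1 (~350 lines) -/

theorem retRho_comp (a b : Equiv.Perm S) : (retRho a).comp (retRho b) = retRho (b * a) := by
  ext v s; simp [retRho]

theorem retRho_one : retRho (1 : Equiv.Perm S) = ContinuousLinearMap.id ℂ (S → ℂ) := by
  ext v s; simp [retRho]

theorem retRho_pow (σ : Equiv.Perm S) (i : ℕ) : retRho (σ ^ i) = (retRho σ) ^ i := by
  induction i with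
  | zero => rw [pow_zero, pow_zero, retRho_one]; rfl
  | succ i ih =>
    rw [pow_succ, ← retRho_comp, ih, pow_succ']
    rfl

theorem retRho_pow_orderOf (σ : Equiv.Perm S) : (retRho σ) ^ orderOf σ = 1 := by
  rw [← retRho_pow, pow_orderOf_eq_one, retRho_one]; rfl

theorem retPsi_eq_alg (σ : Equiv.Perm S) (t : ℂ) :
    retPsi σ t = retPsiAlg ((Complex.exp (2 * Real.pi * I / (orderOf σ : ℕ)))⁻¹) (orderOf σ)
      (retRho σ) t := by
  unfold retPsi retPsiAlg retPsiPi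
  refine Finset.sum_congr rfl fun j _ => ?_
  congr 2
  refine Finset.sum_congr rfl fun i _ => ?_
  rw [retRho_pow, zpow_neg, zpow_natCast, inv_pow]

theorem retPsi_prim (σ : Equiv.Perm S) :
    IsPrimitiveRoot ((Complex.exp (2 * Real.pi * I / (orderOf σ : ℕ)))⁻¹) (orderOf σ) :=
  (Complex.isPrimitiveRoot_exp _ (orderOf_pos σ).ne').inv

theorem retPsi_comp (σ : Equiv.Perm S) (t t' : ℂ) :
    (retPsi σ t).comp (retPsi σ t') = retPsi σ (t * t') := by
  rw [retPsi_eq_alg, retPsi_eq_alg, retPsi_eq_alg,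
    ← retPsiAlg_mul (orderOf_pos σ) (retPsi_prim σ) (retRho_pow_orderOf σ)]
  rfl

theorem retPsi_one (σ : Equiv.Perm S) : retPsi σ 1 = ContinuousLinearMap.id ℂ (S → ℂ) := by
  rw [retPsi_eq_alg, retPsiAlg_one (orderOf_pos σ) (retPsi_prim σ)]
  rfl

theorem retPsi_zeta (σ : Equiv.Perm S) (t : ℂ) :
    retPsi σ (Complex.exp (2 * Real.pi * I / (orderOf σ : ℕ)) * t) = (retRho σ).comp (retPsi σ t) := by
  have h := retPsiAlg_zeta (orderOf_pos σ) (retPsi_prim σ) (retRho_pow_orderOf σ) t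
  rw [inv_inv] at h
  rw [retPsi_eq_alg, retPsi_eq_alg, h]
  rfl

theorem retPsi_differentiable (σ : Equiv.Perm S) : Differentiable ℂ (retPsi σ) := by
  unfold retPsi
  exact Differentiable.fun_sum fun j _ => (differentiable_id.pow j).smul_const _

theorem retPsi_norm_le (σ : Equiv.Perm S) : ∃ C : ℝ, ∀ t : ℂ, ‖retPsi σ t‖ ≤ C * (1 + ‖t‖) ^ orderOf σ := by
  refine ⟨∑ j ∈ Finset.range (orderOf σ), ‖retPsiPi ((Complex.exp (2 * Real.pi * I /
    (orderOf σ : ℕ)))⁻¹) (orderOf σ) (retRho σ) j‖, fun t => ?_⟩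
  rw [retPsi_eq_alg]
  unfold retPsiAlg
  rw [Finset.sum_mul]
  refine (norm_sum_le _ _).trans (Finset.sum_le_sum fun j hj => ?_)
  rw [norm_smul, norm_pow, mul_comm]
  refine mul_le_mul_of_nonneg_left ?_ (norm_nonneg _)
  calc ‖t‖ ^ j ≤ (1 + ‖t‖) ^ j := pow_le_pow_left₀ (norm_nonneg _) (by linarith) j
    _ ≤ (1 + ‖t‖) ^ orderOf σ :=
      pow_le_pow_right₀ (by linarith [norm_nonneg t]) (Finset.mem_range.1 hj).le

end Psi

end Claimed.Agent.R280
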