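import Claimed.Agent.R280.RET.GeomLemmas
import Claimed.Agent.R280.RET.Psi

/-!
# Row 280, RET / FRAME-2e: `retH`, the counting function `retJ`, the monodromy `retG`   (owner of the statements: helper30)
-/

set_option autoImplicit false
set_option linter.unusedSectionVars false

namespace Claimed.Agent.R280

open Complex Topology

variable {r : ℕ} {S : Type}

theorem retH_zero (σ : Fin r → Equiv.Perm S) : retH σ 0 = 1 := by simp [retH]

theorem retH_of_le (σ : Fin r → Equiv.Perm S) (hσ : (List.ofFn σ).prod = 1) {j : ℕ} (hj : r ≤ j) :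
    retH σ j = 1 := by
  rw [retH, List.take_of_length_le (by simpa using hj), hσ, inv_one]

theorem retH_succ (σ : Fin r → Equiv.Perm S) (k : Fin r) :
    σ k * retH σ (k.val + 1) = retH σ k.val := by
  rw [retH, retH, List.take_succ_eq_append_getElem (by simp), List.prod_append, List.prod_singleton,
    List.getElem_ofFn, mul_inv_rev, mul_inv_cancel_left]

/-- the number of branch points on the left of `z` -/
noncomputable def retJ (b : Fin r → ℂ) (z : ℂ) : ℕ :=
  (Finset.univ.filter fun k => (b k).re < z.re).card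

theorem retJ_of_mem_retA {b : Fin r → ℂ} {j : ℕ} (hj : j ≤ r) {z : ℂ} (hz : z ∈ retA b j) :
    retJ b z = j := by
  have : (Finset.univ.filter fun k => (b k).re < z.re) = Finset.univ.filter fun k : Fin r => k.val < j := by
    ext k
    simp only [Finset.mem_filter, Finset.mem_univ, true_and]
    constructor
    · intro h
      by_contra hcon
      exact absurd ((hz k).2 (not_lt.1 hcon)) (not_lt.2 h.le)
    · exact (hz k).1
  rw [retJ, this, Fin.card_filter_val_lt, min_eq_right hj]

/-- `retJ` is locally constant off the vertical lines through the branch points -/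
theorem retJ_eventually_eq (b : Fin r → ℂ) {z : ℂ} (hz : ∀ k, z.re ≠ (b k).re) :
    ∀ᶠ w in 𝓝 z, retJ b w = retJ b z := by
  have h1 : ∀ k, ∀ᶠ w in 𝓝 z, ((b k).re < w.re ↔ (b k).re < z.re) := by
    intro k
    rcases lt_or_gt_of_ne (hz k) with h | h
    · have : ∀ᶠ w : ℂ in 𝓝 z, w.re < (b k).re :=
        Complex.continuous_re.continuousAt.eventually_lt continuousAt_const h
      filter_upwards [this] with w hw
      exact ⟨fun h' => absurd h' (not_lt.2 hw.le), fun h' => absurd h' (not_lt.2 h.le)⟩
    · have : ∀ᶠ w : ℂ in 𝓝 z, (b k).re < w.re :=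
        continuousAt_const.eventually_lt Complex.continuous_re.continuousAt h
      filter_upwards [this] with w hw
      exact ⟨fun _ => h, fun _ => hw⟩
  filter_upwards [Filter.eventually_all.2 h1] with w hw
  rw [retJ, retJ]
  congr 1
  ext k
  simp only [Finset.mem_filter, Finset.mem_univ, true_and]
  exact hw k

variable [Fintype S]

/-- the monodromy operator: `F z = retG b σ z (f z)` on `retDup b ∩ retDdn b` -/
noncomputable def retG (b : Fin r → ℂ) (σ : Fin r → Equiv.Perm S) (z : ℂ) :
    (S → ℂ) →L[ℂ] (S → ℂ) := retRho (retH σ (retJ b z))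

theorem retRho_norm_le (h : Equiv.Perm S) : ‖retRho h‖ ≤ 1 := by
  apply ContinuousLinearMap.opNorm_le_bound _ zero_le_one
  intro v
  rw [one_mul, pi_norm_le_iff_of_nonneg (norm_nonneg _)]
  intro s
  exact norm_le_pi_norm v (h s)

theorem retRho_inv_comp (h : Equiv.Perm S) :
    (retRho h⁻¹).comp (retRho h) = ContinuousLinearMap.id ℂ (S → ℂ) := by
  rw [retRho_comp, mul_inv_cancel, retRho_one]

theorem retRho_comp_inv (h : Equiv.Perm S) :
    (retRho h).comp (retRho h⁻¹) = ContinuousLinearMap.id ℂ (S → ℂ) := by
  rw [retRho_comp, inv_mul_cancel, retRho_one]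

/-- outside the vertical strip containing the branch points the monodromy is trivial -/
theorem retH_retJ_of_abs_re {b : Fin r → ℂ} {R : ℝ} (hR : ∀ k, |(b k).re| ≤ R ∧ |(b k).im| ≤ R)
    (σ : Fin r → Equiv.Perm S) (hσ : (List.ofFn σ).prod = 1) {z : ℂ} (hz : R < |z.re|) :
    retH σ (retJ b z) = 1 := by
  rcases lt_abs.1 hz with h | h
  · rw [retJ_of_mem_retA le_rfl (right_subset_retA hR h), retH_of_le σ hσ le_rfl]
  · rw [retJ_of_mem_retA (Nat.zero_le _) (left_subset_retA hR (by show z.re < -R; linarith)),
      retH_zero]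

end Claimed.Agent.R280
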