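import Mathlib

/-!
# Row 280, RET / FRAME-2c: removal of a pole; polynomial growth from local bounds   (pure analysis; owner of the statements: helper30)
-/

set_option autoImplicit false
set_option linter.unusedSectionVars false

namespace Claimed.Agent.R280

open Complex Topology

variable {E : Type} [NormedAddCommGroup E] [NormedSpace ℂ E]

/-- multiply by the exact power of `z - q`: the value at `q` is a nonzero multiple of `e` -/
theorem ret_remove_pole {D : Set ℂ} (hD : IsOpen D) {q : ℂ} (φ : ℂ → E)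
    (hφ : DifferentiableOn ℂ φ (D \ {q})) (N : ℕ) (co : ℕ → ℂ) (hco : ∃ n < N, co n ≠ 0) (e : E)
    (g : ℂ → E) (hg : DifferentiableAt ℂ g q)
    (hnear : ∀ᶠ z in 𝓝[≠] q,
      φ z = (∑ n ∈ Finset.range N, co n * ((z - q)⁻¹) ^ (n + 1)) • e + g z) :
    ∃ (M : ℕ) (c : ℂ), c ≠ 0 ∧
      DifferentiableOn ℂ (fun z => if z = q then c • e else (z - q) ^ M • φ z) D ∧
      DifferentiableAt ℂ (fun z => if z = q then c • e else (z - q) ^ M • φ z) q := by
  classical
  obtain ⟨n0, hn0, hn0c⟩ := hco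
  set m0 := Nat.findGreatest (fun n => co n ≠ 0) (N - 1) with hm0
  have hm0c : co m0 ≠ 0 := Nat.findGreatest_spec (P := fun n => co n ≠ 0) (by omega : n0 ≤ N - 1) hn0c
  have hm0N : m0 < N := lt_of_le_of_lt (Nat.findGreatest_le _) (by omega)
  have hgt : ∀ k, m0 < k → k < N → co k = 0 := by
    intro k hk hkN
    by_contra hcon
    exact Nat.findGreatest_is_greatest (P := fun n => co n ≠ 0) hk (by omega) hcon
  set f : ℂ → E := fun z => if z = q then co m0 • e else (z - q) ^ (m0 + 1) • φ z with hf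
  set ψ : ℂ → E := fun z => (∑ n ∈ Finset.range N, co n * (z - q) ^ (m0 - n)) • e
    + (z - q) ^ (m0 + 1) • g z with hψ
  have hψd : DifferentiableAt ℂ ψ q := by
    apply DifferentiableAt.add
    · apply DifferentiableAt.smul_const
      apply DifferentiableAt.fun_sum
      intro n _
      exact ((differentiableAt_id.sub_const q).pow _).const_mul _
    · exact ((differentiableAt_id.sub_const q).pow _).smul hg
  have hfψ : f =ᶠ[𝓝 q] ψ := by
    have h1 : ∀ᶠ z in 𝓝[≠] q, f z = ψ z := by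
      filter_upwards [hnear, self_mem_nhdsWithin] with z hz hzq
      have hzq' : z ≠ q := hzq
      have hne : z - q ≠ 0 := sub_ne_zero.2 hzq'
      simp only [hf, hψ, if_neg hzq', hz, smul_add, smul_smul]
      congr 2
      rw [Finset.mul_sum]
      apply Finset.sum_congr rfl
      intro n hn
      rw [Finset.mem_range] at hn
      by_cases hnm : n ≤ m0
      · have : (z - q) ^ (m0 + 1) = (z - q) ^ (m0 - n) * (z - q) ^ (n + 1) := by
          rw [← pow_add]; congr 1; omega
        rw [this, inv_pow]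
        field_simp
      · rw [hgt n (by omega) hn]; simp
    have h2 : f q = ψ q := by
      simp only [hf, hψ, if_true, sub_self]
      rw [zero_pow (by omega), zero_smul, add_zero]
      congr 1
      rw [Finset.sum_eq_single m0]
      · simp
      · intro n hn hne
        rw [Finset.mem_range] at hn
        by_cases hnm : n < m0
        · rw [zero_pow (by omega), mul_zero]
        · rw [hgt n (by omega) hn, zero_mul]
      · intro h; exact absurd (Finset.mem_range.2 hm0N) h
    rw [Filter.EventuallyEq, ← nhdsNE_sup_pure, Filter.eventually_sup]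
    exact ⟨h1, by simpa using h2⟩
  have hfq : DifferentiableAt ℂ f q := hψd.congr_of_eventuallyEq hfψ
  refine ⟨m0 + 1, co m0, hm0c, ?_, hfq⟩
  intro z hz
  apply DifferentiableAt.differentiableWithinAt
  by_cases hzq : z = q
  · rw [hzq]; exact hfq
  · have hop : IsOpen (D \ {q}) := hD.sdiff isClosed_singleton
    have he : f =ᶠ[𝓝 z] fun w => (w - q) ^ (m0 + 1) • φ w := by
      filter_upwards [hop.mem_nhds ⟨hz, hzq⟩] with w hw
      have hwq : w ≠ q := hw.2
      simp only [hf, if_neg hwq]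
    refine DifferentiableAt.congr_of_eventuallyEq ?_ he
    exact ((differentiableAt_id.sub_const q).pow _).smul (hφ.differentiableAt (hop.mem_nhds ⟨hz, hzq⟩))

/-- locally bounded (also at the boundary points of `D`) + polynomial growth near `∞` ⇒ polynomial growth -/
theorem ret_growth_of_local {D : Set ℂ} (f : ℂ → E)
    (hloc : ∀ z0, ∃ C : ℝ, ∀ᶠ z in 𝓝 z0, z ∈ D → ‖f z‖ ≤ C) (n : ℕ)
    (hinf : ∃ R C : ℝ, ∀ z ∈ D, R < ‖z‖ → ‖f z‖ ≤ C * (1 + ‖z‖) ^ n) :
    ∃ C : ℝ, ∀ z ∈ D, ‖f z‖ ≤ C * (1 + ‖z‖) ^ n := by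
  obtain ⟨R, C, hC⟩ := hinf
  have hK : ∃ C' : ℝ, ∀ z ∈ Metric.closedBall (0 : ℂ) R, z ∈ D → ‖f z‖ ≤ C' := by
    refine IsCompact.induction_on (isCompact_closedBall (0 : ℂ) R)
      (p := fun s => ∃ C' : ℝ, ∀ z ∈ s, z ∈ D → ‖f z‖ ≤ C') ⟨0, by simp⟩ ?_ ?_ ?_
    · rintro s t hst ⟨C', h⟩
      exact ⟨C', fun z hz => h z (hst hz)⟩
    · rintro s t ⟨C1, h1⟩ ⟨C2, h2⟩
      refine ⟨max C1 C2, ?_⟩
      rintro z (hz | hz) hzD
      · exact (h1 z hz hzD).trans (le_max_left _ _)
      · exact (h2 z hz hzD).trans (le_max_right _ _)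
    · intro x _
      obtain ⟨C', hC'⟩ := hloc x
      exact ⟨{z | z ∈ D → ‖f z‖ ≤ C'}, mem_nhdsWithin_of_mem_nhds hC', C', fun z hz => hz⟩
  obtain ⟨C', hC'⟩ := hK
  refine ⟨max C (max C' 0), ?_⟩
  intro z hzD
  have h1 : (1 : ℝ) ≤ (1 + ‖z‖) ^ n := one_le_pow₀ (by linarith [norm_nonneg z])
  by_cases hz : R < ‖z‖
  · exact (hC z hzD hz).trans (mul_le_mul_of_nonneg_right (le_max_left _ _) (by positivity))
  · have := hC' z (by rw [mem_closedBall_zero_iff]; exact not_lt.1 hz) hzD
    calc ‖f z‖ ≤ max C' 0 := this.trans (le_max_left _ _)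
      _ = max C' 0 * 1 := (mul_one _).symm
      _ ≤ max C' 0 * (1 + ‖z‖) ^ n := mul_le_mul_of_nonneg_left h1 (le_max_right _ _)
      _ ≤ max C (max C' 0) * (1 + ‖z‖) ^ n :=
          mul_le_mul_of_nonneg_right (le_max_right _ _) (by positivity)

end Claimed.Agent.R280
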