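import Claimed.Agent.R280.RET.FrameDefs

/-!
# Row 280, RET / FRAME-2b: the raw meromorphic function on the cover attached to a two-frame system
(owner of the statements: helper30)   Apply `ret_par_main` to `𝔉.cocycle` with `P n z = (z - q)^{-(n+1)} • e`; `φ = up i (a i)`, `Φ = dn i (a i)`.
-/

set_option autoImplicit false

namespace Claimed.Agent.R280

open Complex Topology

variable {ι : Type} {E : Type} [NormedAddCommGroup E] [NormedSpace ℂ E]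
  {D1 D2 : Set ℂ} {G : ℂ → (E →L[ℂ] E)}

theorem RetFrames.exists_raw [Fintype ι] [FiniteDimensional ℂ E] (𝔉 : RetFrames ι E D1 D2 G)
    (hD1 : IsOpen D1) (hD2 : IsOpen D2) (i0 : ι) (q : ℂ) (hq : q ∈ 𝔉.U i0) (hq1 : q ∈ D1)
    (hup : ∀ᶠ z in 𝓝 q, 𝔉.up i0 z = ContinuousLinearMap.id ℂ E) (e : E) :
    ∃ (N : ℕ) (co : ℕ → ℂ) (φ Φ : ℂ → E), (∃ n < N, co n ≠ 0) ∧
      DifferentiableOn ℂ φ (D1 \ {q}) ∧ DifferentiableOn ℂ Φ (D2 \ {q}) ∧
      (∀ z, z ∈ D1 → z ∈ D2 → z ≠ q → Φ z = G z (φ z)) ∧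
      (∃ g : ℂ → E, DifferentiableAt ℂ g q ∧ ∀ᶠ z in 𝓝[≠] q,
        φ z = (∑ n ∈ Finset.range N, co n * ((z - q)⁻¹) ^ (n + 1)) • e + g z) ∧
      (∀ z0, z0 ≠ q → ∃ C : ℝ, ∀ᶠ z in 𝓝 z0, z ∈ D1 → ‖φ z‖ ≤ C) ∧
      (∃ R C : ℝ, ∀ z ∈ D1, R < ‖z‖ → ‖φ z‖ ≤ C) := by
  classical
  have hP : ∀ n : ℕ, DifferentiableOn ℂ (fun z : ℂ => ((z - q)⁻¹) ^ (n + 1) • e)
      ((𝔉.cocycle hD1 hD2).U i0 \ {q}) := by
    intro n z hz
    have hne : z - q ≠ 0 := sub_ne_zero.2 hz.2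
    apply DifferentiableAt.differentiableWithinAt
    exact ((((differentiableAt_id.sub_const q).inv hne).pow (n + 1)).smul_const e)
  obtain ⟨N, co, a, hco, ha, hT, ⟨g, hg, hnear⟩, ⟨R, M, hbd⟩⟩ :=
    ret_par_main (𝔉.cocycle hD1 hD2) i0 q hq (fun n z => ((z - q)⁻¹) ^ (n + 1) • e) hP
  change ∀ i, DifferentiableOn ℂ (a i) (𝔉.U i \ {q}) at ha
  change ∀ i j, ∀ z, z ∈ 𝔉.U i → z ∈ 𝔉.U j → z ≠ q → a i z = 𝔉.T i j z (a j z) at hT
  change ∀ z, R < ‖z‖ → ‖a 𝔉.inf z‖ ≤ M at hbd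
  let idx : ℂ → ι := fun z => Classical.choose (𝔉.cover z)
  have hidx : ∀ z, z ∈ 𝔉.U (idx z) := fun z => Classical.choose_spec (𝔉.cover z)
  have hφ : ∀ i z, z ∈ 𝔉.U i → z ∈ D1 → z ≠ q →
      𝔉.up (idx z) z (a (idx z) z) = 𝔉.up i z (a i z) := by
    intro i z hi h1 hne
    by_cases hii : idx z = i
    · rw [hii]
    · rw [hT (idx z) i z (hidx z) hi hne, 𝔉.T_eq_up hii h1]
      have := congrArg (fun L : E →L[ℂ] E => L (𝔉.up i z (a i z))) (𝔉.up_upI (idx z) z (hidx z) h1)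
      simpa using this
  have hΦ : ∀ i z, z ∈ 𝔉.U i → z ∈ D2 → z ≠ q →
      𝔉.dn (idx z) z (a (idx z) z) = 𝔉.dn i z (a i z) := by
    intro i z hi h2 hne
    by_cases hii : idx z = i
    · rw [hii]
    · rw [hT (idx z) i z (hidx z) hi hne, 𝔉.T_eq_dn hii (hidx z) hi h2]
      have := congrArg (fun L : E →L[ℂ] E => L (𝔉.dn i z (a i z))) (𝔉.dn_dnI (idx z) z (hidx z) h2)
      simpa using this
  have hopen : ∀ i, IsOpen (𝔉.U i \ {q}) := fun i => (𝔉.isOpen i).sdiff isClosed_singleton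
  refine ⟨N, co, fun z => 𝔉.up (idx z) z (a (idx z) z), fun z => 𝔉.dn (idx z) z (a (idx z) z), hco,
    ?_, ?_, ?_, ⟨g, hg, ?_⟩, ?_, ?_⟩
  · intro z hz
    apply DifferentiableAt.differentiableWithinAt
    have he : (fun z => 𝔉.up (idx z) z (a (idx z) z)) =ᶠ[𝓝 z] fun w => 𝔉.up (idx z) w (a (idx z) w) := by
      filter_upwards [hD1.mem_nhds hz.1, (hopen (idx z)).mem_nhds ⟨hidx z, hz.2⟩] with w hw1 hw2
        using hφ (idx z) w hw2.1 hw1 hw2.2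
    refine DifferentiableAt.congr_of_eventuallyEq ?_ he
    exact ((𝔉.up_holo (idx z)).differentiableAt
      (((𝔉.isOpen _).inter hD1).mem_nhds ⟨hidx z, hz.1⟩)).clm_apply
      ((ha (idx z)).differentiableAt ((hopen _).mem_nhds ⟨hidx z, hz.2⟩))
  · intro z hz
    apply DifferentiableAt.differentiableWithinAt
    have he : (fun z => 𝔉.dn (idx z) z (a (idx z) z)) =ᶠ[𝓝 z] fun w => 𝔉.dn (idx z) w (a (idx z) w) := by
      filter_upwards [hD2.mem_nhds hz.1, (hopen (idx z)).mem_nhds ⟨hidx z, hz.2⟩] with w hw1 hw2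
        using hΦ (idx z) w hw2.1 hw1 hw2.2
    refine DifferentiableAt.congr_of_eventuallyEq ?_ he
    exact ((𝔉.dn_holo (idx z)).differentiableAt
      (((𝔉.isOpen _).inter hD2).mem_nhds ⟨hidx z, hz.1⟩)).clm_apply
      ((ha (idx z)).differentiableAt ((hopen _).mem_nhds ⟨hidx z, hz.2⟩))
  · intro z h1 h2 _
    change 𝔉.dn (idx z) z (a (idx z) z) = G z (𝔉.up (idx z) z (a (idx z) z))
    rw [𝔉.rel (idx z) z (hidx z) h1 h2]
    rfl
  · have h1 : ∀ᶠ z in 𝓝[≠] q, z ∈ D1 ∧ z ∈ 𝔉.U i0 ∧ 𝔉.up i0 z = ContinuousLinearMap.id ℂ E :=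
      nhdsWithin_le_nhds (Filter.Eventually.and (hD1.mem_nhds hq1)
        (Filter.Eventually.and ((𝔉.isOpen i0).mem_nhds hq) hup))
    filter_upwards [hnear, h1, self_mem_nhdsWithin] with z hz1 hz2 hz3
    change 𝔉.up (idx z) z (a (idx z) z) = _
    rw [hφ i0 z hz2.2.1 hz2.1 hz3, hz2.2.2, ContinuousLinearMap.id_apply, hz1, Finset.sum_smul]
    simp only [mul_smul]
  · intro z0 hz0
    obtain ⟨C, hC⟩ := 𝔉.up_bound (idx z0)
    have hcont : ContinuousAt (a (idx z0)) z0 :=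
      ((ha (idx z0)).differentiableAt ((hopen _).mem_nhds ⟨hidx z0, hz0⟩)).continuousAt
    have hb : ∀ᶠ z in 𝓝 z0, ‖a (idx z0) z‖ < ‖a (idx z0) z0‖ + 1 :=
      hcont.norm.eventually_lt continuousAt_const (by simp)
    refine ⟨max C 0 * (‖a (idx z0) z0‖ + 1), ?_⟩
    filter_upwards [hb, (hopen (idx z0)).mem_nhds ⟨hidx z0, hz0⟩] with z hz1 hz2 hzD
    change ‖𝔉.up (idx z) z (a (idx z) z)‖ ≤ _
    rw [hφ (idx z0) z hz2.1 hzD hz2.2]
    calc ‖𝔉.up (idx z0) z (a (idx z0) z)‖ ≤ ‖𝔉.up (idx z0) z‖ * ‖a (idx z0) z‖ :=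
          ContinuousLinearMap.le_opNorm _ _
      _ ≤ max C 0 * (‖a (idx z0) z0‖ + 1) := by
          apply mul_le_mul ((hC z hz2.1 hzD).trans (le_max_left _ _)) hz1.le (norm_nonneg _)
            (le_max_right _ _)
  · obtain ⟨C, hC⟩ := 𝔉.up_bound 𝔉.inf
    obtain ⟨R1, hR1⟩ := 𝔉.bdd_inf.subset_closedBall 0
    refine ⟨max (max R R1) ‖q‖, max C 0 * max M 0, ?_⟩
    intro z hzD hz
    have hzR : R < ‖z‖ := lt_of_le_of_lt ((le_max_left _ _).trans (le_max_left _ _)) hz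
    have hzR1 : R1 < ‖z‖ := lt_of_le_of_lt ((le_max_right _ _).trans (le_max_left _ _)) hz
    have hzq : z ≠ q := fun h => by rw [h] at hz; exact absurd hz (not_lt.2 (le_max_right _ _))
    have hzU : z ∈ 𝔉.U 𝔉.inf := by
      by_contra hcon
      have := hR1 hcon
      rw [mem_closedBall_zero_iff] at this
      exact absurd this (not_le.2 hzR1)
    change ‖𝔉.up (idx z) z (a (idx z) z)‖ ≤ _
    rw [hφ 𝔉.inf z hzU hzD hzq]
    calc ‖𝔉.up 𝔉.inf z (a 𝔉.inf z)‖ ≤ ‖𝔉.up 𝔉.inf z‖ * ‖a 𝔉.inf z‖ :=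
          ContinuousLinearMap.le_opNorm _ _
      _ ≤ max C 0 * max M 0 := by
          apply mul_le_mul ((hC z hzU hzD).trans (le_max_left _ _))
            ((hbd z hzR).trans (le_max_left _ _)) (norm_nonneg _) (le_max_right _ _)

end Claimed.Agent.R280
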