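import Claimed.Agent.R280.RET.FrameRaw
import Claimed.Agent.R280.RET.FramePole

/-!
# Row 280, RET / FRAME-2d: holomorphic functions on the cover attached to a two-frame system (glue of 2b, 2c)
(owner of the statements: helper30)
-/

set_option autoImplicit false

namespace Claimed.Agent.R280

open Complex Topology

variable {ι : Type} {E : Type} [NormedAddCommGroup E] [NormedSpace ℂ E]
  {D1 D2 : Set ℂ} {G : ℂ → (E →L[ℂ] E)}

theorem RetFrames.exists_section [Fintype ι] [FiniteDimensional ℂ E] (𝔉 : RetFrames ι E D1 D2 G)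
    (hD1 : IsOpen D1) (hD2 : IsOpen D2) (i0 : ι) (q : ℂ) (hq : q ∈ 𝔉.U i0) (hq1 : q ∈ D1)
    (hq2 : q ∈ D2) (hup : ∀ᶠ z in 𝓝 q, 𝔉.up i0 z = ContinuousLinearMap.id ℂ E)
    (hG : ∀ᶠ z in 𝓝 q, G z = ContinuousLinearMap.id ℂ E) (e : E) :
    ∃ (f F : ℂ → E) (c : ℂ) (C : ℝ) (n : ℕ), DifferentiableOn ℂ f D1 ∧ DifferentiableOn ℂ F D2 ∧
      (∀ z, z ∈ D1 → z ∈ D2 → F z = G z (f z)) ∧ (∀ z ∈ D1, ‖f z‖ ≤ C * (1 + ‖z‖) ^ n) ∧
      c ≠ 0 ∧ f q = c • e := by
  obtain ⟨N, co, φ, Φ, hco, hφ, hΦ, hrel, ⟨g, hg, hnear⟩, hloc, ⟨R, C, hinf⟩⟩ :=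
    𝔉.exists_raw hD1 hD2 i0 q hq hq1 hup e
  obtain ⟨M, c, hc, hf, hfq⟩ := ret_remove_pole hD1 φ hφ N co hco e g hg hnear
  set f : ℂ → E := fun z => if z = q then c • e else (z - q) ^ M • φ z with hfdef
  set F : ℂ → E := fun z => if z = q then c • e else (z - q) ^ M • Φ z with hFdef
  have hFf : F =ᶠ[𝓝 q] f := by
    filter_upwards [hD1.mem_nhds hq1, hD2.mem_nhds hq2, hG] with z h1 h2 h3
    by_cases hz : z = q
    · simp only [hFdef, hfdef, if_pos hz]
    · simp only [hFdef, hfdef, if_neg hz, hrel z h1 h2 hz, h3, ContinuousLinearMap.id_apply]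
  have hgrow : ∃ C' : ℝ, ∀ z ∈ D1, ‖f z‖ ≤ C' * (1 + ‖z‖) ^ M := by
    apply ret_growth_of_local
    · intro z0
      by_cases hz0 : z0 = q
      · subst hz0
        refine ⟨‖f z0‖ + 1, ?_⟩
        have : ∀ᶠ z in 𝓝 z0, ‖f z‖ < ‖f z0‖ + 1 :=
          hfq.continuousAt.norm.eventually_lt continuousAt_const (by simp)
        filter_upwards [this] with z hz _ using hz.le
      · obtain ⟨C0, hC0⟩ := hloc z0 hz0
        refine ⟨(‖z0 - q‖ + 1) ^ M * max C0 0, ?_⟩
        have h1 : ∀ᶠ z in 𝓝 z0, ‖z - q‖ < ‖z0 - q‖ + 1 :=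
          (continuousAt_id.sub continuousAt_const).norm.eventually_lt continuousAt_const (by simp)
        filter_upwards [hC0, h1, isOpen_ne.mem_nhds hz0] with z hz1 hz2 hz3 hzD
        have hz3' : z ≠ q := hz3
        simp only [hfdef, if_neg hz3', norm_smul, norm_pow]
        exact mul_le_mul (pow_le_pow_left₀ (norm_nonneg _) hz2.le _)
          ((hz1 hzD).trans (le_max_left _ _)) (norm_nonneg _) (by positivity)
    · refine ⟨max R ‖q‖, (1 + ‖q‖) ^ M * max C 0, ?_⟩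
      intro z hzD hz
      have hzR : R < ‖z‖ := lt_of_le_of_lt (le_max_left _ _) hz
      have hzq : z ≠ q := fun h => by rw [h] at hz; exact absurd hz (not_lt.2 (le_max_right _ _))
      simp only [hfdef, if_neg hzq, norm_smul, norm_pow]
      have h1 : ‖z - q‖ ≤ (1 + ‖q‖) * (1 + ‖z‖) := by
        have := norm_sub_le z q
        nlinarith [norm_nonneg z, norm_nonneg q]
      calc ‖z - q‖ ^ M * ‖φ z‖ ≤ ((1 + ‖q‖) * (1 + ‖z‖)) ^ M * max C 0 :=
            mul_le_mul (pow_le_pow_left₀ (norm_nonneg _) h1 _)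
              ((hinf z hzD hzR).trans (le_max_left _ _)) (norm_nonneg _) (by positivity)
        _ = (1 + ‖q‖) ^ M * max C 0 * (1 + ‖z‖) ^ M := by rw [mul_pow]; ring
  obtain ⟨C', hC'⟩ := hgrow
  refine ⟨f, F, c, C', M, hf, ?_, ?_, hC', hc, by simp [hfdef]⟩
  · intro z hz
    apply DifferentiableAt.differentiableWithinAt
    by_cases hzq : z = q
    · rw [hzq]; exact hfq.congr_of_eventuallyEq hFf
    · have hop : IsOpen (D2 \ {q}) := hD2.sdiff isClosed_singleton
      have he : F =ᶠ[𝓝 z] fun w => (w - q) ^ M • Φ w := by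
        filter_upwards [hop.mem_nhds ⟨hz, hzq⟩] with w hw
        have hwq : w ≠ q := hw.2
        simp only [hFdef, if_neg hwq]
      refine DifferentiableAt.congr_of_eventuallyEq ?_ he
      exact ((differentiableAt_id.sub_const q).pow _).smul
        (hΦ.differentiableAt (hop.mem_nhds ⟨hz, hzq⟩))
  · intro z h1 h2
    by_cases hz : z = q
    · simp only [hFdef, hfdef, if_pos hz]
      rw [hz, hG.self_of_nhds, ContinuousLinearMap.id_apply]
    · simp only [hFdef, hfdef, if_neg hz, hrel z h1 h2 hz, map_smul]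

end Claimed.Agent.R280
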