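import Mathlib

/-!
# Row 280, package RET / Geom: the geometry of the analytic half of RET (Layers 2 + 3; owner helper30)

Branch points `b k` (`k : Fin r`) with STRICTLY INCREASING real parts.  Two systems of parallel vertical cuts:

* `retDup b` : `ℂ` minus the closed UPWARD rays `b k + i[0,∞)`;
* `retDdn b` : `ℂ` minus the closed DOWNWARD rays `b k - i[0,∞)`;
* `retA b j` (`0 ≤ j ≤ r`) : the vertical strip with exactly `j` branch points on its left;
  `retDup b ∩ retDdn b = ⋃ j ≤ r, retA b j`;
* `retW b k` : the vertical strip between the neighbours of `b k` (it contains `b k`, `retA b k`, `retA b (k+1)`);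
* `retExt R` : the exterior of the closed square of half side `R` (punctured neighbourhood of `∞`).

A "function on the cover with monodromy `σ`" is a pair of families `f s` (holomorphic on `retDup b`), `F s`
(holomorphic on `retDdn b`) with `F s = f (retH σ j s)` on `retA b j`, `retH σ j = (σ 0 * ⋯ * σ (j-1))⁻¹`.

Branches of the logarithm: `retLogUp` (cut along `+i[0,∞)`, `arg ∈ (-3π/2, π/2]`), `retLogDn` (cut along `-i[0,∞)`,
`arg ∈ (-π/2, 3π/2]`); they agree for `re > 0`, and `retLogDn = retLogUp + 2πi` for `re < 0`.
-/

set_option autoImplicit false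

namespace Claimed.Agent.R280

open Complex

section Sets

variable {r : ℕ}

/-- the plane cut along the upward vertical rays starting at the `b k` -/
def retDup (b : Fin r → ℂ) : Set ℂ := {z | ∀ k, z.re = (b k).re → z.im < (b k).im}

/-- the plane cut along the downward vertical rays starting at the `b k` -/
def retDdn (b : Fin r → ℂ) : Set ℂ := {z | ∀ k, z.re = (b k).re → (b k).im < z.im}

/-- the vertical strip with the points `b k`, `k < j`, on its left and the others on its right -/
def retA (b : Fin r → ℂ) (j : ℕ) : Set ℂ :=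
  {z | ∀ k : Fin r, (k.val < j → (b k).re < z.re) ∧ (j ≤ k.val → z.re < (b k).re)}

/-- the vertical strip between the neighbours of `b k` -/
def retW (b : Fin r → ℂ) (k : Fin r) : Set ℂ :=
  {z | ∀ l : Fin r, (l < k → (b l).re < z.re) ∧ (k < l → z.re < (b l).re)}

/-- the exterior of the closed square `[-R,R]²` -/
def retExt (R : ℝ) : Set ℂ := {z | R < |z.re| ∨ R < |z.im|}

/-- the lower `U`-shaped part of `retExt R` (contained in `retDup b` for large `R`) -/
def retCdn (R : ℝ) : Set ℂ := {z | z.re < -R ∨ R < z.re ∨ z.im < -R}

/-- the upper `∩`-shaped part of `retExt R` (contained in `retDdn b` for large `R`) -/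
def retCup (R : ℝ) : Set ℂ := {z | z.re < -R ∨ R < z.re ∨ R < z.im}

/-- the open square `(-R,R)²` -/
def retBox (R : ℝ) : Set ℂ := {z | |z.re| < R ∧ |z.im| < R}

/-- `(σ 0 * ⋯ * σ (j-1))⁻¹` -/
def retH {S : Type} (σ : Fin r → Equiv.Perm S) (j : ℕ) : Equiv.Perm S :=
  (((List.ofFn σ).take j).prod)⁻¹

end Sets

section Logs

/-- the branch of `log` with cut along the positive imaginary axis, `arg ∈ (-3π/2, π/2]` -/
noncomputable def retLogUp (w : ℂ) : ℂ := Complex.log (w * I) - (Real.pi / 2 : ℝ) * I

/-- the branch of `log` with cut along the negative imaginary axis, `arg ∈ (-π/2, 3π/2]` -/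
noncomputable def retLogDn (w : ℂ) : ℂ := Complex.log (w * (-I)) + (Real.pi / 2 : ℝ) * I

/-- the branch of `w ^ (1/m)` with cut along the positive imaginary axis -/
noncomputable def retRootUp (m : ℕ) (w : ℂ) : ℂ := Complex.exp (retLogUp w / m)

/-- the branch of `w ^ (1/m)` with cut along the negative imaginary axis -/
noncomputable def retRootDn (m : ℕ) (w : ℂ) : ℂ := Complex.exp (retLogDn w / m)

end Logs

end Claimed.Agent.R280
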