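import Claimed.Agent.R280.RET.Geom

/-!
# Row 280, package RET / GEOM (~600 lines): elementary facts on the sets of `Geom.lean`   (owner of the statements: helper30)
All sets are described by inequalities on `re`, `im`.  Connectedness: `retDup b` is the union of the convex sets `retA b j` and
`{z ∈ retW b k | z.im < (b k).im}` chained by nonempty intersections (or: every point can be joined to a point of the half plane below all `b k` by a
vertical segment); `retCup R`, `retCdn R`, `retExt R` are unions of 3 resp. 4 half planes with nonempty consecutive intersections.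
-/

set_option autoImplicit false

namespace Claimed.Agent.R280

open Complex

variable {r : ℕ} (b : Fin r → ℂ)

theorem retDup_isOpen : IsOpen (retDup b) := by
  have e : retDup b = ⋂ k, ({z : ℂ | z.re ≠ (b k).re} ∪ {z : ℂ | z.im < (b k).im}) := by
    ext z
    simp only [retDup, Set.mem_ofPred_eq, Set.mem_iInter, Set.mem_union]
    exact forall_congr' fun k => by tauto
  rw [e]
  exact isOpen_iInter_of_finite fun k =>
    (isOpen_ne_fun continuous_re continuous_const).union (isOpen_lt continuous_im continuous_const)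

theorem retDdn_isOpen : IsOpen (retDdn b) := by
  have e : retDdn b = ⋂ k, ({z : ℂ | z.re ≠ (b k).re} ∪ {z : ℂ | (b k).im < z.im}) := by
    ext z
    simp only [retDdn, Set.mem_ofPred_eq, Set.mem_iInter, Set.mem_union]
    exact forall_congr' fun k => by tauto
  rw [e]
  exact isOpen_iInter_of_finite fun k =>
    (isOpen_ne_fun continuous_re continuous_const).union (isOpen_lt continuous_const continuous_im)

theorem retgeo_isOpen_imp_gt (p : Prop) (c : ℝ) : IsOpen {z : ℂ | p → c < z.re} := by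
  by_cases hp : p
  · simpa [hp] using isOpen_lt continuous_const continuous_re
  · simp [hp]

theorem retgeo_isOpen_imp_lt (p : Prop) (c : ℝ) : IsOpen {z : ℂ | p → z.re < c} := by
  by_cases hp : p
  · simpa [hp] using isOpen_lt continuous_re continuous_const
  · simp [hp]

theorem retgeo_convex_imp_gt (p : Prop) (c : ℝ) : Convex ℝ {z : ℂ | p → c < z.re} := by
  by_cases hp : p
  · simpa [hp] using convex_halfSpace_re_gt c
  · simpa [hp] using convex_univ

theorem retgeo_convex_imp_lt (p : Prop) (c : ℝ) : Convex ℝ {z : ℂ | p → z.re < c} := by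
  by_cases hp : p
  · simpa [hp] using convex_halfSpace_re_lt c
  · simpa [hp] using convex_univ

theorem retgeo_A_eq (j : ℕ) : retA b j
    = ⋂ k : Fin r, ({z : ℂ | k.val < j → (b k).re < z.re} ∩ {z : ℂ | j ≤ k.val → z.re < (b k).re}) := by
  ext z
  simp only [retA, Set.mem_ofPred_eq, Set.mem_iInter, Set.mem_inter_iff]

theorem retgeo_W_eq (k : Fin r) : retW b k
    = ⋂ l : Fin r, ({z : ℂ | l < k → (b l).re < z.re} ∩ {z : ℂ | k < l → z.re < (b l).re}) := by
  ext z
  simp only [retW, Set.mem_ofPred_eq, Set.mem_iInter, Set.mem_inter_iff]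

theorem retA_isOpen (j : ℕ) : IsOpen (retA b j) := by
  rw [retgeo_A_eq]
  exact isOpen_iInter_of_finite fun k =>
    (retgeo_isOpen_imp_gt _ _).inter (retgeo_isOpen_imp_lt _ _)

theorem retW_isOpen (k : Fin r) : IsOpen (retW b k) := by
  rw [retgeo_W_eq]
  exact isOpen_iInter_of_finite fun l =>
    (retgeo_isOpen_imp_gt _ _).inter (retgeo_isOpen_imp_lt _ _)

theorem retExt_isOpen (R : ℝ) : IsOpen (retExt R) :=
  (isOpen_lt continuous_const continuous_re.abs).union (isOpen_lt continuous_const continuous_im.abs)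

theorem retCup_isOpen (R : ℝ) : IsOpen (retCup R) :=
  (isOpen_lt continuous_re continuous_const).union
    ((isOpen_lt continuous_const continuous_re).union (isOpen_lt continuous_const continuous_im))

theorem retCdn_isOpen (R : ℝ) : IsOpen (retCdn R) :=
  (isOpen_lt continuous_re continuous_const).union
    ((isOpen_lt continuous_const continuous_re).union (isOpen_lt continuous_im continuous_const))

theorem retBox_isOpen (R : ℝ) : IsOpen (retBox R) :=
  (isOpen_lt continuous_re.abs continuous_const).inter (isOpen_lt continuous_im.abs continuous_const)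

/-- a real number below all `(b k).im` -/
theorem retgeo_exists_below : ∃ m : ℝ, ∀ k, m < (b k).im := by
  obtain ⟨m, hm⟩ := (Set.finite_range fun k => (b k).im).bddBelow
  exact ⟨m - 1, fun k => by
    have : m ≤ (b k).im := hm (Set.mem_range_self k)
    linarith⟩

/-- a real number above all `(b k).im` -/
theorem retgeo_exists_above : ∃ m : ℝ, ∀ k, (b k).im < m := by
  obtain ⟨m, hm⟩ := (Set.finite_range fun k => (b k).im).bddAbove
  exact ⟨m + 1, fun k => by
    have : (b k).im ≤ m := hm (Set.mem_range_self k)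
    linarith⟩

theorem retgeo_convex_vert_le (x y : ℝ) : Convex ℝ {w : ℂ | w.re = x ∧ w.im ≤ y} := by
  have h1 : Convex ℝ {w : ℂ | w.re = x} := by
    have : {w : ℂ | w.re = x} = {w : ℂ | w.re ≤ x} ∩ {w : ℂ | x ≤ w.re} := by
      ext w
      simp only [Set.mem_ofPred_eq, Set.mem_inter_iff]
      exact ⟨fun h => ⟨h.le, h.ge⟩, fun h => le_antisymm h.1 h.2⟩
    rw [this]
    exact (convex_halfSpace_re_le x).inter (convex_halfSpace_re_ge x)
  exact h1.inter (convex_halfSpace_im_le y)

theorem retgeo_convex_vert_ge (x y : ℝ) : Convex ℝ {w : ℂ | w.re = x ∧ y ≤ w.im} := by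
  have h1 : Convex ℝ {w : ℂ | w.re = x} := by
    have : {w : ℂ | w.re = x} = {w : ℂ | w.re ≤ x} ∩ {w : ℂ | x ≤ w.re} := by
      ext w
      simp only [Set.mem_ofPred_eq, Set.mem_inter_iff]
      exact ⟨fun h => ⟨h.le, h.ge⟩, fun h => le_antisymm h.1 h.2⟩
    rw [this]
    exact (convex_halfSpace_re_le x).inter (convex_halfSpace_re_ge x)
  exact h1.inter (convex_halfSpace_im_ge y)

theorem retDup_isPreconnected : IsPreconnected (retDup b) := by
  obtain ⟨m, hm⟩ := retgeo_exists_below b
  refine isPreconnected_of_forall (⟨0, m - 1⟩ : ℂ) fun y hy => ?_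
  refine ⟨{w : ℂ | w.re = y.re ∧ w.im ≤ y.im} ∪ {w : ℂ | w.im < m}, ?_, Or.inr ?_,
    Or.inl ⟨rfl, le_rfl⟩, ?_⟩
  · rintro w (⟨h1, h2⟩ | h) k hk
    · exact lt_of_le_of_lt h2 (hy k (h1 ▸ hk))
    · exact lt_trans h (hm k)
  · show m - 1 < m
    linarith
  · refine IsPreconnected.union (⟨y.re, min y.im (m - 1)⟩ : ℂ) ⟨rfl, min_le_left _ _⟩ ?_
      (retgeo_convex_vert_le _ _).isPreconnected (convex_halfSpace_im_lt m).isPreconnected
    show min y.im (m - 1) < m
    exact lt_of_le_of_lt (min_le_right _ _) (by linarith)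

theorem retDdn_isPreconnected : IsPreconnected (retDdn b) := by
  obtain ⟨m, hm⟩ := retgeo_exists_above b
  refine isPreconnected_of_forall (⟨0, m + 1⟩ : ℂ) fun y hy => ?_
  refine ⟨{w : ℂ | w.re = y.re ∧ y.im ≤ w.im} ∪ {w : ℂ | m < w.im}, ?_, Or.inr ?_,
    Or.inl ⟨rfl, le_rfl⟩, ?_⟩
  · rintro w (⟨h1, h2⟩ | h) k hk
    · exact lt_of_lt_of_le (hy k (h1 ▸ hk)) h2
    · exact lt_trans (hm k) h
  · show m < m + 1
    linarith
  · refine IsPreconnected.union (⟨y.re, max y.im (m + 1)⟩ : ℂ) ⟨rfl, le_max_left _ _⟩ ?_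
      (retgeo_convex_vert_ge _ _).isPreconnected (convex_halfSpace_im_gt m).isPreconnected
    show m < max y.im (m + 1)
    exact lt_of_lt_of_le (by linarith) (le_max_right _ _)

theorem retDup_nonempty : (retDup b).Nonempty := by
  obtain ⟨m, hm⟩ := retgeo_exists_below b
  exact ⟨⟨0, m⟩, fun k _ => hm k⟩

theorem retDdn_nonempty : (retDdn b).Nonempty := by
  obtain ⟨m, hm⟩ := retgeo_exists_above b
  exact ⟨⟨0, m⟩, fun k _ => hm k⟩

theorem retA_convex (j : ℕ) : Convex ℝ (retA b j) := by
  rw [retgeo_A_eq]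
  exact convex_iInter fun k => (retgeo_convex_imp_gt _ _).inter (retgeo_convex_imp_lt _ _)

theorem retW_convex (k : Fin r) : Convex ℝ (retW b k) := by
  rw [retgeo_W_eq]
  exact convex_iInter fun l => (retgeo_convex_imp_gt _ _).inter (retgeo_convex_imp_lt _ _)

theorem retCup_isPreconnected {R : ℝ} (hR : 0 ≤ R) : IsPreconnected (retCup R) := by
  have e : retCup R = {z : ℂ | z.re < -R} ∪ ({z : ℂ | R < z.im} ∪ {z : ℂ | R < z.re}) := by
    ext z
    simp only [retCup, Set.mem_ofPred_eq, Set.mem_union]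
    tauto
  rw [e]
  refine IsPreconnected.union (⟨-R - 1, R + 1⟩ : ℂ) ?_ (Or.inl ?_)
    (convex_halfSpace_re_lt _).isPreconnected ?_
  · show -R - 1 < -R
    linarith
  · show R < R + 1
    linarith
  · refine IsPreconnected.union (⟨R + 1, R + 1⟩ : ℂ) ?_ ?_
      (convex_halfSpace_im_gt _).isPreconnected (convex_halfSpace_re_gt _).isPreconnected
    · show R < R + 1
      linarith
    · show R < R + 1
      linarith

theorem retCdn_isPreconnected {R : ℝ} (hR : 0 ≤ R) : IsPreconnected (retCdn R) := by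
  have e : retCdn R = {z : ℂ | z.re < -R} ∪ ({z : ℂ | z.im < -R} ∪ {z : ℂ | R < z.re}) := by
    ext z
    simp only [retCdn, Set.mem_ofPred_eq, Set.mem_union]
    tauto
  rw [e]
  refine IsPreconnected.union (⟨-R - 1, -R - 1⟩ : ℂ) ?_ (Or.inl ?_)
    (convex_halfSpace_re_lt _).isPreconnected ?_
  · show -R - 1 < -R
    linarith
  · show -R - 1 < -R
    linarith
  · refine IsPreconnected.union (⟨R + 1, -R - 1⟩ : ℂ) ?_ ?_
      (convex_halfSpace_im_lt _).isPreconnected (convex_halfSpace_re_gt _).isPreconnected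
    · show -R - 1 < -R
      linarith
    · show R < R + 1
      linarith

theorem retCup_union_retCdn (R : ℝ) : retCup R ∪ retCdn R = retExt R := by
  ext z
  simp only [retCup, retCdn, retExt, Set.mem_ofPred_eq, Set.mem_union, lt_abs, lt_neg (a := R)]
  tauto

theorem retExt_isPreconnected {R : ℝ} (hR : 0 ≤ R) : IsPreconnected (retExt R) := by
  rw [← retCup_union_retCdn]
  refine IsPreconnected.union (⟨R + 1, 0⟩ : ℂ) (Or.inr (Or.inl ?_)) (Or.inr (Or.inl ?_))
    (retCup_isPreconnected hR) (retCdn_isPreconnected hR)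
  · show R < R + 1
    linarith
  · show R < R + 1
    linarith

theorem retCup_inter_retCdn {R : ℝ} (hR : 0 ≤ R) :
    retCup R ∩ retCdn R = {z | z.re < -R ∨ R < z.re} := by
  ext z
  simp only [retCup, retCdn, Set.mem_ofPred_eq, Set.mem_inter_iff]
  constructor
  · rintro ⟨h1 | h1 | h1, h2 | h2 | h2⟩
    all_goals first
      | exact Or.inl h1
      | exact Or.inr h1
      | exact Or.inl h2
      | exact Or.inr h2
      | (exfalso; linarith)
  · rintro (h | h)
    · exact ⟨Or.inl h, Or.inl h⟩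
    · exact ⟨Or.inr (Or.inl h), Or.inr (Or.inl h)⟩

theorem retA_subset_Dup (j : ℕ) : retA b j ⊆ retDup b := by
  intro z hz k hk
  exfalso
  rcases lt_or_ge k.val j with h | h
  · exact absurd hk ((hz k).1 h).ne'
  · exact absurd hk ((hz k).2 h).ne

theorem retA_subset_Ddn (j : ℕ) : retA b j ⊆ retDdn b := by
  intro z hz k hk
  exfalso
  rcases lt_or_ge k.val j with h | h
  · exact absurd hk ((hz k).1 h).ne'
  · exact absurd hk ((hz k).2 h).ne

theorem not_mem_retDup (k : Fin r) : b k ∉ retDup b := fun h => lt_irrefl _ (h k rfl)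

theorem not_mem_retDdn (k : Fin r) : b k ∉ retDdn b := fun h => lt_irrefl _ (h k rfl)

theorem mem_retDup_or_retDdn {b : Fin r → ℂ} (hb : StrictMono fun k => (b k).re) {z : ℂ}
    (hz : z ∉ Set.range b) : z ∈ retDup b ∨ z ∈ retDdn b := by
  by_cases h : ∃ k, z.re = (b k).re
  · obtain ⟨k, hk⟩ := h
    have huniq : ∀ l, z.re = (b l).re → l = k := fun l hl => hb.injective (hl.symm.trans hk)
    have hne : z.im ≠ (b k).im := fun him => hz ⟨k, (Complex.ext hk him).symm⟩
    rcases lt_or_gt_of_ne hne with h1 | h1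
    · exact Or.inl fun l hl => by rw [huniq l hl]; exact h1
    · exact Or.inr fun l hl => by rw [huniq l hl]; exact h1
  · exact Or.inl fun k hk => absurd ⟨k, hk⟩ h

variable {b}

theorem retA_nonempty (hb : StrictMono fun k => (b k).re) {j : ℕ} (hj : j ≤ r) :
    (retA b j).Nonempty := by
  classical
  obtain ⟨x, hx1, hx2⟩ := Order.exists_between_finsets
    ((Finset.univ.filter fun k : Fin r => k.val < j).image fun k => (b k).re)
    ((Finset.univ.filter fun k : Fin r => j ≤ k.val).image fun k => (b k).re) (by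
      intro u hu v hv
      obtain ⟨k, hk, rfl⟩ := Finset.mem_image.mp hu
      obtain ⟨l, hl, rfl⟩ := Finset.mem_image.mp hv
      have h1 := (Finset.mem_filter.mp hk).2
      have h2 := (Finset.mem_filter.mp hl).2
      exact hb (Fin.lt_def.mpr (lt_of_lt_of_le h1 h2)))
  refine ⟨⟨x, 0⟩, fun k => ⟨fun h => ?_, fun h => ?_⟩⟩
  · exact hx1 _ (Finset.mem_image_of_mem _ (Finset.mem_filter.mpr ⟨Finset.mem_univ _, h⟩))
  · exact hx2 _ (Finset.mem_image_of_mem _ (Finset.mem_filter.mpr ⟨Finset.mem_univ _, h⟩))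

theorem exists_mem_retA (hb : StrictMono fun k => (b k).re) {z : ℂ} (h1 : z ∈ retDup b)
    (h2 : z ∈ retDdn b) : ∃ j, j ≤ r ∧ z ∈ retA b j := by
  classical
  have hne : ∀ k, z.re ≠ (b k).re := fun k hk => lt_asymm (h1 k hk) (h2 k hk)
  have hex : ∃ j, ∀ k : Fin r, j ≤ k.val → z.re < (b k).re :=
    ⟨r, fun k hk => absurd k.isLt (not_lt.mpr hk)⟩
  refine ⟨Nat.find hex, Nat.find_min' hex fun k hk => absurd k.isLt (not_lt.mpr hk),
    fun k => ⟨fun hk => ?_, fun hk => Nat.find_spec hex k hk⟩⟩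
  by_contra hcon
  have hlt : z.re < (b k).re := lt_of_le_of_ne (not_lt.mp hcon) (hne k)
  refine Nat.find_min hex hk fun l hl => ?_
  exact lt_of_lt_of_le hlt (hb.monotone (Fin.le_def.mpr hl))

theorem retA_subset_W (hb : StrictMono fun k => (b k).re) (k : Fin r) : retA b k ⊆ retW b k :=
  fun _ hz l => ⟨fun h => (hz l).1 (Fin.lt_def.mp h), fun h => (hz l).2 (Fin.lt_def.mp h).le⟩

theorem retA_succ_subset_W (hb : StrictMono fun k => (b k).re) (k : Fin r) :
    retA b (k + 1) ⊆ retW b k :=
  fun _ hz l => ⟨fun h => (hz l).1 (Nat.lt_succ_of_lt (Fin.lt_def.mp h)),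
    fun h => (hz l).2 (Nat.succ_le_of_lt (Fin.lt_def.mp h))⟩

theorem mem_retW_self (hb : StrictMono fun k => (b k).re) (k : Fin r) : b k ∈ retW b k :=
  fun _ => ⟨fun h => hb h, fun h => hb h⟩

/-- a point of `retW b k` is left of `b k` (in `retA b k`), right of it (in `retA b (k+1)`) or on the vertical line through `b k` -/
theorem retW_cases (hb : StrictMono fun k => (b k).re) (k : Fin r) {z : ℂ} (hz : z ∈ retW b k) :
    z ∈ retA b k ∨ z ∈ retA b (k + 1) ∨ z.re = (b k).re := by
  rcases lt_trichotomy z.re (b k).re with h | h | h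
  · refine Or.inl fun l => ⟨fun hl => (hz l).1 (Fin.lt_def.mpr hl), fun hl => ?_⟩
    rcases eq_or_lt_of_le hl with e | e
    · rw [← Fin.ext e]
      exact h
    · exact (hz l).2 (Fin.lt_def.mpr e)
  · exact Or.inr (Or.inr h)
  · refine Or.inr (Or.inl fun l => ⟨fun hl => ?_, fun hl => (hz l).2 (Fin.lt_def.mpr hl)⟩)
    rcases eq_or_lt_of_le (Nat.lt_succ_iff.mp hl) with e | e
    · rw [Fin.ext e]
      exact h
    · exact (hz l).1 (Fin.lt_def.mpr e)

theorem retW_mem_Dup_iff (hb : StrictMono fun k => (b k).re) (k : Fin r) {z : ℂ} (hz : z ∈ retW b k) :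
    z ∈ retDup b ↔ (z.re = (b k).re → z.im < (b k).im) := by
  refine ⟨fun h => h k, fun h l hl => ?_⟩
  rcases lt_trichotomy l k with e | e | e
  · exact absurd hl ((hz l).1 e).ne'
  · rw [e] at hl ⊢
    exact h hl
  · exact absurd hl ((hz l).2 e).ne

theorem retW_mem_Ddn_iff (hb : StrictMono fun k => (b k).re) (k : Fin r) {z : ℂ} (hz : z ∈ retW b k) :
    z ∈ retDdn b ↔ (z.re = (b k).re → (b k).im < z.im) := by
  refine ⟨fun h => h k, fun h l hl => ?_⟩
  rcases lt_trichotomy l k with e | e | e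
  · exact absurd hl ((hz l).1 e).ne'
  · rw [e] at hl ⊢
    exact h hl
  · exact absurd hl ((hz l).2 e).ne

theorem retCdn_subset_Dup {R : ℝ} (hR : ∀ k, |(b k).re| ≤ R ∧ |(b k).im| ≤ R) : retCdn R ⊆ retDup b := by
  intro z hz k hk
  have h1 := abs_le.mp (hR k).1
  have h2 := abs_le.mp (hR k).2
  rcases hz with h | h | h
  · exfalso; linarith
  · exfalso; linarith
  · linarith

theorem retCup_subset_Ddn {R : ℝ} (hR : ∀ k, |(b k).re| ≤ R ∧ |(b k).im| ≤ R) : retCup R ⊆ retDdn b := by
  intro z hz k hk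
  have h1 := abs_le.mp (hR k).1
  have h2 := abs_le.mp (hR k).2
  rcases hz with h | h | h
  · exfalso; linarith
  · exfalso; linarith
  · linarith

theorem left_subset_retA {R : ℝ} (hR : ∀ k, |(b k).re| ≤ R ∧ |(b k).im| ≤ R) :
    {z : ℂ | z.re < -R} ⊆ retA b 0 := by
  intro z hz k
  refine ⟨fun h => absurd h (Nat.not_lt_zero _), fun _ => ?_⟩
  have h1 := abs_le.mp (hR k).1
  have hz' : z.re < -R := hz
  linarith

theorem right_subset_retA {R : ℝ} (hR : ∀ k, |(b k).re| ≤ R ∧ |(b k).im| ≤ R) :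
    {z : ℂ | R < z.re} ⊆ retA b r := by
  intro z hz k
  refine ⟨fun _ => ?_, fun h => absurd k.isLt (not_lt.mpr h)⟩
  have h1 := abs_le.mp (hR k).1
  have hz' : R < z.re := hz
  linarith

end Claimed.Agent.R280
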