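import Claimed.Agent.R280.RET.GeomLemmas

/-!
# Row 280, package RET / GLUE (~900 lines): gluing holomorphic functions on the two cut planes   (owner of the statements: helper30)

`u` holomorphic on `retDup b`, `v` holomorphic on `retDdn b`.
* `ret_glue_polynomial` : `u = v` on all strips `retA b j` + polynomial growth ⇒ both are one polynomial
  (glue to `ℂ \ {b k}`, the bound extends by continuity (`retDup b` is dense), Riemann's removable singularity theorem, Liouville/Cauchy estimates).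
* `ret_glue_W` : `u = v` on the two strips next to `b k` + boundedness near `b k` ⇒ holomorphic function on `retW b k`.
* `ret_glue_Ext` : `u = v` on the first and the last strip ⇒ holomorphic function on `retExt R`.
* `ret_root_bound` : Cauchy's bound for the roots of a monic polynomial with polynomial coefficients.
-/

set_option autoImplicit false

namespace Claimed.Agent.R280

open Polynomial Complex Topology


/-- gluing two holomorphic functions which agree on the intersection of their (open) domains -/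
theorem retGlue_two {D₁ D₂ : Set ℂ} (h₁ : IsOpen D₁) (h₂ : IsOpen D₂) {u v : ℂ → ℂ}
    (hu : DifferentiableOn ℂ u D₁) (hv : DifferentiableOn ℂ v D₂)
    (huv : ∀ z, z ∈ D₁ → z ∈ D₂ → u z = v z) :
    ∃ w : ℂ → ℂ, DifferentiableOn ℂ w (D₁ ∪ D₂) ∧ Set.EqOn w u D₁ ∧ Set.EqOn w v D₂ := by
  classical
  refine ⟨fun z => if z ∈ D₁ then u z else v z, ?_, ?_, ?_⟩
  · have e1 : ∀ z ∈ D₁, (fun z => if z ∈ D₁ then u z else v z) z = u z := fun z hz => if_pos hz
    have e2 : ∀ z ∈ D₂, (fun z => if z ∈ D₁ then u z else v z) z = v z := by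
      intro z hz
      by_cases h : z ∈ D₁
      · simp only [if_pos h]; exact huv z h hz
      · simp only [if_neg h]
    rintro z (hz | hz)
    · refine DifferentiableAt.differentiableWithinAt ?_
      refine (hu.differentiableAt (h₁.mem_nhds hz)).congr_of_eventuallyEq ?_
      filter_upwards [h₁.mem_nhds hz] with y hy using e1 y hy
    · refine DifferentiableAt.differentiableWithinAt ?_
      refine (hv.differentiableAt (h₂.mem_nhds hz)).congr_of_eventuallyEq ?_
      filter_upwards [h₂.mem_nhds hz] with y hy using e2 y hy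
  · intro z hz
    exact if_pos hz
  · intro z hz
    by_cases h : z ∈ D₁
    · simp only [if_pos h]; exact huv z h hz
    · simp only [if_neg h]

/-- a bound on a dense set extends by continuity -/
theorem retGlue_bound_of_dense {D G : Set ℂ} (hD : Dense D) (hG : IsOpen G) {f : ℂ → ℂ}
    (hf : ContinuousOn f G) {φ : ℂ → ℝ} (hφ : Continuous φ) (h : ∀ z ∈ G, z ∈ D → ‖f z‖ ≤ φ z) :
    ∀ z ∈ G, ‖f z‖ ≤ φ z := by
  intro z hz
  have hcl : z ∈ closure (G ∩ D) := hD.open_subset_closure_inter hG hz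
  refine ContinuousWithinAt.closure_le hcl ?_ hφ.continuousWithinAt (fun y hy => h y hy.1 hy.2)
  exact ((hf.continuousAt (hG.mem_nhds hz)).norm).continuousWithinAt

theorem retDup_dense {r : ℕ} (b : Fin r → ℂ) : Dense (retDup b) := by
  have h1 : Dense ((Set.range fun k => (b k).re)ᶜ) :=
    Set.Countable.dense_compl ℝ (Set.countable_range _)
  refine (h1.preimage Complex.isOpenMap_re).mono ?_
  intro z hz k hk
  exact absurd ⟨k, hk.symm⟩ hz

/-- an entire function of polynomial growth is a polynomial -/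
theorem retGlue_polynomial_of_growth {W : ℂ → ℂ} (hW : Differentiable ℂ W) {C : ℝ} {n : ℕ}
    (hbd : ∀ z, ‖W z‖ ≤ C * (1 + ‖z‖) ^ n) : ∃ p : ℂ[X], ∀ z, W z = p.eval z := by
  have hC : 0 ≤ C := by
    have := (norm_nonneg _).trans (hbd 0)
    simpa using this
  have hzero : ∀ k, n < k → iteratedDeriv k W 0 = 0 := by
    intro k hk
    by_contra hne
    have ha : 0 < ‖iteratedDeriv k W 0‖ := norm_pos_iff.2 hne
    set a := ‖iteratedDeriv k W 0‖ with hadef
    set K : ℝ := k.factorial * (C * 2 ^ n) with hK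
    have hK0 : 0 ≤ K := by positivity
    set R : ℝ := K / a + 1 with hR
    have hR1 : 1 ≤ R := by
      have : 0 ≤ K / a := by positivity
      linarith
    have hR0 : 0 < R := by linarith
    have h1 := Complex.norm_iteratedDeriv_le_of_forall_mem_sphere_norm_le (c := 0) (R := R)
      (C := C * (2 * R) ^ n) (f := W) k hR0 hW.diffContOnCl (by
        intro z hz
        rw [mem_sphere_zero_iff_norm] at hz
        refine (hbd z).trans ?_
        rw [hz]
        exact mul_le_mul_of_nonneg_left (pow_le_pow_left₀ (by linarith) (by linarith) n) hC)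
    have h2 : (k.factorial : ℝ) * (C * (2 * R) ^ n) / R ^ k ≤ K / R := by
      rw [div_le_div_iff₀ (by positivity) hR0, hK, mul_pow]
      have h3 : R ^ n * R ≤ R ^ k := by
        rw [← pow_succ]
        exact pow_le_pow_right₀ hR1 hk
      have h4 : 0 ≤ (k.factorial : ℝ) * (C * 2 ^ n) := by positivity
      nlinarith [mul_le_mul_of_nonneg_left h3 h4]
    have h5 : K / R < a := by
      rw [div_lt_iff₀ hR0, hR]
      have : a * (K / a + 1) = K + a := by field_simp
      linarith
    linarith [h1.trans h2]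
  refine ⟨∑ k ∈ Finset.range (n + 1),
    Polynomial.C ((k.factorial : ℂ)⁻¹ * iteratedDeriv k W 0) * X ^ k, fun z => ?_⟩
  rw [← Complex.taylorSeries_eq_of_entire hW 0 z, tsum_eq_sum (s := Finset.range (n + 1))]
  · simp only [Polynomial.eval_finsetSum, eval_mul, eval_C, eval_pow, eval_X, sub_zero, smul_eq_mul]
    refine Finset.sum_congr rfl fun k _ => ?_
    ring
  · intro k hk
    rw [hzero k (by simpa using hk)]
    simp



/-- Riemann's removable singularity theorem for finitely many points -/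
theorem retGlue_removable {G : Set ℂ} (hG : IsOpen G) {B : Set ℂ} (hB : B.Finite) {f : ℂ → ℂ}
    (hf : DifferentiableOn ℂ f (G \ B))
    (hbd : ∀ c ∈ B, c ∈ G → ∃ ε > 0, ∃ M : ℝ, ∀ z, z ∈ G \ B → ‖z - c‖ < ε → ‖f z‖ ≤ M) :
    ∃ w : ℂ → ℂ, DifferentiableOn ℂ w G ∧ Set.EqOn w f (G \ B) := by
  classical
  have hGB : IsOpen (G \ B) := hG.sdiff hB.isClosed
  refine ⟨fun z => if z ∈ B then (𝓝[≠] z).limUnder f else f z, ?_, fun z hz => if_neg hz.2⟩
  intro c hc
  refine DifferentiableAt.differentiableWithinAt ?_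
  by_cases hcB : c ∈ B
  · obtain ⟨ε, hε, M, hM⟩ := hbd c hcB hc
    set s : Set ℂ := (Metric.ball c ε ∩ G) \ (B \ {c}) with hs
    have hso : IsOpen s := (Metric.isOpen_ball.inter hG).sdiff (hB.subset Set.sdiff_subset).isClosed
    have hcs : c ∈ s := ⟨⟨Metric.mem_ball_self hε, hc⟩, fun h => h.2 rfl⟩
    have hsub : s \ {c} ⊆ G \ B := by
      rintro z ⟨⟨⟨-, hzG⟩, hzB⟩, hzc⟩
      exact ⟨hzG, fun h => hzB ⟨h, hzc⟩⟩
    have h1 := Complex.differentiableOn_update_limUnder_of_bddAbove (hso.mem_nhds hcs)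
      (hf.mono hsub) (by
        refine ⟨M, ?_⟩
        rintro _ ⟨z, hz, rfl⟩
        refine hM z (hsub hz) ?_
        have := hz.1.1.1
        rwa [Metric.mem_ball, dist_eq_norm] at this)
    refine (h1.differentiableAt (hso.mem_nhds hcs)).congr_of_eventuallyEq ?_
    filter_upwards [hso.mem_nhds hcs] with y hy
    by_cases hyc : y = c
    · subst hyc
      simp [hcB]
    · have hyB : y ∉ B := (hsub ⟨hy, hyc⟩).2
      simp [hyB, Function.update_of_ne hyc]
  · refine (hf.differentiableAt (hGB.mem_nhds ⟨hc, hcB⟩)).congr_of_eventuallyEq ?_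
    filter_upwards [hGB.mem_nhds ⟨hc, hcB⟩] with y hy
    exact if_neg hy.2

variable {r : ℕ} {b : Fin r → ℂ}

theorem ret_glue_polynomial (hb : StrictMono fun k => (b k).re) {u v : ℂ → ℂ}
    (hu : DifferentiableOn ℂ u (retDup b)) (hv : DifferentiableOn ℂ v (retDdn b))
    (huv : ∀ j, j ≤ r → Set.EqOn u v (retA b j)) {C : ℝ} {n : ℕ}
    (hbd : ∀ z ∈ retDup b, ‖u z‖ ≤ C * (1 + ‖z‖) ^ n) :
    ∃ p : ℂ[X], (∀ z ∈ retDup b, u z = p.eval z) ∧ ∀ z ∈ retDdn b, v z = p.eval z := by
  obtain ⟨w0, hw0, hw0u, hw0v⟩ := retGlue_two (retDup_isOpen b) (retDdn_isOpen b) hu hv (by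
    intro z h1 h2
    obtain ⟨j, hj, hz⟩ := exists_mem_retA hb h1 h2
    exact huv j hj hz)
  have hunion : retDup b ∪ retDdn b = Set.univ \ Set.range b := by
    ext z
    constructor
    · rintro (h | h)
      · refine ⟨trivial, ?_⟩
        rintro ⟨k, rfl⟩
        exact not_mem_retDup b k h
      · refine ⟨trivial, ?_⟩
        rintro ⟨k, rfl⟩
        exact not_mem_retDdn b k h
    · rintro ⟨-, h⟩
      exact mem_retDup_or_retDdn hb h
  rw [hunion] at hw0
  have hfin : (Set.range b).Finite := Set.finite_range b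
  have hopen : IsOpen (Set.univ \ Set.range b) := isOpen_univ.sdiff hfin.isClosed
  have hφ : Continuous (fun z : ℂ => C * (1 + ‖z‖) ^ n) := by fun_prop
  have hb0 : ∀ z ∈ Set.univ \ Set.range b, ‖w0 z‖ ≤ C * (1 + ‖z‖) ^ n :=
    retGlue_bound_of_dense (retDup_dense b) hopen hw0.continuousOn hφ (by
      intro z _ hz
      rw [hw0u hz]
      exact hbd z hz)
  obtain ⟨W, hW, hWw⟩ := retGlue_removable isOpen_univ hfin hw0 (by
    intro c _ _
    refine ⟨1, one_pos, |C| * (1 + (‖c‖ + 1)) ^ n, fun z hz hzc => ?_⟩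
    refine (hb0 z hz).trans ?_
    have h1 : ‖z‖ ≤ ‖c‖ + 1 := by
      have := norm_sub_norm_le z c
      linarith
    calc C * (1 + ‖z‖) ^ n ≤ |C| * (1 + ‖z‖) ^ n :=
          mul_le_mul_of_nonneg_right (le_abs_self C) (by positivity)
      _ ≤ |C| * (1 + (‖c‖ + 1)) ^ n :=
          mul_le_mul_of_nonneg_left (pow_le_pow_left₀ (by positivity) (by linarith) n)
            (abs_nonneg C))
  have hWd : Differentiable ℂ W := fun z => (hW z trivial).differentiableAt Filter.univ_mem
  have hDupB : ∀ z ∈ retDup b, z ∈ Set.univ \ Set.range b := by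
    intro z hz
    rw [← hunion]; exact Or.inl hz
  have hDdnB : ∀ z ∈ retDdn b, z ∈ Set.univ \ Set.range b := by
    intro z hz
    rw [← hunion]; exact Or.inr hz
  have hWb : ∀ z, ‖W z‖ ≤ C * (1 + ‖z‖) ^ n := fun z =>
    retGlue_bound_of_dense (retDup_dense b) isOpen_univ hWd.continuous.continuousOn hφ (by
      intro z _ hz
      rw [hWw (hDupB z hz)]
      exact hb0 z (hDupB z hz)) z trivial
  obtain ⟨p, hp⟩ := retGlue_polynomial_of_growth hWd hWb
  refine ⟨p, fun z hz => ?_, fun z hz => ?_⟩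
  · rw [← hp z, hWw (hDupB z hz), hw0u hz]
  · rw [← hp z, hWw (hDdnB z hz), hw0v hz]

theorem ret_glue_W (hb : StrictMono fun k => (b k).re) (k : Fin r) {u v : ℂ → ℂ}
    (hu : DifferentiableOn ℂ u (retDup b)) (hv : DifferentiableOn ℂ v (retDdn b))
    (h1 : Set.EqOn u v (retA b k)) (h2 : Set.EqOn u v (retA b (k + 1))) {ε M : ℝ} (hε : 0 < ε)
    (hbd : ∀ z ∈ retDup b, ‖z - b k‖ < ε → ‖u z‖ ≤ M) :
    ∃ w : ℂ → ℂ, DifferentiableOn ℂ w (retW b k) ∧ Set.EqOn w u (retW b k ∩ retDup b) ∧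
      Set.EqOn w v (retW b k ∩ retDdn b) := by
  obtain ⟨w0, hw0, hw0u, hw0v⟩ := retGlue_two ((retW_isOpen b k).inter (retDup_isOpen b))
    ((retW_isOpen b k).inter (retDdn_isOpen b)) (hu.mono Set.inter_subset_right)
    (hv.mono Set.inter_subset_right) (by
      intro z hz1 hz2
      rcases retW_cases hb k hz1.1 with h | h | h
      · exact h1 h
      · exact h2 h
      · have a1 := hz1.2 k h
        have a2 := hz2.2 k h
        exact absurd a1 (not_lt.2 a2.le))
  have hunion : retW b k ∩ retDup b ∪ retW b k ∩ retDdn b = retW b k \ {b k} := by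
    ext z
    constructor
    · rintro (h | h)
      · refine ⟨h.1, fun hz => ?_⟩
        rw [Set.mem_singleton_iff] at hz
        subst hz
        exact not_mem_retDup b k h.2
      · refine ⟨h.1, fun hz => ?_⟩
        rw [Set.mem_singleton_iff] at hz
        subst hz
        exact not_mem_retDdn b k h.2
    · rintro ⟨hz, hne⟩
      by_cases hre : z.re = (b k).re
      · have him : z.im ≠ (b k).im := fun him => hne (Complex.ext hre him)
        rcases lt_or_gt_of_ne him with h | h
        · exact Or.inl ⟨hz, (retW_mem_Dup_iff hb k hz).2 fun _ => h⟩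
        · exact Or.inr ⟨hz, (retW_mem_Ddn_iff hb k hz).2 fun _ => h⟩
      · exact Or.inl ⟨hz, (retW_mem_Dup_iff hb k hz).2 fun h => absurd h hre⟩
  rw [hunion] at hw0
  have hopen : IsOpen ((retW b k \ {b k}) ∩ Metric.ball (b k) ε) :=
    ((retW_isOpen b k).sdiff isClosed_singleton).inter Metric.isOpen_ball
  have hb0 : ∀ z ∈ (retW b k \ {b k}) ∩ Metric.ball (b k) ε, ‖w0 z‖ ≤ M :=
    retGlue_bound_of_dense (retDup_dense b) hopen (hw0.continuousOn.mono Set.inter_subset_left)
      (φ := fun _ => M) continuous_const (by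
        intro z hz hzD
        rw [hw0u ⟨hz.1.1, hzD⟩]
        refine hbd z hzD ?_
        have := hz.2
        rwa [Metric.mem_ball, dist_eq_norm] at this)
  obtain ⟨w, hw, hww⟩ := retGlue_removable (retW_isOpen b k) (Set.finite_singleton (b k)) hw0 (by
    intro c hc _
    rw [Set.mem_singleton_iff] at hc
    subst hc
    refine ⟨ε, hε, M, fun z hz hzc => hb0 z ⟨hz, ?_⟩⟩
    rwa [Metric.mem_ball, dist_eq_norm])
  refine ⟨w, hw, fun z hz => ?_, fun z hz => ?_⟩
  · have : z ∈ retW b k \ {b k} := by rw [← hunion]; exact Or.inl hz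
    rw [hww this, hw0u hz]
  · have : z ∈ retW b k \ {b k} := by rw [← hunion]; exact Or.inr hz
    rw [hww this, hw0v hz]

theorem ret_glue_Ext {R : ℝ} (hR : ∀ k, |(b k).re| ≤ R ∧ |(b k).im| ≤ R) (hR0 : 0 ≤ R) {u v : ℂ → ℂ}
    (hu : DifferentiableOn ℂ u (retDup b)) (hv : DifferentiableOn ℂ v (retDdn b))
    (h1 : Set.EqOn u v (retA b 0)) (h2 : Set.EqOn u v (retA b r)) :
    ∃ w : ℂ → ℂ, DifferentiableOn ℂ w (retExt R) ∧ Set.EqOn w u (retCdn R) ∧
      Set.EqOn w v (retCup R) := by
  obtain ⟨w, hw, hwu, hwv⟩ := retGlue_two (retCdn_isOpen R) (retCup_isOpen R)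
    (hu.mono (retCdn_subset_Dup hR)) (hv.mono (retCup_subset_Ddn hR)) (by
      intro z hz1 hz2
      have : z ∈ retCup R ∩ retCdn R := ⟨hz2, hz1⟩
      rw [retCup_inter_retCdn hR0] at this
      rcases this with h | h
      · exact h1 (left_subset_retA hR h)
      · exact h2 (right_subset_retA hR h))
  refine ⟨w, ?_, hwu, hwv⟩
  rw [← retCup_union_retCdn, Set.union_comm]
  exact hw

theorem retGlue_eval_bound (p : ℂ[X]) {N : ℕ} (hN : p.natDegree ≤ N) (z : ℂ) :
    ‖p.eval z‖ ≤ (∑ k ∈ Finset.range (N + 1), ‖p.coeff k‖) * (1 + ‖z‖) ^ N := by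
  rw [Polynomial.eval_eq_sum_range' (Nat.lt_succ_of_le hN), Finset.sum_mul]
  refine (norm_sum_le _ _).trans (Finset.sum_le_sum fun k hk => ?_)
  rw [norm_mul, norm_pow]
  refine mul_le_mul_of_nonneg_left ?_ (norm_nonneg _)
  calc ‖z‖ ^ k ≤ (1 + ‖z‖) ^ k := pow_le_pow_left₀ (norm_nonneg _) (by linarith) k
    _ ≤ (1 + ‖z‖) ^ N := pow_le_pow_right₀ (by linarith [norm_nonneg z])
        (Nat.lt_succ_iff.1 (Finset.mem_range.1 hk))

/-- Cauchy's bound for the roots of a monic polynomial -/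
theorem retGlue_cauchy_bound {Q : ℂ[X]} (hQ : Q.Monic) {t : ℂ} (ht : Q.eval t = 0) :
    ‖t‖ ≤ 1 + ∑ i ∈ Finset.range Q.natDegree, ‖Q.coeff i‖ := by
  have hA : 0 ≤ ∑ i ∈ Finset.range Q.natDegree, ‖Q.coeff i‖ :=
    Finset.sum_nonneg fun i _ => norm_nonneg _
  by_cases h1 : ‖t‖ ≤ 1
  · linarith
  push Not at h1
  rw [Polynomial.eval_eq_sum_range, Finset.sum_range_succ, hQ.coeff_natDegree, one_mul] at ht
  generalize Q.natDegree = d at ht hA ⊢
  cases d with
  | zero => simp at ht
  | succ e =>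
    have h2 : t ^ (e + 1) = - ∑ i ∈ Finset.range (e + 1), Q.coeff i * t ^ i := by
      rw [eq_neg_iff_add_eq_zero, add_comm]; exact ht
    have h3 : ‖t‖ ^ (e + 1) ≤ (∑ i ∈ Finset.range (e + 1), ‖Q.coeff i‖) * ‖t‖ ^ e := by
      rw [← norm_pow, h2, norm_neg, Finset.sum_mul]
      refine (norm_sum_le _ _).trans (Finset.sum_le_sum fun i hi => ?_)
      rw [norm_mul, norm_pow]
      exact mul_le_mul_of_nonneg_left
        (pow_le_pow_right₀ h1.le (Nat.lt_succ_iff.1 (Finset.mem_range.1 hi))) (norm_nonneg _)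
    have h4 : 0 < ‖t‖ ^ e := by positivity
    rw [pow_succ, mul_comm] at h3
    have h5 := le_of_mul_le_mul_right (by linarith [h3, mul_comm (‖t‖ ^ e) ‖t‖] :
      ‖t‖ * ‖t‖ ^ e ≤ (∑ i ∈ Finset.range (e + 1), ‖Q.coeff i‖) * ‖t‖ ^ e) h4
    linarith

theorem ret_root_bound {P : ℂ[X][X]} (hP : P.Monic) :
    ∃ (C : ℝ) (n : ℕ), ∀ z t : ℂ, (P.map (evalRingHom z)).eval t = 0 → ‖t‖ ≤ C * (1 + ‖z‖) ^ n := by
  set d := P.natDegree with hd
  set N := (Finset.range d).sup (fun i => (P.coeff i).natDegree) with hN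
  refine ⟨1 + ∑ i ∈ Finset.range d, ∑ k ∈ Finset.range (N + 1), ‖(P.coeff i).coeff k‖, N,
    fun z t ht => ?_⟩
  have h1 := retGlue_cauchy_bound (hP.map (evalRingHom z)) ht
  rw [hP.natDegree_map] at h1
  refine h1.trans ?_
  have h2 : (1 : ℝ) ≤ (1 + ‖z‖) ^ N := one_le_pow₀ (by linarith [norm_nonneg z])
  rw [add_mul, one_mul, Finset.sum_mul]
  refine add_le_add h2 (Finset.sum_le_sum fun i hi => ?_)
  rw [Polynomial.coeff_map, coe_evalRingHom]
  exact retGlue_eval_bound (P.coeff i)
    (Finset.le_sup (f := fun i => (P.coeff i).natDegree) hi) z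

end Claimed.Agent.R280
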