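import Claimed.Agent.R280.RET.RealDefs

/-!
# Row 280, package RET / HOL: the ring of holomorphic functions on a domain and its fraction field   (owner of the statements: helper30)

Internal tool of `RealEmb.lean`.
-/

set_option autoImplicit false

namespace Claimed.Agent.R280

open Polynomial

/-- a domain of `ℂ`: open, connected, nonempty -/
structure RetDom where
  carrier : Set ℂ
  isOpen' : IsOpen carrier
  isPreconnected' : IsPreconnected carrier
  nonempty' : carrier.Nonempty

/-- the ring of holomorphic functions on `W` -/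
def RetHol (W : RetDom) : Subalgebra ℂ (W.carrier → ℂ) where
  carrier := {f | ∃ F : ℂ → ℂ, DifferentiableOn ℂ F W.carrier ∧ ∀ z : W.carrier, f z = F z}
  mul_mem' := by
    rintro f g ⟨F, hF, hf⟩ ⟨G, hG, hg⟩
    exact ⟨fun z => F z * G z, hF.mul hG, fun z => by simp [hf, hg]⟩
  add_mem' := by
    rintro f g ⟨F, hF, hf⟩ ⟨G, hG, hg⟩
    exact ⟨fun z => F z + G z, hF.add hG, fun z => by simp [hf, hg]⟩
  algebraMap_mem' := fun c => ⟨fun _ => c, differentiableOn_const c, fun _ => rfl⟩

section RetHolSec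

variable {W : RetDom}

/-- the element of `RetHol W` given by a holomorphic function -/
def retHolMk (F : ℂ → ℂ) (hF : DifferentiableOn ℂ F W.carrier) : RetHol W :=
  ⟨fun z => F z, F, hF, fun _ => rfl⟩

/-- the underlying function, extended by `0` -/
noncomputable def retFn (f : RetHol W) : ℂ → ℂ := Function.extend Subtype.val f.1 0

theorem retFn_apply (f : RetHol W) (z : W.carrier) : retFn f z = f.1 z :=
  Subtype.val_injective.extend_apply _ _ _

theorem retFn_mk (F : ℂ → ℂ) (hF : DifferentiableOn ℂ F W.carrier) {z : ℂ} (hz : z ∈ W.carrier) :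
    retFn (retHolMk F hF : RetHol W) z = F z := retFn_apply _ ⟨z, hz⟩

theorem retFn_differentiableOn (f : RetHol W) : DifferentiableOn ℂ (retFn f) W.carrier := by
  obtain ⟨F, hF, hf⟩ := f.2
  exact hF.congr fun z hz => by rw [retFn_apply f ⟨z, hz⟩, hf]

theorem retHol_ext {f g : RetHol W} (h : ∀ z ∈ W.carrier, retFn f z = retFn g z) : f = g := by
  apply Subtype.ext
  funext z
  rw [← retFn_apply, ← retFn_apply]
  exact h z z.2

theorem retFn_add (f g : RetHol W) {z : ℂ} (hz : z ∈ W.carrier) : retFn (f + g) z = retFn f z + retFn g z := by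
  rw [retFn_apply _ ⟨z, hz⟩, retFn_apply _ ⟨z, hz⟩, retFn_apply _ ⟨z, hz⟩]; rfl

theorem retFn_mul (f g : RetHol W) {z : ℂ} (hz : z ∈ W.carrier) : retFn (f * g) z = retFn f z * retFn g z := by
  rw [retFn_apply _ ⟨z, hz⟩, retFn_apply _ ⟨z, hz⟩, retFn_apply _ ⟨z, hz⟩]; rfl

theorem retFn_analyticOnNhd (f : RetHol W) : AnalyticOnNhd ℂ (retFn f) W.carrier :=
  (retFn_differentiableOn f).analyticOnNhd W.isOpen'

theorem retFn_zero {z : ℂ} (hz : z ∈ W.carrier) : retFn (0 : RetHol W) z = 0 := by
  rw [retFn_apply _ ⟨z, hz⟩]; rfl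

theorem retFn_one {z : ℂ} (hz : z ∈ W.carrier) : retFn (1 : RetHol W) z = 1 := by
  rw [retFn_apply _ ⟨z, hz⟩]; rfl

/-- HOL-1 (~120 lines): identity theorem -/
theorem retHol_isDomain (W : RetDom) : IsDomain (RetHol W) := by
  have : Nontrivial (RetHol W) := by
    obtain ⟨z, hz⟩ := W.nonempty'
    refine ⟨0, 1, fun h => ?_⟩
    have h2 := congrArg (fun f => retFn f z) h
    simp [retFn_zero hz, retFn_one hz] at h2
  have : NoZeroDivisors (RetHol W) := ⟨fun {f g} h => by
    rcases (retFn_analyticOnNhd f).eq_zero_or_eq_zero_of_mul_eq_zero (retFn_analyticOnNhd g)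
      (fun z hz => by rw [← retFn_mul f g hz, h, retFn_zero hz]) W.isPreconnected' with h1 | h1
    · left; exact retHol_ext fun z hz => by rw [h1 z hz, retFn_zero hz]
    · right; exact retHol_ext fun z hz => by rw [h1 z hz, retFn_zero hz]⟩
  exact NoZeroDivisors.to_isDomain _

instance : IsDomain (RetHol W) := retHol_isDomain W

/-- the coordinate function -/
def retHolX (W : RetDom) : RetHol W := retHolMk (fun z => z) differentiableOn_id

noncomputable instance : Algebra ℂ[X] (RetHol W) := (Polynomial.aeval (retHolX W)).toAlgebra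

instance : IsScalarTower ℂ ℂ[X] (RetHol W) :=
  IsScalarTower.of_algebraMap_eq fun c => by
    change _ = Polynomial.aeval (retHolX W) (Polynomial.C c)
    simp

/-- evaluation at a point of `W` -/
noncomputable def retEv (z : W.carrier) : RetHol W →ₐ[ℂ] ℂ :=
  (Pi.evalAlgHom ℂ (fun _ : W.carrier => ℂ) z).comp (RetHol W).val

theorem retEv_apply (z : W.carrier) (f : RetHol W) : retEv z f = retFn f z :=
  (retFn_apply f z).symm

/-- HOL-2 (~80 lines) -/
theorem retFn_algebraMap (p : ℂ[X]) {z : ℂ} (hz : z ∈ W.carrier) :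
    retFn (algebraMap ℂ[X] (RetHol W) p) z = p.eval z := by
  change retFn (Polynomial.aeval (retHolX W) p) z = p.eval z
  have h1 : retFn (Polynomial.aeval (retHolX W) p) z
      = retEv ⟨z, hz⟩ (Polynomial.aeval (retHolX W) p) := (retEv_apply ⟨z, hz⟩ _).symm
  rw [h1, ← Polynomial.aeval_algHom_apply, retEv_apply]
  have h2 : retFn (retHolX W) z = z := retFn_mk _ _ hz
  simp only [h2]
  rfl

theorem retHol_algebraMap_injective (W : RetDom) : Function.Injective (algebraMap ℂ[X] (RetHol W)) := by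
  rw [injective_iff_map_eq_zero]
  intro p hp
  have hinf : W.carrier.Infinite := by
    obtain ⟨z, hz⟩ := W.nonempty'
    exact infinite_of_mem_nhds z (W.isOpen'.mem_nhds hz)
  refine Polynomial.eq_zero_of_infinite_isRoot p (hinf.mono fun z hz => ?_)
  change p.eval z = 0
  rw [← retFn_algebraMap p hz, hp, retFn_zero hz]

open Filter Topology in
theorem retHol_eventually_ne {g : RetHol W} (hg : g ≠ 0) {z : ℂ} (hz : z ∈ W.carrier) :
    ∀ᶠ w in 𝓝[≠] z, retFn g w ≠ 0 := by
  rcases (retFn_analyticOnNhd g z hz).eventually_eq_zero_or_eventually_ne_zero with h | h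
  · exfalso
    apply hg
    have h2 := (retFn_analyticOnNhd g).eqOn_zero_of_preconnected_of_eventuallyEq_zero
      W.isPreconnected' hz h
    exact retHol_ext fun w hw => by rw [h2 hw, retFn_zero hw]; rfl
  · exact h

theorem retHol_root_pt {p : (RetHol W)[X]} (hp : p.Monic) {f g : RetHol W} (hg : g ≠ 0)
    (hr : Polynomial.aeval (algebraMap (RetHol W) (FractionRing (RetHol W)) f /
      algebraMap (RetHol W) (FractionRing (RetHol W)) g) p = 0)
    (w : W.carrier) (hw : retFn g w ≠ 0) :
    (p.map (retEv w).toRingHom).IsRoot (retFn f w / retFn g w) := by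
  have h1 := scaleRoots_aeval_eq_zero_of_aeval_div_eq_zero
    (IsFractionRing.injective (RetHol W) (FractionRing (RetHol W))) hr
    (mem_nonZeroDivisors_of_ne_zero hg)
  rw [Polynomial.aeval_algebraMap_apply] at h1
  have h2 : Polynomial.aeval f (scaleRoots p g) = 0 :=
    (IsFractionRing.injective (RetHol W) (FractionRing (RetHol W))) (by rw [h1, map_zero])
  have h3 : ((scaleRoots p g).map (retEv w).toRingHom).eval ((retEv w).toRingHom f) = 0 := by
    rw [Polynomial.eval_map, Polynomial.eval₂_at_apply]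
    have : (scaleRoots p g).eval f = 0 := h2
    rw [this, map_zero]
  rw [map_scaleRoots p g _ (by rw [hp.leadingCoeff, map_one]; exact one_ne_zero)] at h3
  have h4 := scaleRoots_eval₂_mul (p := p.map (retEv w).toRingHom) (RingHom.id ℂ)
    (retFn f w / retFn g w) (retFn g w)
  have e1 : (retEv w).toRingHom f = retFn f w := retEv_apply w f
  have e2 : (retEv w).toRingHom g = retFn g w := retEv_apply w g
  rw [e1, e2] at h3
  simp only [RingHom.id_apply, Polynomial.eval₂_id] at h4
  rw [mul_div_cancel₀ _ hw, h3] at h4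
  rcases mul_eq_zero.mp h4.symm with h5 | h5
  · exact absurd h5 (pow_ne_zero _ hw)
  · exact h5

open Filter Topology in
theorem retHol_dvd_of_integral {f g : RetHol W} (hg : g ≠ 0)
    (hint : IsIntegral (RetHol W) (algebraMap (RetHol W) (FractionRing (RetHol W)) f /
      algebraMap (RetHol W) (FractionRing (RetHol W)) g)) : ∃ h : RetHol W, h * g = f := by
  obtain ⟨p, hp, hr⟩ := hint
  have hr' : Polynomial.aeval (algebraMap (RetHol W) (FractionRing (RetHol W)) f /
      algebraMap (RetHol W) (FractionRing (RetHol W)) g) p = 0 := hr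
  obtain ⟨q, hq⟩ : ∃ q : ℂ → ℂ, q = fun u => retFn f u / retFn g u := ⟨_, rfl⟩
  obtain ⟨H, hH⟩ : ∃ H : ℂ → ℂ, H = fun w => limUnder (𝓝[≠] w) q := ⟨_, rfl⟩
  have hdF : ∀ w ∈ W.carrier, DifferentiableAt ℂ (retFn f) w := fun w hw =>
    (retFn_differentiableOn f).differentiableAt (W.isOpen'.mem_nhds hw)
  have hdG : ∀ w ∈ W.carrier, DifferentiableAt ℂ (retFn g) w := fun w hw =>
    (retFn_differentiableOn g).differentiableAt (W.isOpen'.mem_nhds hw)
  have hdq : ∀ w ∈ W.carrier, retFn g w ≠ 0 → DifferentiableAt ℂ q w := fun w hw h0 => by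
    rw [hq]; exact (hdF w hw).div (hdG w hw) h0
  have hHq : ∀ w ∈ W.carrier, retFn g w ≠ 0 → H w = q w := fun w hw h0 => by
    rw [hH]
    exact ((hdq w hw h0).continuousAt.tendsto.mono_left nhdsWithin_le_nhds).limUnder_eq
  -- the local statement
  have hloc : ∀ z ∈ W.carrier, ∃ s : Set ℂ, IsOpen s ∧ z ∈ s ∧ s ⊆ W.carrier ∧
      (∀ w ∈ s \ {z}, retFn g w ≠ 0) ∧ BddAbove (norm ∘ q '' (s \ {z})) := by
    intro z hz
    have E1 : ∀ᶠ w in 𝓝 z, w ∈ W.carrier := W.isOpen'.mem_nhds hz
    have E2 : ∀ᶠ w in 𝓝 z, w ≠ z → retFn g w ≠ 0 :=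
      eventually_nhdsWithin_iff.mp (retHol_eventually_ne hg hz)
    have E3 : ∀ᶠ w in 𝓝 z, ∀ i ∈ Finset.range p.natDegree,
        ‖retFn (p.coeff i) w‖ < ‖retFn (p.coeff i) z‖ + 1 := by
      rw [Filter.eventually_all_finset]
      intro i _
      have hc : ContinuousAt (fun w => ‖retFn (p.coeff i) w‖) z :=
        ((retFn_differentiableOn (p.coeff i)).differentiableAt
          (W.isOpen'.mem_nhds hz)).continuousAt.norm
      exact hc.eventually_lt continuousAt_const (by simp)
    obtain ⟨s, hs1, hs2, hs3⟩ := eventually_nhds_iff.mp (E1.and (E2.and E3))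
    refine ⟨s, hs2, hs3, fun w hw => (hs1 w hw).1, fun w hw => (hs1 w hw.1).2.1 hw.2, ?_⟩
    obtain ⟨C, hC⟩ : ∃ C : NNReal, C = ∑ i ∈ Finset.range p.natDegree,
      (‖retFn (p.coeff i) z‖₊ + 1) := ⟨_, rfl⟩
    refine ⟨(C : ℝ) + 1, ?_⟩
    rintro _ ⟨w, hw, rfl⟩
    have hwW : w ∈ W.carrier := (hs1 w hw.1).1
    have hroot := retHol_root_pt hp hg hr' ⟨w, hwW⟩ ((hs1 w hw.1).2.1 hw.2)
    have hmon : (p.map (retEv (⟨w, hwW⟩ : W.carrier)).toRingHom).Monic := hp.map _
    have hb := hroot.norm_lt_cauchyBound hmon.ne_zero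
    have hcb : Polynomial.cauchyBound (p.map (retEv (⟨w, hwW⟩ : W.carrier)).toRingHom) ≤ C + 1 := by
      unfold Polynomial.cauchyBound
      rw [hmon.leadingCoeff, nnnorm_one, div_one, hp.natDegree_map]
      gcongr
      refine Finset.sup_le fun i hi => ?_
      have h1 : (p.map (retEv (⟨w, hwW⟩ : W.carrier)).toRingHom).coeff i = retFn (p.coeff i) w := by
        rw [Polynomial.coeff_map]; exact retEv_apply ⟨w, hwW⟩ _
      rw [h1, hC]
      have h2 : ‖retFn (p.coeff i) w‖₊ ≤ ‖retFn (p.coeff i) z‖₊ + 1 := by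
        have := ((hs1 w hw.1).2.2 i hi).le
        exact_mod_cast this
      refine h2.trans ?_
      exact Finset.single_le_sum (f := fun i => ‖retFn (p.coeff i) z‖₊ + 1)
        (fun _ _ => zero_le) hi
    have hfin : ‖retFn f w / retFn g w‖₊ ≤ C + 1 := hb.le.trans hcb
    change ‖q w‖ ≤ (C : ℝ) + 1
    rw [hq]
    exact_mod_cast hfin
  have hdH : ∀ z ∈ W.carrier, DifferentiableAt ℂ H z := by
    intro z hz
    obtain ⟨s, hs, hzs, hsW, hne, hbd⟩ := hloc z hz
    have hd : DifferentiableOn ℂ q (s \ {z}) := fun w hw =>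
      (hdq w (hsW hw.1) (hne w hw)).differentiableWithinAt
    have D := Complex.differentiableOn_update_limUnder_of_bddAbove (hs.mem_nhds hzs) hd hbd
    refine (D.differentiableAt (hs.mem_nhds hzs)).congr_of_eventuallyEq ?_
    filter_upwards [hs.mem_nhds hzs] with w hw
    by_cases hwz : w = z
    · subst hwz
      rw [Function.update_self, hH]
    · rw [Function.update_of_ne hwz]
      exact hHq w (hsW hw) (hne w ⟨hw, hwz⟩)
  have hdH' : DifferentiableOn ℂ H W.carrier := fun z hz => (hdH z hz).differentiableWithinAt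
  refine ⟨retHolMk H hdH', ?_⟩
  refine retHol_ext fun z hz => ?_
  rw [retFn_mul _ _ hz, retFn_mk _ _ hz]
  have T1 : Tendsto (fun w => H w * retFn g w) (𝓝[≠] z) (𝓝 (H z * retFn g z)) :=
    (((hdH z hz).mul (hdG z hz)).continuousAt.tendsto).mono_left nhdsWithin_le_nhds
  have T2 : Tendsto (retFn f) (𝓝[≠] z) (𝓝 (retFn f z)) :=
    ((hdF z hz).continuousAt.tendsto).mono_left nhdsWithin_le_nhds
  refine tendsto_nhds_unique (T1.congr' ?_) T2
  have E1 : ∀ᶠ w in 𝓝[≠] z, w ∈ W.carrier := nhdsWithin_le_nhds (W.isOpen'.mem_nhds hz)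
  filter_upwards [E1, retHol_eventually_ne hg hz] with w hw h0
  rw [hHq w hw h0, hq]
  field_simp

/-- HOL-3 (~450 lines): `f/g` integral over `RetHol W` ⇒ locally bounded near the isolated zeros of `g` ⇒ removable singularities ⇒ `g ∣ f` -/
theorem retHol_isIntegrallyClosed (W : RetDom) : IsIntegrallyClosed (RetHol W) := by
  rw [isIntegrallyClosed_iff (FractionRing (RetHol W))]
  intro x hx
  obtain ⟨f, g, hg, rfl⟩ := IsFractionRing.div_surjective (A := RetHol W) x
  have hg0 : g ≠ 0 := nonZeroDivisors.ne_zero hg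
  obtain ⟨h, hh⟩ := retHol_dvd_of_integral hg0 hx
  refine ⟨h, ?_⟩
  rw [eq_div_iff, ← map_mul, hh]
  exact fun h0 => hg0 ((IsFractionRing.injective (RetHol W) (FractionRing (RetHol W)))
    (by rw [h0, map_zero]))

instance : IsIntegrallyClosed (RetHol W) := retHol_isIntegrallyClosed W

end RetHolSec

/-- the field of meromorphic functions on `W` -/
abbrev RetMer (W : RetDom) : Type := FractionRing (RetHol W)

theorem retMer_algebraMap_injective (W : RetDom) : Function.Injective (algebraMap ℂ[X] (RetMer W)) := by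
  rw [IsScalarTower.algebraMap_eq ℂ[X] (RetHol W) (RetMer W)]
  exact (IsFractionRing.injective (RetHol W) (RetMer W)).comp (retHol_algebraMap_injective W)

section KK

variable (KK : Type) [Field KK] [Algebra ℂ[X] KK] [IsFractionRing ℂ[X] KK] (W : RetDom)

/-- `KK = ℂ(x)` acts on the meromorphic functions -/
noncomputable instance retMerAlgebra : Algebra KK (RetMer W) :=
  (IsFractionRing.lift (retMer_algebraMap_injective W) : KK →+* RetMer W).toAlgebra

instance : IsScalarTower ℂ[X] KK (RetMer W) :=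
  IsScalarTower.of_algebraMap_eq fun p => by
    change _ = IsFractionRing.lift (retMer_algebraMap_injective W) (algebraMap ℂ[X] KK p)
    rw [IsFractionRing.lift_algebraMap]

end KK

end Claimed.Agent.R280
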