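import Mathlib

/-!
# Row 280, RET / tool: identity theorem in the forms used by RET   (owner: helper30; PROVED)
* `ret_eqOn_of_eqOn_open` : two holomorphic functions on a connected open set which agree on a nonempty open subset agree everywhere.
* `ret_mul_eq_zero`, `ret_prod_eq_zero` : holomorphic functions on a connected open set form a domain.
-/

set_option autoImplicit false

namespace Claimed.Agent.R280

open Topology

theorem ret_eqOn_of_eqOn_open {W W' : Set ℂ} (hW : IsOpen W) (hc : IsPreconnected W) {f g : ℂ → ℂ}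
    (hf : DifferentiableOn ℂ f W) (hg : DifferentiableOn ℂ g W) (hW' : IsOpen W')
    (hne : W'.Nonempty) (hsub : W' ⊆ W) (h : Set.EqOn f g W') : Set.EqOn f g W := by
  obtain ⟨z0, hz0⟩ := hne
  exact (hf.analyticOnNhd hW).eqOn_of_preconnected_of_eventuallyEq (hg.analyticOnNhd hW) hc
    (hsub hz0) (Filter.eventually_of_mem (hW'.mem_nhds hz0) h)

theorem ret_mul_eq_zero {W : Set ℂ} (hW : IsOpen W) (hc : IsPreconnected W) {f g : ℂ → ℂ}
    (hf : DifferentiableOn ℂ f W) (hg : DifferentiableOn ℂ g W) (h : ∀ z ∈ W, f z * g z = 0) :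
    (∀ z ∈ W, f z = 0) ∨ ∀ z ∈ W, g z = 0 := by
  by_cases hf0 : ∀ z ∈ W, f z = 0
  · exact Or.inl hf0
  · right
    push Not at hf0
    obtain ⟨z0, hz0, hfz0⟩ := hf0
    have hcont : ContinuousAt f z0 := (hf.differentiableAt (hW.mem_nhds hz0)).continuousAt
    have h1 : ∀ᶠ z in 𝓝 z0, f z ≠ 0 := hcont.eventually_ne hfz0
    have h2 : g =ᶠ[𝓝 z0] 0 := by
      filter_upwards [h1, hW.mem_nhds hz0] with z hz1 hz2
      exact (mul_eq_zero.1 (h z hz2)).resolve_left hz1
    exact (hg.analyticOnNhd hW).eqOn_zero_of_preconnected_of_eventuallyEq_zero hc hz0 h2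

theorem ret_prod_eq_zero {W : Set ℂ} (hW : IsOpen W) (hc : IsPreconnected W) (hne : W.Nonempty)
    {ι : Type} (s : Finset ι) {f : ι → ℂ → ℂ} (hf : ∀ i ∈ s, DifferentiableOn ℂ (f i) W)
    (h : ∀ z ∈ W, ∏ i ∈ s, f i z = 0) : ∃ i ∈ s, ∀ z ∈ W, f i z = 0 := by
  classical
  induction s using Finset.induction_on with
  | empty =>
    obtain ⟨z, hz⟩ := hne
    simpa using h z hz
  | insert a s ha ih =>
    have h' : ∀ z ∈ W, f a z * ∏ i ∈ s, f i z = 0 := by
      intro z hz
      have := h z hz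
      rwa [Finset.prod_insert ha] at this
    have hd : DifferentiableOn ℂ (fun z => ∏ i ∈ s, f i z) W :=
      DifferentiableOn.fun_finsetProd fun i hi => hf i (Finset.mem_insert_of_mem hi)
    rcases ret_mul_eq_zero hW hc (hf a (Finset.mem_insert_self _ _)) hd h' with h1 | h1
    · exact ⟨a, Finset.mem_insert_self _ _, h1⟩
    · obtain ⟨i, hi, hi'⟩ := ih (fun i hi => hf i (Finset.mem_insert_of_mem hi)) h1
      exact ⟨i, Finset.mem_insert_of_mem hi, hi'⟩

open Polynomial in
/-- a holomorphic root of a holomorphically split polynomial is one of the given roots -/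
theorem ret_root_eq_of_split {W : Set ℂ} (hW : IsOpen W) (hc : IsPreconnected W) (hne : W.Nonempty)
    {P : ℂ[X][X]} {n : ℕ} {θ : Fin n → ℂ → ℂ} (hθ : ∀ i, DifferentiableOn ℂ (θ i) W)
    (hs : ∀ z ∈ W, P.map (evalRingHom z) = ∏ i, (X - C (θ i z))) {t : ℂ → ℂ}
    (ht : DifferentiableOn ℂ t W) (hroot : ∀ z ∈ W, (P.map (evalRingHom z)).eval (t z) = 0) :
    ∃ i, Set.EqOn t (θ i) W := by
  have h : ∀ z ∈ W, ∏ i ∈ Finset.univ, (t z - θ i z) = 0 := by
    intro z hz
    have := hroot z hz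
    rw [hs z hz, Polynomial.eval_prod] at this
    simpa using this
  obtain ⟨i, -, hi⟩ := ret_prod_eq_zero hW hc hne Finset.univ
    (f := fun i z => t z - θ i z) (fun i _ => ht.sub (hθ i)) h
  exact ⟨i, fun z hz => sub_eq_zero.1 (hi z hz)⟩

end Claimed.Agent.R280
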