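import Claimed.Agent.R280.RET.RealDefs

/-! # Row 280, RET / MODEL: M10b (pure Galois theory) (overview: header of `ModelDefs.lean`) -/

set_option autoImplicit false
set_option linter.unusedSectionVars false
set_option linter.unusedVariables false

namespace Claimed.Agent.R280

open Polynomial WithZero
open scoped Pointwise

/-- abstract form of M10b: any Galois extension. -/
theorem ret_hom_of_orbit_aux {K E : Type*} [Field K] [Field E] [Algebra K E] [IsGalois K E]
    {r : ℕ} (N : IntermediateField K E) (γ : Fin r → (E ≃ₐ[K] E))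
    (hfix : ∀ y ∈ N, (∀ k, γ k y = y) → y ∈ Set.range (algebraMap K E))
    {G : Type*} [Group G] [Finite G] (g : Fin r → G) (y : G → E) (hyN : ∀ s, y s ∈ N)
    (hγ : ∀ k s, γ k (y s) = y (g k * s)) (hne : ∀ s, s ≠ 1 → y s ≠ y 1) :
    ∃ φ : (E ≃ₐ[K] E) →* G, IsOpen (φ.ker : Set (E ≃ₐ[K] E)) ∧
      (∀ σ : E ≃ₐ[K] E, (∀ y ∈ N, σ y = y) → φ σ = 1) ∧ ∀ k, φ (γ k) = g k := by
  classical
  set G' : Subgroup G := Subgroup.closure (Set.range g) with hG'
  -- every element of `G'` is realised by some automorphism acting by left multiplication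
  have hreal : ∀ d ∈ G', ∃ σ : E ≃ₐ[K] E, ∀ t, σ (y t) = y (d * t) := by
    intro d hd
    induction hd using Subgroup.closure_induction with
    | mem x hx =>
      obtain ⟨k, rfl⟩ := hx
      exact ⟨γ k, hγ k⟩
    | one => exact ⟨1, fun t => by simp⟩
    | mul a b _ _ iha ihb =>
      obtain ⟨σ, hσ⟩ := iha
      obtain ⟨τ, hτ⟩ := ihb
      exact ⟨σ * τ, fun t => by rw [AlgEquiv.mul_apply, hτ, hσ, mul_assoc]⟩
    | inv a _ iha =>
      obtain ⟨σ, hσ⟩ := iha
      refine ⟨σ⁻¹, fun t => ?_⟩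
      have h1 := hσ (a⁻¹ * t)
      rw [mul_inv_cancel_left] at h1
      rw [← h1]
      exact σ.symm_apply_apply _
  -- distinctness
  have hdist : ∀ s ∈ G', ∀ t, y s = y t → s = t := by
    intro s hs t hst
    obtain ⟨σ, hσ⟩ := hreal s⁻¹ (G'.inv_mem hs)
    have h1 := congrArg σ hst
    rw [hσ, hσ, inv_mul_cancel] at h1
    by_contra hne'
    have h2 : s⁻¹ * t ≠ 1 := by
      intro h
      apply hne'
      rw [inv_mul_eq_one] at h
      exact h
    exact hne _ h2 h1.symm
  -- the subgroup `H`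
  let H : Subgroup (E ≃ₐ[K] E) :=
    { carrier := {σ | ∃ d ∈ G', ∀ t ∈ G', σ (y t) = y (d * t)}
      one_mem' := ⟨1, G'.one_mem, fun t _ => by simp⟩
      mul_mem' := by
        rintro σ τ ⟨d, hd, hσ⟩ ⟨e, he, hτ⟩
        exact ⟨d * e, G'.mul_mem hd he, fun t ht => by
          rw [AlgEquiv.mul_apply, hτ t ht, hσ _ (G'.mul_mem he ht), mul_assoc]⟩
      inv_mem' := by
        rintro σ ⟨d, hd, hσ⟩
        refine ⟨d⁻¹, G'.inv_mem hd, fun t ht => ?_⟩
        have h1 := hσ (d⁻¹ * t) (G'.mul_mem (G'.inv_mem hd) ht)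
        rw [mul_inv_cancel_left] at h1
        rw [← h1]
        exact σ.symm_apply_apply _ }
  have hHmem : ∀ σ, σ ∈ H ↔ ∃ d ∈ G', ∀ t ∈ G', σ (y t) = y (d * t) := fun σ => Iff.rfl
  -- the finite subextension generated by the `y t`
  set L : IntermediateField K E := IntermediateField.adjoin K (Set.range y) with hL
  have hLfd : FiniteDimensional K L :=
    IntermediateField.finiteDimensional_adjoin (fun x _ => Algebra.IsIntegral.isIntegral x)
  have hLo : IsOpen (L.fixingSubgroup : Set (E ≃ₐ[K] E)) := L.fixingSubgroup_isOpen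
  have hLN : L ≤ N := by
    rw [hL, IntermediateField.adjoin_le_iff]
    rintro _ ⟨s, rfl⟩
    exact hyN s
  have hLfix : ∀ σ ∈ L.fixingSubgroup, ∀ t, σ (y t) = y t := by
    intro σ hσ t
    exact hσ ⟨y t, IntermediateField.subset_adjoin K _ ⟨t, rfl⟩⟩
  have hLH : L.fixingSubgroup ≤ H := by
    intro σ hσ
    exact ⟨1, G'.one_mem, fun t _ => by rw [one_mul]; exact hLfix σ hσ t⟩
  have hHo : IsOpen (H : Set (E ≃ₐ[K] E)) := Subgroup.isOpen_mono hLH hLo
  have hγH : ∀ k, γ k ∈ H := fun k =>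
    ⟨g k, Subgroup.subset_closure ⟨k, rfl⟩, fun t _ => hγ k t⟩
  -- the fixed field of `H` is `K`
  have hbot : IntermediateField.fixedField H = ⊥ := by
    rw [eq_bot_iff]
    intro x hx
    rw [IntermediateField.mem_fixedField_iff] at hx
    have hxL : x ∈ L := by
      rw [← InfiniteGalois.fixedField_fixingSubgroup L, IntermediateField.mem_fixedField_iff]
      exact fun σ hσ => hx σ (hLH hσ)
    obtain ⟨a, ha⟩ := hfix x (hLN hxL) (fun k => hx _ (hγH k))
    rw [IntermediateField.mem_bot]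
    exact ⟨a, ha⟩
  have hHtop : H = ⊤ := by
    have h1 := InfiniteGalois.fixingSubgroup_fixedField
      (⟨H, Subgroup.isClosed_of_isOpen H hHo⟩ : ClosedSubgroup (E ≃ₐ[K] E))
    change (IntermediateField.fixedField H).fixingSubgroup = H at h1
    rw [hbot] at h1
    rw [← h1]
    exact IntermediateField.fixingSubgroup_bot
  have hall : ∀ σ : E ≃ₐ[K] E, ∃ d ∈ G', ∀ t ∈ G', σ (y t) = y (d * t) := by
    intro σ
    have : σ ∈ H := by rw [hHtop]; exact Subgroup.mem_top σ
    exact this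
  choose d hdG hd using hall
  have huniq : ∀ (σ : E ≃ₐ[K] E) (e : G), e ∈ G' → (∀ t ∈ G', σ (y t) = y (e * t)) → d σ = e := by
    intro σ e he h
    have h1 := hd σ 1 G'.one_mem
    rw [h 1 G'.one_mem, mul_one, mul_one] at h1
    exact (hdist e he _ h1).symm
  let φ : (E ≃ₐ[K] E) →* G :=
    { toFun := d
      map_one' := huniq 1 1 G'.one_mem (fun t _ => by simp)
      map_mul' := by
        intro σ τ
        apply huniq _ _ (G'.mul_mem (hdG σ) (hdG τ))
        intro t ht
        rw [AlgEquiv.mul_apply, hd τ t ht, hd σ _ (G'.mul_mem (hdG τ) ht), mul_assoc] }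
  refine ⟨φ, ?_, ?_, ?_⟩
  · refine Subgroup.isOpen_mono (H₁ := L.fixingSubgroup) ?_ hLo
    intro σ hσ
    rw [MonoidHom.mem_ker]
    exact huniq σ 1 G'.one_mem (fun t _ => by rw [one_mul]; exact hLfix σ hσ t)
  · intro σ hσ
    exact huniq σ 1 G'.one_mem (fun t _ => by rw [one_mul]; exact hσ _ (hyN t))
  · intro k
    exact huniq (γ k) (g k) (Subgroup.subset_closure ⟨k, rfl⟩) (fun t _ => hγ k t)

variable {KK : Type} {E : Type} [Field KK] [Field E] [Algebra ℂ KK] [Algebra ℂ[X] KK]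
  [IsScalarTower ℂ ℂ[X] KK] [IsFractionRing ℂ[X] KK] [Algebra KK E] [Algebra ℂ[X] E]
  [IsScalarTower ℂ[X] KK E] [Algebra ℂ E] [IsScalarTower ℂ KK E] [IsAlgClosure KK E]

/-- M10b (pure Galois theory, ~600 lines).  `G' = closure (range g)`.  Words in the `γ k` act on `y s` by left multiplication, so the `y s`, `s ∈ G'`, are pairwise distinct.
`H = {σ | ∃ d ∈ G', ∀ t ∈ G', σ (y t) = y (d * t)}` is a subgroup containing the `γ k` and the open subgroup fixing all `y t`; its fixed field is contained in `N` (it is generated over... it is inside `KK(y t) ⊆ N`)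
and fixed by the `γ k`, so it is `KK`; an open subgroup with fixed field `KK` is everything (`InfiniteGalois`).  `φ σ = d`. -/
theorem ret_hom_of_orbit {r : ℕ} (N : IntermediateField KK E)
    (hN : ∀ (g : E ≃ₐ[KK] E), ∀ y ∈ N, g y ∈ N) (γ : Fin r → (E ≃ₐ[KK] E))
    (hfix : ∀ y ∈ N, (∀ k, γ k y = y) → y ∈ Set.range (algebraMap KK E))
    {G : Type} [Group G] [Finite G] (g : Fin r → G) (y : G → E) (hyN : ∀ s, y s ∈ N)
    (hγ : ∀ k s, γ k (y s) = y (g k * s)) (hne : ∀ s, s ≠ 1 → y s ≠ y 1) :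
    ∃ φ : (E ≃ₐ[KK] E) →* G, IsOpen (φ.ker : Set (E ≃ₐ[KK] E)) ∧
      (∀ σ : E ≃ₐ[KK] E, (∀ y ∈ N, σ y = y) → φ σ = 1) ∧ ∀ k, φ (γ k) = g k := by
  have : CharZero KK := charZero_of_injective_algebraMap (algebraMap ℂ KK).injective
  exact ret_hom_of_orbit_aux N γ hfix g y hyN hγ hne

end Claimed.Agent.R280
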