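import Claimed.Agent.R280.RET.SplitDefs

/-! # Row 280, RET / IFT: simple roots are holomorphic (plan: header of `SplitDefs.lean`).
Proved by helper151 with Mathlib's `ContDiffAt.implicitFunction`. -/

set_option autoImplicit false

namespace Claimed.Agent.R280

open Polynomial Complex Filter Topology

/-- the function `(z, T) ↦ P(z, T)` -/
noncomputable def retIftF (P : ℂ[X][X]) (u : ℂ × ℂ) : ℂ := (P.map (evalRingHom u.1)).eval u.2

theorem retIftF_eq_sum (P : ℂ[X][X]) (u : ℂ × ℂ) :
    retIftF P u = ∑ k ∈ Finset.range (P.natDegree + 1), (P.coeff k).eval u.1 * u.2 ^ k := by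
  unfold retIftF
  rw [eval_map, eval₂_eq_sum_range]
  rfl

theorem retIftF_contDiff (P : ℂ[X][X]) : ContDiff ℂ 1 (retIftF P) := by
  have : retIftF P = fun u : ℂ × ℂ =>
      ∑ k ∈ Finset.range (P.natDegree + 1), (P.coeff k).eval u.1 * u.2 ^ k :=
    funext (retIftF_eq_sum P)
  rw [this]
  refine ContDiff.sum fun k _ => ?_
  have h1 : ContDiff ℂ 1 (fun x : ℂ => (P.coeff k).eval x) := by
    simpa using Polynomial.contDiff_aeval (𝕜 := ℂ) (P.coeff k) 1
  exact (h1.comp contDiff_fst).mul (contDiff_snd.pow k)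

/-- the partial derivative in `T` -/
theorem retIftF_fderiv_inr (P : ℂ[X][X]) (a r : ℂ) :
    (fderiv ℂ (retIftF P) (a, r) ∘L ContinuousLinearMap.inr ℂ ℂ ℂ) 1
      = (P.map (evalRingHom a)).derivative.eval r := by
  have h1 : HasFDerivAt (retIftF P) (fderiv ℂ (retIftF P) (a, r)) (a, r) :=
    ((retIftF_contDiff P).differentiable one_ne_zero (a, r)).hasFDerivAt
  have h2 : HasFDerivAt (fun T : ℂ => (a, T)) (ContinuousLinearMap.inr ℂ ℂ ℂ) r :=
    hasFDerivAt_prodMk_right a r
  have h3 := (h1.comp r h2).hasDerivAt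
  have h4 : HasDerivAt (fun T : ℂ => (P.map (evalRingHom a)).eval T)
      ((P.map (evalRingHom a)).derivative.eval r) r := (P.map (evalRingHom a)).hasDerivAt r
  exact h3.unique h4

theorem retIft_isInvertible (L : ℂ →L[ℂ] ℂ) (h : L 1 ≠ 0) : L.IsInvertible := by
  refine ⟨ContinuousLinearEquiv.unitsEquivAut ℂ (Units.mk0 (L 1) h), ?_⟩
  refine ContinuousLinearMap.ext_ring ?_
  simp

/-- one simple root -/
theorem retIft_root (P : ℂ[X][X]) (a r : ℂ) (h0 : (P.map (evalRingHom a)).eval r = 0)
    (h1 : (P.map (evalRingHom a)).derivative.eval r ≠ 0) :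
    ∃ θ : ℂ → ℂ, θ a = r ∧ ContinuousAt θ a ∧ (∀ᶠ z in 𝓝 a, DifferentiableAt ℂ θ z) ∧
      ∀ᶠ z in 𝓝 a, (P.map (evalRingHom z)).eval (θ z) = 0 := by
  have cdf : ContDiffAt ℂ 1 (retIftF P) (a, r) := (retIftF_contDiff P).contDiffAt
  have inv : (fderiv ℂ (retIftF P) (a, r) ∘L ContinuousLinearMap.inr ℂ ℂ ℂ).IsInvertible :=
    retIft_isInvertible _ (by rw [retIftF_fderiv_inr]; exact h1)
  have c1 := cdf.contDiffAt_implicitFunction one_ne_zero inv
  refine ⟨cdf.implicitFunction one_ne_zero inv, cdf.implicitFunction_apply_self one_ne_zero inv,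
    c1.continuousAt, ?_, ?_⟩
  · exact (c1.eventually (by simp)).mono fun z hz => hz.differentiableAt one_ne_zero
  · refine (cdf.eventually_apply_implicitFunction one_ne_zero inv).mono fun z hz => ?_
    have : retIftF P (a, r) = 0 := h0
    rw [this] at hz
    exact hz

/-- a monic polynomial with `natDegree` many distinct roots -/
theorem retIft_eq_prod {p : ℂ[X]} (hp : p.Monic) {n : ℕ} (hn : p.natDegree = n) (θ : Fin n → ℂ)
    (hinj : Function.Injective θ) (hroot : ∀ i, p.eval (θ i) = 0) : p = ∏ i, (X - C (θ i)) := by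
  have hd : (∏ i, (X - C (θ i))) ∣ p :=
    Fintype.prod_dvd_of_coprime (pairwise_coprime_X_sub_C hinj)
      (fun i => dvd_iff_isRoot.2 (hroot i))
  have hm : (∏ i, (X - C (θ i))).Monic := monic_prod_of_monic _ _ fun i _ => monic_X_sub_C _
  have hdeg : (∏ i, (X - C (θ i))).natDegree = n := by
    rw [natDegree_prod_of_monic _ _ fun i _ => monic_X_sub_C _]
    simp
  exact eq_of_monic_of_dvd_of_natDegree_le hm hp hd (by rw [hn, hdeg])

/-- IFT: if `P(a, T)` is separable then `P` splits holomorphically near `a` -/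
theorem retHSplits_of_separable {P : ℂ[X][X]} (hP : P.Monic) {a : ℂ}
    (hs : (P.map (evalRingHom a)).Separable) : ∃ ε : ℝ, 0 < ε ∧ RetHSplits P (Metric.ball a ε) := by
  set p := P.map (evalRingHom a) with hp
  have hdeg : ∀ z : ℂ, (P.map (evalRingHom z)).natDegree = P.natDegree :=
    fun z => hP.natDegree_map _
  -- the roots at `a`
  have hcard : p.roots.toFinset.card = P.natDegree := by
    rw [Multiset.toFinset_card_of_nodup (nodup_roots hs), ← hdeg a]
    exact (splits_iff_card_roots.1 (IsAlgClosed.splits p))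
  let e := p.roots.toFinset.equivFinOfCardEq hcard
  let r : Fin P.natDegree → ℂ := fun i => (e.symm i : ℂ)
  have hrinj : Function.Injective r := fun i j h => e.symm.injective (Subtype.ext h)
  have hrroot : ∀ i, p.eval (r i) = 0 := fun i => by
    have : r i ∈ p.roots := Multiset.mem_toFinset.1 (e.symm i).2
    exact (mem_roots'.1 this).2
  have hrder : ∀ i, p.derivative.eval (r i) ≠ 0 := fun i => by
    have := hs.eval₂_derivative_ne_zero (RingHom.id ℂ) (x := r i) (by simpa using hrroot i)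
    simpa using this
  choose θ h1 h2 h3 h4 using fun i => retIft_root P a (r i) (hrroot i) (hrder i)
  have h5 : ∀ᶠ z in 𝓝 a, ∀ i j, i ≠ j → θ i z ≠ θ j z := by
    rw [eventually_all]; intro i
    rw [eventually_all]; intro j
    by_cases hij : i = j
    · exact Eventually.of_forall fun z h => absurd hij h
    · have hc : ContinuousAt (fun z => θ i z - θ j z) a := (h2 i).sub (h2 j)
      have hne : θ i a - θ j a ≠ 0 := by
        rw [h1, h1]; exact sub_ne_zero.2 fun h => hij (hrinj h)
      exact (hc.eventually_ne hne).mono fun z hz _ h => hz (sub_eq_zero.2 h)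
  have h6 : ∀ᶠ z in 𝓝 a, (∀ i, DifferentiableAt ℂ (θ i) z) ∧
      (∀ i, (P.map (evalRingHom z)).eval (θ i z) = 0) ∧ ∀ i j, i ≠ j → θ i z ≠ θ j z :=
    (eventually_all.2 h3).and ((eventually_all.2 h4).and h5)
  obtain ⟨ε, hε, hball⟩ := Metric.eventually_nhds_iff_ball.1 h6
  refine ⟨ε, hε, θ, fun i z hz => ((hball z hz).1 i).differentiableWithinAt, fun z hz => ?_⟩
  exact retIft_eq_prod (hP.map _) (hdeg z) (fun i => θ i z)
    (fun i j h => by_contra fun hij => (hball z hz).2.2 i j hij h) (hball z hz).2.1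

end Claimed.Agent.R280
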