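import Claimed.Agent.R280.RET.RealDefs

/-! # Row 280, RET / MODEL: M9d (pure algebra) (overview: header of `ModelDefs.lean`)

M9d (LIFT).  `g • V` and `V` have the same trace on `N`; for a finite layer `Y ⊆ N` they lie above the same place of `Y` (`Place.exists_mid`), so they are conjugate
over `Y` (`Place.above_conj` over `Y`); compactness of `Gal(E/KK)`. -/

set_option autoImplicit false
set_option linter.unusedSectionVars false

namespace Claimed.Agent.R280

open Polynomial WithZero
open scoped Pointwise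

section

variable {K E : Type*} [Field K] [Field E] [Algebra K E] [Algebra.IsIntegral K E]

theorem ret_isOpen_eval (x : E) (A : Set E) : IsOpen {σ : E ≃ₐ[K] E | σ x ∈ A} := by
  rw [isOpen_iff_forall_mem_open]
  intro σ₀ h
  refine ⟨(fun τ => σ₀⁻¹ * τ) ⁻¹' (MulAction.stabilizer (E ≃ₐ[K] E) x : Set (E ≃ₐ[K] E)), ?_, ?_, ?_⟩
  · intro τ hτ
    have h1 : (σ₀⁻¹ * τ) x = x := hτ
    have h2 : τ x = σ₀ x := by
      have := congrArg σ₀ h1
      rw [AlgEquiv.mul_apply] at this
      rw [← this]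
      exact (σ₀.apply_symm_apply _).symm
    change τ x ∈ A
    rw [h2]
    exact h
  · exact (stabilizer_isOpen_of_isIntegral x).preimage (continuous_const.mul continuous_id)
  · change σ₀⁻¹ * σ₀ ∈ MulAction.stabilizer (E ≃ₐ[K] E) x
    rw [inv_mul_cancel]
    exact Subgroup.one_mem _

theorem ret_isClosed_eval (x : E) (A : Set E) : IsClosed {σ : E ≃ₐ[K] E | σ x ∈ A} := by
  rw [← isOpen_compl_iff]
  exact ret_isOpen_eval x Aᶜ

theorem ret_isClosed_stab (V : ValuationSubring E) : IsClosed {σ : E ≃ₐ[K] E | σ • V = V} := by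
  have h : {σ : E ≃ₐ[K] E | σ • V = V}
      = (⋂ x ∈ V, {σ : E ≃ₐ[K] E | σ x ∈ (V : Set E)}) ∩
        (⋂ x ∈ V, (fun σ : E ≃ₐ[K] E => σ⁻¹) ⁻¹' {σ : E ≃ₐ[K] E | σ x ∈ (V : Set E)}) := by
    ext σ
    simp only [Set.mem_ofPred_eq, Set.mem_inter_iff, Set.mem_iInter, Set.mem_preimage]
    constructor
    · intro hσ
      constructor
      · intro x hx
        have := ValuationSubring.smul_mem_pointwise_smul σ x V hx
        rw [hσ] at this
        exact this
      · intro x hx
        rw [← hσ] at hx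
        exact ValuationSubring.mem_pointwise_smul_iff_inv_smul_mem.1 hx
    · rintro ⟨h1, h2⟩
      apply le_antisymm
      · intro x hx
        obtain ⟨z, hz, rfl⟩ := (ValuationSubring.mem_smul_pointwise_iff_exists σ x V).1 hx
        exact h1 z hz
      · intro x hx
        exact ValuationSubring.mem_pointwise_smul_iff_inv_smul_mem.2 (h2 x hx)
  rw [h]
  refine IsClosed.inter ?_ ?_
  · exact isClosed_biInter fun x _ => ret_isClosed_eval x _
  · exact isClosed_biInter fun x _ => (ret_isClosed_eval x _).preimage continuous_inv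

end

section

variable {KK : Type} [Field KK] [Algebra ℂ KK] [Algebra ℂ[X] KK]
  [IsScalarTower ℂ ℂ[X] KK] [IsFractionRing ℂ[X] KK]

variable (KK) in
theorem ret_isFF_KK : IsFF ℂ KK := by
  set x : KK := algebraMap ℂ[X] KK X with hx
  have haev : ∀ p : ℂ[X], aeval x p = algebraMap ℂ[X] KK p := by
    intro p
    rw [hx, aeval_algebraMap_apply, aeval_X_left_apply]
  have htr : Transcendental ℂ x := by
    rw [transcendental_iff]
    intro p hp
    rw [haev] at hp
    exact (map_eq_zero_iff _ (IsFractionRing.injective ℂ[X] KK)).1 hp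
  have htop : ∀ y : KK, y ∈ IntermediateField.adjoin ℂ {x} := by
    intro y
    obtain ⟨a, b, hb, rfl⟩ := IsFractionRing.div_surjective (A := ℂ[X]) y
    have hmem : ∀ p : ℂ[X], algebraMap ℂ[X] KK p ∈ IntermediateField.adjoin ℂ {x} := by
      intro p
      rw [← haev]
      exact IntermediateField.algebra_adjoin_le_adjoin ℂ {x}
        (Polynomial.aeval_mem_adjoin_singleton ℂ x)
    exact div_mem (hmem a) (hmem b)
  refine ⟨x, htr, ⟨{1}, ?_⟩⟩
  rw [eq_top_iff]
  intro y _
  rw [Finset.coe_singleton, Submodule.mem_span_singleton]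
  exact ⟨⟨y, htop y⟩, by rw [Algebra.smul_def, mul_one]; rfl⟩

end

variable {KK : Type} {E : Type} [Field KK] [Field E] [Algebra ℂ KK] [Algebra ℂ[X] KK]
  [IsScalarTower ℂ ℂ[X] KK] [IsFractionRing ℂ[X] KK] [Algebra KK E] [Algebra ℂ[X] E]
  [IsScalarTower ℂ[X] KK E] [Algebra ℂ E] [IsScalarTower ℂ KK E] [IsAlgClosure KK E]

/-- finite level of M9d: two valuation rings above `P₀` with the same trace on a finite layer `Y` are conjugate over `Y`. -/
theorem ret_conj_over_finite {P₀ : Place ℂ KK} {V V' : ValuationSubring E} (hV : P₀.Above E V)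
    (Y : IntermediateField KK E) [FiniteDimensional KK Y] (h : ∀ y ∈ Y, (y ∈ V ↔ y ∈ V')) :
    ∃ σ : E ≃ₐ[KK] E, σ • V' = V ∧ ∀ y ∈ Y, σ y = y := by
  have : IsFF ℂ KK := ret_isFF_KK KK
  have : IsScalarTower ℂ KK Y := IsScalarTower.of_algebraMap_eq (fun a => by
    apply Subtype.ext
    exact IsScalarTower.algebraMap_apply ℂ KK E a)
  have : IsFF ℂ Y := isFF_of_finite ℂ KK Y
  have : IsAlgClosure Y E :=
    ⟨IsAlgClosure.isAlgClosed KK, Algebra.IsAlgebraic.tower_top (K := KK) Y⟩
  obtain ⟨Q, hQ, -⟩ := Place.exists_mid (E := E) Y hV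
  have hQ' : Q.Above E V' := by
    unfold Place.Above at hQ ⊢
    rw [← hQ]
    ext y
    exact (h y.1 y.2).symm
  obtain ⟨σ, hσ⟩ := Place.above_conj hQ' hQ
  refine ⟨σ.restrictScalars KK, ?_, fun y hy => σ.commutes ⟨y, hy⟩⟩
  rw [← hσ]
  rfl

theorem ret_lift_decomp (N : IntermediateField KK E) (hN : ∀ (g : E ≃ₐ[KK] E), ∀ y ∈ N, g y ∈ N)
    {P₀ : Place ℂ KK} {V : ValuationSubring E} (hV : P₀.Above E V) (g : E ≃ₐ[KK] E)
    (hg : ∀ y ∈ N, (y ∈ V ↔ g y ∈ V)) : ∃ g' : E ≃ₐ[KK] E, g' • V = V ∧ ∀ y ∈ N, g' y = g y := by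
  classical
  have : CharZero KK := charZero_of_injective_algebraMap (algebraMap ℂ KK).injective
  have hVV' : ∀ y ∈ N, (y ∈ V ↔ y ∈ g • V) := by
    intro y hy
    rw [ValuationSubring.mem_pointwise_smul_iff_inv_smul_mem]
    have h1 := hg (g⁻¹ y) (hN g⁻¹ y hy)
    have h2 : g (g⁻¹ y) = y := g.apply_symm_apply y
    rw [h2] at h1
    exact h1.symm
  have hs : IsCompact {σ : E ≃ₐ[KK] E | σ • V = V} := (ret_isClosed_stab V).isCompact
  obtain ⟨g', hg'1, hg'2⟩ := hs.inter_iInter_nonempty
    (fun y : N => {σ : E ≃ₐ[KK] E | σ (y : E) ∈ ({g (y : E)} : Set E)})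
    (fun y => ret_isClosed_eval _ _) (by
      intro u
      set Y : IntermediateField KK E :=
        IntermediateField.adjoin KK ((u.image (fun y : N => g (y : E)) : Finset E) : Set E) with hY
      have hfd : FiniteDimensional KK Y :=
        IntermediateField.finiteDimensional_adjoin (fun x _ => Algebra.IsIntegral.isIntegral x)
      have hYN : Y ≤ N := by
        rw [hY, IntermediateField.adjoin_le_iff]
        intro x hx
        obtain ⟨y, _, rfl⟩ := Finset.mem_image.1 (Finset.mem_coe.1 hx)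
        exact hN g _ y.2
      obtain ⟨σ, hσ1, hσ2⟩ := ret_conj_over_finite hV Y (fun y hy => hVV' y (hYN hy))
      refine ⟨σ * g, ?_, ?_⟩
      · change (σ * g) • V = V
        rw [mul_smul, hσ1]
      · simp only [Set.mem_iInter]
        intro y hy
        change σ (g (y : E)) = g (y : E)
        apply hσ2
        apply IntermediateField.subset_adjoin
        exact Finset.mem_coe.2 (Finset.mem_image.2 ⟨y, hy, rfl⟩))
  refine ⟨g', hg'1, fun y hy => ?_⟩
  have := Set.mem_iInter.1 hg'2 ⟨y, hy⟩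
  exact this

end Claimed.Agent.R280
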