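import Claimed.Agent.R280.RET.LocalSplitAux

/-! # Row 280, RET / LOCAL: unramified ⇒ locally holomorphically split (plan: header of `LocalUnram.lean`; tools: `LocalSplitAux.lean`)

* `ret_local_split`: `L` = the field generated by the conjugates of `y`; `retls_exists_poly` gives a monic `F` over `ℂ[X]` with `F(a, T)` separable whose roots generate a field containing `L`;
  IFT, REAL-1', REAL-7.
* `ret_local_split_inf`: `ret_local_split` for the SECOND `ℂ[X]`-algebra structure `X ↦ 1/x` (`retlsAlg`), the point `0` and the element `x ^ (-N) y`; then `z ↦ 1/z` (`retls_hsplits_inv`).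
-/

set_option autoImplicit false

namespace Claimed.Agent.R280

open Polynomial WithZero
open scoped Pointwise

section W

variable (KK : Type) [Field KK] [Algebra ℂ KK]

/-- the `ℂ[X]`-algebra structure on `KK` with `X ↦ w` -/
@[reducible] noncomputable def retlsAlg (w : KK) : Algebra ℂ[X] KK :=
  (aeval w : ℂ[X] →ₐ[ℂ] KK).toRingHom.toAlgebra

variable {KK}

theorem retlsAlg_algebraMap (w : KK) (p : ℂ[X]) :
    @algebraMap ℂ[X] KK _ _ (retlsAlg KK w) p = aeval w p := rfl

theorem retlsAlg_retX (w : KK) : @retX KK _ (retlsAlg KK w) = w := by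
  unfold retX
  rw [retlsAlg_algebraMap, aeval_X]

theorem retlsAlg_tower (w : KK) : @IsScalarTower ℂ ℂ[X] KK _ (retlsAlg KK w).toSMul _ :=
  letI := retlsAlg KK w
  IsScalarTower.of_algebraMap_eq fun c => by
    rw [retlsAlg_algebraMap, algebraMap_eq, aeval_C]

theorem retlsAlg_isFractionRing {x : KK} (hx0 : x ≠ 0) (hinj : ∀ p : ℂ[X], aeval x p = 0 → p = 0)
    (hsurj : ∀ z : KK, ∃ p q : ℂ[X], z = aeval x p / aeval x q) :
    @IsFractionRing ℂ[X] _ KK _ (retlsAlg KK x⁻¹) := by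
  let := retlsAlg KK x⁻¹
  have hi : Function.Injective (algebraMap ℂ[X] KK) := by
    rw [injective_iff_map_eq_zero]
    intro p hp
    rw [retlsAlg_algebraMap] at hp
    have h1 := retls_aeval_reflect (inv_ne_zero hx0) p le_rfl
    rw [inv_inv, hp] at h1
    have h2 : aeval x (reflect p.natDegree p) = 0 := by
      rcases mul_eq_zero.1 h1 with h | h
      · exact h
      · exact absurd h (pow_ne_zero _ (inv_ne_zero hx0))
    exact reflect_eq_zero_iff.1 (hinj _ h2)
  have : FaithfulSMul ℂ[X] KK := (faithfulSMul_iff_algebraMap_injective ℂ[X] KK).2 hi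
  apply IsFractionRing.of_field
  intro z
  obtain ⟨p, q, rfl⟩ := hsurj z
  refine ⟨reflect (max p.natDegree q.natDegree) p, reflect (max p.natDegree q.natDegree) q, ?_⟩
  rw [retlsAlg_algebraMap, retlsAlg_algebraMap, ← retls_aeval_reflect hx0 p (le_max_left _ _),
    ← retls_aeval_reflect hx0 q (le_max_right _ _), mul_div_mul_right _ _ (pow_ne_zero _ hx0)]

end W

variable {KK E : Type} [Field KK] [Field E] [Algebra ℂ KK] [Algebra ℂ[X] KK] [IsScalarTower ℂ ℂ[X] KK]
  [IsFractionRing ℂ[X] KK] [Algebra KK E] [Algebra ℂ[X] E] [IsScalarTower ℂ[X] KK E] [Algebra ℂ E]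
  [IsScalarTower ℂ KK E] [IsAlgClosure KK E]

theorem ret_local_split {y : E} (hi : IsIntegral ℂ[X] y) {a : ℂ} {Q₀ : Place ℂ KK}
    (h₀ : Q₀.IsAt (retX KK) a)
    (hun : ∀ V : ValuationSubring E, Q₀.Above E V → ∀ g : E ≃ₐ[KK] E, g • V = V →
      ∀ σ : E ≃ₐ[KK] E, g (σ y) = σ y) :
    ∃ ε : ℝ, 0 < ε ∧ RetHSplits (minpoly ℂ[X] y) (Metric.ball a ε) := by
  have halg : Algebra.IsAlgebraic KK E := IsAlgClosure.isAlgebraic
  have hiK : ∀ z : E, IsIntegral KK z := fun z => (halg.isAlgebraic z).isIntegral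
  set S : Set E := {z | ∃ σ : E ≃ₐ[KK] E, z = σ y} with hS
  have hSfin : S.Finite := by
    refine ((minpoly KK y).rootSet_finite E).subset ?_
    rintro _ ⟨σ, rfl⟩
    rw [mem_rootSet]
    refine ⟨minpoly.ne_zero (hiK y), ?_⟩
    have := aeval_algHom_apply (σ : E →ₐ[KK] E) y (minpoly KK y)
    rw [minpoly.aeval, map_zero] at this
    exact this
  have : Finite S := hSfin
  have hfd : FiniteDimensional KK (IntermediateField.adjoin KK S) :=
    IntermediateField.finiteDimensional_adjoin fun z _ => hiK z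
  obtain ⟨F, hFm, hsep, hle⟩ := retls_exists_poly (IntermediateField.adjoin KK S)
    (fun g => retls_adjoin_stable (by
      rintro _ ⟨σ, rfl⟩
      exact ⟨g * σ, rfl⟩)) h₀
    (fun V hV g hg => retls_adjoin_fixed (by
      rintro _ ⟨σ, rfl⟩
      exact hun V hV g hg σ))
  obtain ⟨ε, hε, hsplit⟩ := retHSplits_of_separable hFm hsep
  obtain ⟨ev, hev⟩ := ret_exists_real_of_splitting (KK := KK) (E := E) hFm Metric.isOpen_ball
    (convex_ball a ε).isPreconnected ⟨a, Metric.mem_ball_self hε⟩ hsplit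
  refine ⟨ε, hε, RetIsReal.hsplits (fun g => retls_adjoin_stable ?_) hev
    (hle (IntermediateField.subset_adjoin KK S ⟨1, rfl⟩)) hi⟩
  intro z hz
  have hz' : aeval z F = 0 := hz
  change aeval (g z) F = 0
  have := aeval_algHom_apply ((g.restrictScalars ℂ[X] : E ≃ₐ[ℂ[X]] E) : E →ₐ[ℂ[X]] E) z F
  rw [hz', map_zero] at this
  exact this

/-- the statement at `∞` in terms of the generator `w = retX KK = 1/x`: `P` is the minimal polynomial of `y` over `ℂ[1/w]` -/
theorem retls_inf_core {y : E} {P : ℂ[X][X]} (hPm : P.Monic) (ψ : ℂ[X] →+* KK)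
    (hψ : ∀ p, ψ p = aeval (retX KK)⁻¹ p) (hP : P.map ψ = minpoly KK y)
    {Q₀ : Place ℂ KK} (h₀ : Q₀.IsAt (retX KK) 0)
    (hun : ∀ V : ValuationSubring E, Q₀.Above E V → ∀ g : E ≃ₐ[KK] E, g • V = V →
      ∀ σ : E ≃ₐ[KK] E, g (σ y) = σ y) :
    ∃ R : ℝ, 0 ≤ R ∧ RetHSplits P (retExt R) := by
  have halg : Algebra.IsAlgebraic KK E := IsAlgClosure.isAlgebraic
  have hyK : IsIntegral KK y := (halg.isAlgebraic y).isIntegral
  set w : KK := retX KK with hw
  have hw0 : w ≠ 0 := by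
    rw [hw, retX, Ne, map_eq_zero_iff _ (IsFractionRing.injective ℂ[X] KK)]
    exact X_ne_zero
  set m := P.natDegree with hm
  set N : ℕ := ∑ j ∈ Finset.range m, (P.coeff j).natDegree with hNdef
  have hN : ∀ j, (P.coeff j).natDegree ≤ N * (m - j) := by
    intro j
    rcases lt_trichotomy j m with hj | hj | hj
    · calc (P.coeff j).natDegree ≤ N :=
            Finset.single_le_sum (f := fun j => (P.coeff j).natDegree) (fun _ _ => Nat.zero_le _)
              (Finset.mem_range.2 hj)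
        _ ≤ N * (m - j) := Nat.le_mul_of_pos_right _ (by omega)
    · rw [hj, hm, hPm.coeff_natDegree]; simp
    · rw [coeff_eq_zero_of_natDegree_lt hj]; simp
  have hdegA : (minpoly KK y).natDegree = m := by rw [← hP, hPm.natDegree_map]
  have hB : ∀ j, ((minpoly KK y).scaleRoots (w ^ N)).coeff j
      = algebraMap ℂ[X] KK (reflect (N * (m - j)) (P.coeff j)) := by
    intro j
    rw [coeff_scaleRoots, hdegA, ← hP, coeff_map, hψ, retls_algebraMap_eq_aeval, ← pow_mul]
    have := retls_aeval_reflect (inv_ne_zero hw0) (P.coeff j) (hN j)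
    rw [inv_inv] at this
    rw [← this, mul_assoc, ← mul_pow, inv_mul_cancel₀ hw0, one_pow, mul_one]
  have hl : (minpoly KK y).scaleRoots (w ^ N) ∈ lifts (algebraMap ℂ[X] KK) := by
    rw [lifts_iff_coeff_lifts]
    intro j
    exact ⟨_, (hB j).symm⟩
  obtain ⟨F', hF', hF'deg, hF'm⟩ := lifts_and_natDegree_eq_and_monic hl
    ((monic_scaleRoots_iff _).2 (minpoly.monic hyK))
  have hcoeff : ∀ j, F'.coeff j = reflect (N * (m - j)) (P.coeff j) := by
    intro j
    apply IsFractionRing.injective ℂ[X] KK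
    rw [← hB, ← hF', coeff_map]
  set y' : E := algebraMap KK E (w ^ N) * y with hy'
  have hmin : minpoly KK y' = F'.map (algebraMap ℂ[X] KK) := by
    rw [hF', hy', retls_minpoly_scale hyK (pow_ne_zero _ hw0)]
  have hi' : IsIntegral ℂ[X] y' := by
    refine ⟨F', hF'm, ?_⟩
    have := minpoly.aeval KK y'
    rw [hmin, aeval_map_algebraMap] at this
    exact this
  have hmin' : minpoly ℂ[X] y' = F' := by
    apply map_injective _ (IsFractionRing.injective ℂ[X] KK)
    rw [← hmin, minpoly.isIntegrallyClosed_eq_field_fractions' KK hi']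
  obtain ⟨ε, hε, hs⟩ := ret_local_split hi' h₀ (by
    intro V hV g hg σ
    rw [hy', map_mul, map_mul, AlgEquiv.commutes, AlgEquiv.commutes, hun V hV g hg σ])
  rw [hmin'] at hs
  exact ⟨ε⁻¹, (inv_pos.2 hε).le, retls_hsplits_inv hPm N
    (by rw [hF'deg, natDegree_scaleRoots, hdegA]) hcoeff hN hε hs⟩

theorem ret_local_split_inf {y : E} (hi : IsIntegral ℂ[X] y) {Q₀ : Place ℂ KK}
    (h₀ : Q₀.IsAtInf (retX KK))
    (hun : ∀ V : ValuationSubring E, Q₀.Above E V → ∀ g : E ≃ₐ[KK] E, g • V = V →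
      ∀ σ : E ≃ₐ[KK] E, g (σ y) = σ y) :
    ∃ R : ℝ, 0 ≤ R ∧ RetHSplits (minpoly ℂ[X] y) (retExt R) := by
  have hx0 : retX KK ≠ 0 := by
    rw [retX, Ne, map_eq_zero_iff _ (IsFractionRing.injective ℂ[X] KK)]
    exact X_ne_zero
  have hfrac : @IsFractionRing ℂ[X] _ KK _ (retlsAlg KK (retX KK)⁻¹) := by
    refine retlsAlg_isFractionRing hx0 (fun p hp => ?_) (fun z => ?_)
    · rw [← retls_algebraMap_eq_aeval] at hp
      exact (map_eq_zero_iff _ (IsFractionRing.injective ℂ[X] KK)).1 hp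
    · obtain ⟨p, q, -, rfl⟩ := IsFractionRing.div_surjective (A := ℂ[X]) z
      exact ⟨p, q, by rw [retls_algebraMap_eq_aeval, retls_algebraMap_eq_aeval]⟩
  refine @retls_inf_core KK E _ _ _ (retlsAlg KK (retX KK)⁻¹) (retlsAlg_tower _) hfrac _
    ((algebraMap KK E).comp (@algebraMap ℂ[X] KK _ _ (retlsAlg KK (retX KK)⁻¹))).toAlgebra
    (@IsScalarTower.of_algebraMap_eq ℂ[X] KK E _ _ _ (retlsAlg KK (retX KK)⁻¹) _
      ((algebraMap KK E).comp (@algebraMap ℂ[X] KK _ _ (retlsAlg KK (retX KK)⁻¹))).toAlgebra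
      fun _ => rfl) _ _ _ y (minpoly ℂ[X] y) (minpoly.monic hi) (algebraMap ℂ[X] KK) ?_ ?_ Q₀ ?_ hun
  · intro p
    rw [retlsAlg_retX, inv_inv, retls_algebraMap_eq_aeval]
  · exact (minpoly.isIntegrallyClosed_eq_field_fractions' KK hi).symm
  · unfold Place.IsAt
    rw [retlsAlg_retX, map_zero, sub_zero, map_inv₀]
    exact inv_lt_one_of_one_lt₀ h₀

end Claimed.Agent.R280
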