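import Claimed.Agent.R280.RET.LocalUnram
import Claimed.Agent.R280.RET.Ift
import Claimed.Agent.R280.RET.LiftDecomp

/-!
# Row 280, RET / LOCAL, tools (prefix `retls_`): valuations and polynomials, denominators prime to `x - a`, the separable model polynomial
-/

set_option autoImplicit false

namespace Claimed.Agent.R280

open Polynomial WithZero
open scoped Pointwise

section Val

variable {k M : Type*} [Field k] [Field M] [Algebra k M]

theorem retls_mul_lt_one {Γ : Type*} [LinearOrderedCommGroupWithZero Γ] {a b : Γ} (ha : a ≤ 1)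
    (hb : b < 1) : a * b < 1 :=
  lt_of_le_of_lt (mul_le_mul' ha le_rfl) (by rwa [one_mul])

/-- congruence of products modulo the maximal ideal -/
theorem retls_v_prod_sub_lt {Γ : Type*} [LinearOrderedCommGroupWithZero Γ] (v : Valuation M Γ)
    {ι : Type*} (s : Finset ι) (u w : ι → M) (hu : ∀ i ∈ s, v (u i) ≤ 1)
    (hw : ∀ i ∈ s, v (w i) ≤ 1) (h : ∀ i ∈ s, v (u i - w i) < 1) :
    v (∏ i ∈ s, u i - ∏ i ∈ s, w i) < 1 := by
  classical
  induction s using Finset.induction_on with
  | empty => simp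
  | insert b s hb ih =>
    rw [Finset.prod_insert hb, Finset.prod_insert hb]
    have e : u b * ∏ i ∈ s, u i - w b * ∏ i ∈ s, w i
        = u b * (∏ i ∈ s, u i - ∏ i ∈ s, w i) + (u b - w b) * ∏ i ∈ s, w i := by ring
    rw [e]
    refine lt_of_le_of_lt (v.map_add _ _) (max_lt ?_ ?_)
    · rw [map_mul]
      exact retls_mul_lt_one (hu b (Finset.mem_insert_self _ _))
        (ih (fun i hi => hu i (Finset.mem_insert_of_mem hi))
          (fun i hi => hw i (Finset.mem_insert_of_mem hi))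
          (fun i hi => h i (Finset.mem_insert_of_mem hi)))
    · rw [map_mul, mul_comm]
      refine retls_mul_lt_one ?_ (h b (Finset.mem_insert_self _ _))
      rw [map_prod]
      exact Finset.prod_le_one' fun i hi => hw i (Finset.mem_insert_of_mem hi)

theorem retls_v_le_one_of_sub (Q : Place k M) {x : M} {a : k}
    (hx : Q.v (x - algebraMap k M a) < 1) : Q.v x ≤ 1 := by
  have e : x = (x - algebraMap k M a) + algebraMap k M a := by ring
  rw [e]
  exact (Q.v.map_add _ _).trans (max_le hx.le (Q.algebraMap_mem a))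

theorem retls_v_aeval_sub_lt (Q : Place k M) {x : M} {a : k}
    (hx : Q.v (x - algebraMap k M a) < 1) (p : k[X]) :
    Q.v (aeval x p - algebraMap k M (p.eval a)) < 1 := by
  obtain ⟨r, hr⟩ := X_sub_C_dvd_sub_C_eval (a := a) (p := p)
  have e : aeval x p - algebraMap k M (p.eval a) = (x - algebraMap k M a) * aeval x r := by
    have := congrArg (aeval x) hr
    simpa using this
  rw [e, map_mul, mul_comm]
  exact retls_mul_lt_one (v_aeval_le_one Q.v Q.triv (retls_v_le_one_of_sub Q hx) r) hx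

theorem retls_const_eq_zero (Q : Place k M) {c : k} (h : Q.v (algebraMap k M c) < 1) : c = 0 := by
  by_contra hc
  rw [Q.triv c hc] at h
  exact lt_irrefl _ h

theorem retls_const_eq (Q : Place k M) {u : M} {c c' : k} (h : Q.v (u - algebraMap k M c) < 1)
    (h' : Q.v (u - algebraMap k M c') < 1) : c = c' := by
  have e : algebraMap k M (c - c') = (u - algebraMap k M c') - (u - algebraMap k M c) := by
    rw [map_sub]; ring
  have : Q.v (algebraMap k M (c - c')) < 1 := by
    rw [e]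
    exact lt_of_le_of_lt (Q.v.map_sub _ _) (max_lt h' h)
  exact sub_eq_zero.1 (retls_const_eq_zero Q this)

/-- the coefficients of `∏ (X - u i)` lie in every subring containing the `u i` -/
theorem retls_coeff_prod_mem {R : Type*} [CommRing R] (S : Subring R) {ι : Type*} (s : Finset ι)
    (u : ι → R) (hu : ∀ i ∈ s, u i ∈ S) (n : ℕ) : (∏ i ∈ s, (X - C (u i))).coeff n ∈ S := by
  have h : (∏ i ∈ s, (X - C (u i))) ∈ Polynomial.lifts S.subtype := by
    refine Subsemiring.prod_mem _ fun i hi => ?_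
    rw [Polynomial.lifts_iff_coeff_lifts]
    intro n
    refine ⟨⟨(X - C (u i)).coeff n, ?_⟩, rfl⟩
    rw [coeff_sub, coeff_X, coeff_C]
    refine S.sub_mem ?_ ?_
    · split_ifs
      · exact S.one_mem
      · exact S.zero_mem
    · split_ifs
      · exact hu i hi
      · exact S.zero_mem
  obtain ⟨z, hz⟩ := (Polynomial.lifts_iff_coeff_lifts _).1 h n
  rw [← hz]
  exact z.2

end Val

section Den

variable {KK : Type} [Field KK] [Algebra ℂ KK] [Algebra ℂ[X] KK] [IsScalarTower ℂ ℂ[X] KK]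
  [IsFractionRing ℂ[X] KK]

omit [IsFractionRing ℂ[X] KK] in
theorem retls_algebraMap_eq_aeval (p : ℂ[X]) : algebraMap ℂ[X] KK p = aeval (retX KK) p := by
  rw [retX, aeval_algebraMap_apply, aeval_X_left_apply]

omit [IsFractionRing ℂ[X] KK] in
theorem retls_v_poly_lt_iff {Q₀ : Place ℂ KK} {a : ℂ} (h₀ : Q₀.IsAt (retX KK) a) (p : ℂ[X]) :
    Q₀.v (algebraMap ℂ[X] KK p) < 1 ↔ p.eval a = 0 := by
  have h1 := retls_v_aeval_sub_lt Q₀ h₀ p
  rw [← retls_algebraMap_eq_aeval] at h1
  constructor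
  · intro h
    apply retls_const_eq_zero Q₀
    have e : algebraMap ℂ KK (p.eval a)
        = algebraMap ℂ[X] KK p - (algebraMap ℂ[X] KK p - algebraMap ℂ KK (p.eval a)) := by ring
    rw [e]
    exact lt_of_le_of_lt (Q₀.v.map_sub _ _) (max_lt h h1)
  · intro h
    rwa [h, map_zero, sub_zero] at h1

/-- an element regular at `a` has a denominator which does not vanish at `a` -/
theorem retls_exists_den {Q₀ : Place ℂ KK} {a : ℂ} (h₀ : Q₀.IsAt (retX KK) a) {f : KK}
    (hf : Q₀.v f ≤ 1) : ∃ q p : ℂ[X], q.eval a ≠ 0 ∧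
      algebraMap ℂ[X] KK q * f = algebraMap ℂ[X] KK p := by
  have hden : algebraMap ℂ[X] KK (IsFractionRing.den ℂ[X] f : ℂ[X]) ≠ 0 := by
    rw [Ne, map_eq_zero_iff _ (IsFractionRing.injective ℂ[X] KK)]
    exact nonZeroDivisors.ne_zero (IsFractionRing.den ℂ[X] f).2
  have hmul : algebraMap ℂ[X] KK (IsFractionRing.den ℂ[X] f : ℂ[X]) * f
      = algebraMap ℂ[X] KK (IsFractionRing.num ℂ[X] f) := by
    have := IsFractionRing.mk'_num_den' ℂ[X] f
    rw [div_eq_iff hden] at this
    rw [this, mul_comm]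
  refine ⟨IsFractionRing.den ℂ[X] f, IsFractionRing.num ℂ[X] f, fun h => ?_, hmul⟩
  have h1 : Q₀.v (algebraMap ℂ[X] KK (IsFractionRing.num ℂ[X] f)) < 1 := by
    rw [← hmul, map_mul, mul_comm]
    exact retls_mul_lt_one hf ((retls_v_poly_lt_iff h₀ _).2 h)
  have h2 := (retls_v_poly_lt_iff h₀ _).1 h1
  have h3 := IsFractionRing.num_den_reduced ℂ[X] f (dvd_iff_isRoot.2 h2) (dvd_iff_isRoot.2 h)
  exact not_isUnit_X_sub_C a h3

theorem retls_exists_common_den {Q₀ : Place ℂ KK} {a : ℂ} (h₀ : Q₀.IsAt (retX KK) a) {ι : Type*}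
    (s : Finset ι) (f : ι → KK) (hf : ∀ i ∈ s, Q₀.v (f i) ≤ 1) :
    ∃ d : ℂ[X], d.eval a ≠ 0 ∧ ∀ i ∈ s, ∃ p : ℂ[X],
      algebraMap ℂ[X] KK d * f i = algebraMap ℂ[X] KK p := by
  classical
  induction s using Finset.induction_on with
  | empty => exact ⟨1, by simp, by simp⟩
  | insert b s hb ih =>
    obtain ⟨d, hd, hd'⟩ := ih fun i hi => hf i (Finset.mem_insert_of_mem hi)
    obtain ⟨q, p, hq, hqp⟩ := retls_exists_den h₀ (hf b (Finset.mem_insert_self _ _))
    refine ⟨q * d, by rw [eval_mul]; exact mul_ne_zero hq hd, fun i hi => ?_⟩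
    rcases Finset.mem_insert.1 hi with rfl | hi
    · exact ⟨d * p, by rw [map_mul, map_mul, ← hqp]; ring⟩
    · obtain ⟨p', hp'⟩ := hd' i hi
      exact ⟨q * p', by rw [map_mul, map_mul, ← hp']; ring⟩

/-- a monic polynomial over `KK` with coefficients regular at `a` becomes, after scaling the roots by a polynomial `d`, `d a ≠ 0`,
a polynomial over `ℂ[X]` -/
theorem retls_exists_lift {Q₀ : Place ℂ KK} {a : ℂ} (h₀ : Q₀.IsAt (retX KK) a) {M₀ : KK[X]}
    (hM : M₀.Monic) (hreg : ∀ i, Q₀.v (M₀.coeff i) ≤ 1) :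
    ∃ (d : ℂ[X]) (F : ℂ[X][X]), d.eval a ≠ 0 ∧ F.Monic ∧
      F.map (algebraMap ℂ[X] KK) = M₀.scaleRoots (algebraMap ℂ[X] KK d) := by
  obtain ⟨d, hd, hd'⟩ := retls_exists_common_den h₀ (Finset.range M₀.natDegree) M₀.coeff
    fun i _ => hreg i
  have hl : M₀.scaleRoots (algebraMap ℂ[X] KK d) ∈ Polynomial.lifts (algebraMap ℂ[X] KK) := by
    rw [Polynomial.lifts_iff_coeff_lifts]
    intro i
    rw [coeff_scaleRoots]
    rcases lt_trichotomy i M₀.natDegree with hi | hi | hi
    · obtain ⟨p, hp⟩ := hd' i (Finset.mem_range.2 hi)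
      refine ⟨p * d ^ (M₀.natDegree - i - 1), ?_⟩
      have e : M₀.natDegree - i = (M₀.natDegree - i - 1) + 1 := by omega
      rw [map_mul, map_pow, ← hp]
      conv_rhs => rw [e, pow_succ]
      ring
    · refine ⟨1, ?_⟩
      rw [hi, hM.coeff_natDegree]
      simp
    · refine ⟨0, ?_⟩
      rw [coeff_eq_zero_of_natDegree_lt hi]
      simp
  obtain ⟨F, hF, -, hFm⟩ := lifts_and_natDegree_eq_and_monic hl
    ((monic_scaleRoots_iff _).2 hM)
  exact ⟨d, F, hd, hFm, hF⟩

end Den

variable {KK E : Type} [Field KK] [Field E] [Algebra ℂ KK] [Algebra ℂ[X] KK] [IsScalarTower ℂ ℂ[X] KK]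
  [IsFractionRing ℂ[X] KK] [Algebra KK E] [Algebra ℂ[X] E] [IsScalarTower ℂ[X] KK E] [Algebra ℂ E]
  [IsScalarTower ℂ KK E] [IsAlgClosure KK E]


/-- the decomposition group of a place of the unramified normal layer `L` is trivial -/
theorem retls_stab_trivial (L : IntermediateField KK E) [FiniteDimensional KK L] [Normal KK L]
    (hL : ∀ (g : E ≃ₐ[KK] E), ∀ y ∈ L, g y ∈ L) {Q₀ : Place ℂ KK}
    (hun : ∀ V : ValuationSubring E, Q₀.Above E V → ∀ g : E ≃ₐ[KK] E, g • V = V →
      ∀ z ∈ L, g z = z)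
    {V : ValuationSubring E} (hV : Q₀.Above E V) {Q : Place ℂ L} (hQV : Q.Above E V)
    {g : L ≃ₐ[KK] L} (hg : Q.smulAut g = Q) : g = 1 := by
  have : Normal KK E := IsAlgClosure.normal KK E
  obtain ⟨g₀, rfl⟩ := AlgEquiv.restrictNormalHom_surjective E g
  have hcomm : ∀ z : L, ((AlgEquiv.restrictNormalHom L g₀ z : L) : E) = g₀ (z : E) := fun z =>
    AlgEquiv.restrictNormal_commutes g₀ L z
  have hv : ∀ z : L, Q.v (AlgEquiv.restrictNormalHom L g₀ z) = Q.v z := by
    intro z
    conv_lhs => rw [← hg]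
    rw [Place.smulAut_v_apply, AlgEquiv.symm_apply_apply]
  obtain ⟨g', hg'V, hg'⟩ := ret_lift_decomp L hL hV g₀ (by
    intro y hy
    have h1 := hQV.mem_iff ⟨y, hy⟩
    have h2 := hQV.mem_iff (AlgEquiv.restrictNormalHom L g₀ ⟨y, hy⟩)
    have e2 : algebraMap L E (AlgEquiv.restrictNormalHom L g₀ ⟨y, hy⟩) = g₀ y := hcomm ⟨y, hy⟩
    have e1 : algebraMap L E ⟨y, hy⟩ = y := rfl
    rw [e1] at h1
    rw [e2, hv] at h2
    rw [h1, h2])
  ext z
  rw [hcomm, ← hg' z z.2, hun V hV g' hg'V z z.2]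
  rfl


section Approx

variable {k M Y : Type*} [Field k] [Field M] [Field Y] [Algebra k M] [Algebra k Y] [Algebra M Y]
  [IsScalarTower k M Y]

theorem retls_smulAut_smulAut (g h : Y ≃ₐ[M] Y) (Q : Place k Y) :
    (Q.smulAut g).smulAut h = Q.smulAut (h * g) := by
  apply Place.ext
  ext y
  rw [Place.smulAut_v_apply, Place.smulAut_v_apply, Place.smulAut_v_apply]
  rfl

theorem retls_smulAut_one (Q : Place k Y) : Q.smulAut (1 : Y ≃ₐ[M] Y) = Q := by
  apply Place.ext
  ext y
  rw [Place.smulAut_v_apply]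
  rfl

theorem retls_smulAut_injective {Q : Place k Y}
    (hstab : ∀ g : Y ≃ₐ[M] Y, Q.smulAut g = Q → g = 1) :
    Function.Injective fun g : Y ≃ₐ[M] Y => Q.smulAut g := by
  intro g h hgh
  have h1 : Q.smulAut (h⁻¹ * g) = Q := by
    rw [← retls_smulAut_smulAut, show Q.smulAut g = Q.smulAut h from hgh, retls_smulAut_smulAut,
      inv_mul_cancel, retls_smulAut_one]
  have h2 := hstab _ h1
  rw [inv_mul_eq_one] at h2
  exact h2.symm

/-- an element whose conjugates have pairwise distinct constant residues at `Q` -/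
theorem retls_exists_eta [Infinite k] [Finite (Y ≃ₐ[M] Y)] {Q : Place k Y}
    (hstab : ∀ g : Y ≃ₐ[M] Y, Q.smulAut g = Q → g = 1) :
    ∃ (η : Y) (c : (Y ≃ₐ[M] Y) → k), Function.Injective c ∧
      ∀ g : Y ≃ₐ[M] Y, Q.v (g η - algebraMap k Y (c g)) < 1 := by
  classical
  cases nonempty_fintype (Y ≃ₐ[M] Y)
  have hinj := retls_smulAut_injective hstab
  obtain ⟨c⟩ : Nonempty ((Y ≃ₐ[M] Y) ↪ k) :=
    ⟨(Fintype.equivFin (Y ≃ₐ[M] Y)).toEmbedding.trans
      (Fin.valEmbedding.trans (Infinite.natEmbedding k))⟩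
  obtain ⟨η, hη⟩ := weak_approx (Finset.univ.image fun g : Y ≃ₐ[M] Y => Q.smulAut g)
    (fun P => algebraMap k Y (if h : ∃ g : Y ≃ₐ[M] Y, Q.smulAut g = P then c h.choose else 0)) 1
  refine ⟨η, fun g => c g⁻¹, fun g h hgh => inv_injective (c.injective hgh), fun g => ?_⟩
  have h1 := hη (Q.smulAut g⁻¹) (Finset.mem_image_of_mem _ (Finset.mem_univ _))
  have hex : ∃ g' : Y ≃ₐ[M] Y, Q.smulAut g' = Q.smulAut g⁻¹ := ⟨_, rfl⟩
  have hch : hex.choose = g⁻¹ := hinj hex.choose_spec
  rw [dif_pos hex, hch, Place.smulAut_v_apply, map_sub] at h1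
  have e1 : (g⁻¹ : Y ≃ₐ[M] Y).symm η = g η := rfl
  have e2 : (g⁻¹ : Y ≃ₐ[M] Y).symm (algebraMap k Y (c g⁻¹)) = algebraMap k Y (c g⁻¹) := by
    rw [IsScalarTower.algebraMap_apply k M Y, AlgEquiv.commutes]
  rw [e1, e2] at h1
  exact lt_of_le_of_lt h1 (exp_lt_exp.2 (by norm_num : (-1 : ℤ) < 0))

end Approx

/-- the model polynomial: a monic `F` over `ℂ[X]` with `F(a, T)` separable whose roots generate a field containing the unramified layer `L` -/
theorem retls_exists_poly (L : IntermediateField KK E) [FiniteDimensional KK L]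
    (hL : ∀ (g : E ≃ₐ[KK] E), ∀ y ∈ L, g y ∈ L) {a : ℂ} {Q₀ : Place ℂ KK}
    (h₀ : Q₀.IsAt (retX KK) a)
    (hun : ∀ V : ValuationSubring E, Q₀.Above E V → ∀ g : E ≃ₐ[KK] E, g • V = V →
      ∀ z ∈ L, g z = z) :
    ∃ F : ℂ[X][X], F.Monic ∧ (F.map (evalRingHom a)).Separable ∧
      L ≤ IntermediateField.adjoin KK {z : E | aeval z F = 0} := by
  classical
  have : CharZero KK := charZero_of_injective_algebraMap (algebraMap ℂ KK).injective
  have : IsGalois KK E := IsAlgClosure.isGalois KK E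
  have : IsFF ℂ KK := ret_isFF_KK KK
  have hnorm : Normal KK L := by
    rw [IntermediateField.normal_iff_forall_map_le']
    rintro σ _ ⟨z, hz, rfl⟩
    exact hL σ z hz
  have : IsGalois KK L := ⟨⟩
  have : IsFF ℂ L := isFF_of_finite ℂ KK L
  obtain ⟨V, hV⟩ := Place.exists_above E Q₀
  obtain ⟨Q, hQV, hQ⟩ := Place.exists_mid (E := E) L hV
  have hstab : ∀ g : L ≃ₐ[KK] L, Q.smulAut g = Q → g = 1 := fun g hg =>
    retls_stab_trivial L hL hun hV hQV hg
  obtain ⟨η, c, hc, hη⟩ := retls_exists_eta hstab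
  obtain ⟨M₀, hM₀, -, hM₀m⟩ := lifts_and_natDegree_eq_and_monic
    (Algebra.IsInvariant.charpoly_mem_lifts KK L (L ≃ₐ[KK] L) η)
    (MulSemiringAction.monic_charpoly (L ≃ₐ[KK] L) η)
  have hvη : ∀ g : L ≃ₐ[KK] L, Q.v (g η) ≤ 1 := fun g => retls_v_le_one_of_sub Q (hη g)
  have hreg : ∀ i, Q₀.v (M₀.coeff i) ≤ 1 := by
    intro i
    rw [← hQ.v_le_one_iff, ← coeff_map, hM₀, MulSemiringAction.charpoly_eq]
    exact retls_coeff_prod_mem Q.O.toSubring Finset.univ (fun g : L ≃ₐ[KK] L => g • η)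
      (fun g _ => hvη g) i
  obtain ⟨d, F, hd, hFm, hF⟩ := retls_exists_lift h₀ hM₀m hreg
  set δ : L := algebraMap KK L (algebraMap ℂ[X] KK d) with hδ
  have hd0 : d ≠ 0 := by
    rintro rfl
    simp at hd
  have hδ0 : δ ≠ 0 := by
    rw [hδ, Ne, map_eq_zero, map_eq_zero_iff _ (IsFractionRing.injective ℂ[X] KK)]
    exact hd0
  set φ : ℂ[X] →+* L := (algebraMap KK L).comp (algebraMap ℂ[X] KK) with hφ
  have hFφ : F.map φ = (MulSemiringAction.charpoly (L ≃ₐ[KK] L) η).scaleRoots δ := by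
    rw [hφ, ← Polynomial.map_map, hF, ← hM₀, Polynomial.map_scaleRoots]
    rw [hM₀m.leadingCoeff, map_one]
    exact one_ne_zero
  have hev : ∀ u : L, (F.map φ).eval (δ * u)
      = δ ^ (MulSemiringAction.charpoly (L ≃ₐ[KK] L) η).natDegree *
        (MulSemiringAction.charpoly (L ≃ₐ[KK] L) η).eval u := by
    intro u
    rw [hFφ]
    have := scaleRoots_eval₂_mul (p := MulSemiringAction.charpoly (L ≃ₐ[KK] L) η) (RingHom.id L) u δ
    simpa [eval₂_id] using this
  have hev2 : ∀ τ : L, (F.map φ).eval τ = ∏ g : L ≃ₐ[KK] L, (τ - δ * g η) := by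
    intro τ
    have e : τ = δ * (τ / δ) := by field_simp
    conv_lhs => rw [e]
    rw [hev, MulSemiringAction.charpoly_eq, natDegree_finsetProd_X_sub_C_eq_card, eval_prod,
      ← Finset.prod_const, ← Finset.prod_mul_distrib]
    refine Finset.prod_congr rfl fun g _ => ?_
    rw [eval_sub, eval_X, eval_C, AlgEquiv.smul_def]
    field_simp
  set xL : L := algebraMap KK L (retX KK) with hxL
  have hxa : Q.v (xL - algebraMap ℂ L a) < 1 := by
    have e : xL - algebraMap ℂ L a = algebraMap KK L (retX KK - algebraMap ℂ KK a) := by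
      rw [map_sub, ← IsScalarTower.algebraMap_apply]
    rw [e, hQ.v_lt_one_iff]
    exact h₀
  have hφa : ∀ p : ℂ[X], φ p = aeval xL p := by
    intro p
    rw [hφ, RingHom.comp_apply, retls_algebraMap_eq_aeval, hxL, aeval_algebraMap_apply]
  have hδa : Q.v (δ - algebraMap ℂ L (d.eval a)) < 1 := by
    have e : δ = φ d := rfl
    rw [e, hφa]
    exact retls_v_aeval_sub_lt Q hxa d
  have hsep : F.map (evalRingHom a) = ∏ g : L ≃ₐ[KK] L, (X - C (d.eval a * c g)) := by
    apply Polynomial.funext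
    intro t
    have h1 : (F.map (evalRingHom a)).eval t = (F.eval (C t)).eval a := by
      have := eval₂_at_apply (p := F) (evalRingHom a) (C t)
      rw [← eval_map] at this
      simpa using this
    have h2 : φ (F.eval (C t)) = ∏ g : L ≃ₐ[KK] L, (algebraMap ℂ L t - δ * g η) := by
      rw [← hev2, eval_map, ← eval₂_at_apply]
      congr 1
      rw [hφa, aeval_C]
    rw [h1, eval_prod]
    simp only [eval_sub, eval_X, eval_C]
    apply retls_const_eq Q (u := φ (F.eval (C t)))
    · rw [hφa]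
      exact retls_v_aeval_sub_lt Q hxa _
    · rw [h2, map_prod]
      apply retls_v_prod_sub_lt
      · intro g _
        refine (Q.v.map_sub _ _).trans (max_le (Q.algebraMap_mem t) ?_)
        rw [map_mul]
        exact mul_le_one' (retls_v_le_one_of_sub Q hδa) (hvη g)
      · intro g _
        exact Q.algebraMap_mem _
      · intro g _
        have e : algebraMap ℂ L t - δ * g η - algebraMap ℂ L (t - d.eval a * c g)
            = - ((δ - algebraMap ℂ L (d.eval a)) * g η
              + algebraMap ℂ L (d.eval a) * (g η - algebraMap ℂ L (c g))) := by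
          rw [map_sub, map_mul]; ring
        rw [e, Valuation.map_neg]
        refine lt_of_le_of_lt (Q.v.map_add _ _) (max_lt ?_ ?_)
        · rw [map_mul, mul_comm]
          exact retls_mul_lt_one (hvη g) hδa
        · rw [map_mul]
          exact retls_mul_lt_one (Q.algebraMap_mem _) (hη g)
  refine ⟨F, hFm, ?_, ?_⟩
  · rw [hsep, separable_prod_X_sub_C_iff]
    intro g h hgh
    exact hc (mul_left_cancel₀ hd hgh)
  · have hroot : aeval ((δ * η : L) : E) F = 0 := by
      have h1 : (F.map φ).eval (δ * η) = 0 := by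
        rw [hev, MulSemiringAction.eval_charpoly, mul_zero]
      rw [eval_map] at h1
      have h2 := congrArg (algebraMap L E) h1
      rw [hom_eval₂, map_zero] at h2
      have e : (algebraMap L E).comp φ = algebraMap ℂ[X] E := by
        apply RingHom.ext
        intro p
        rw [hφ, RingHom.comp_apply, RingHom.comp_apply, ← IsScalarTower.algebraMap_apply KK L E,
          ← IsScalarTower.algebraMap_apply ℂ[X] KK E]
      rw [e] at h2
      exact h2
    intro z hz
    have hle : IntermediateField.adjoin KK {((δ * η : L) : E)}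
        ≤ IntermediateField.adjoin KK {z : E | aeval z F = 0} :=
      IntermediateField.adjoin.mono _ _ _ (by simpa using hroot)
    apply hle
    rw [← InfiniteGalois.fixedField_fixingSubgroup (IntermediateField.adjoin KK {((δ * η : L) : E)}),
      IntermediateField.mem_fixedField_iff]
    intro σ hσ
    have hσ' : σ ((δ * η : L) : E) = ((δ * η : L) : E) :=
      (IntermediateField.mem_fixingSubgroup_iff _ σ).1 hσ _
        (IntermediateField.mem_adjoin_simple_self KK _)
    have hcomm : ∀ z : L, ((AlgEquiv.restrictNormalHom L σ z : L) : E) = σ (z : E) := fun z =>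
      AlgEquiv.restrictNormal_commutes σ L z
    have h1 : AlgEquiv.restrictNormalHom L σ (δ * η) = δ * η := by
      apply Subtype.ext
      rw [hcomm, hσ']
    rw [map_mul, hδ, AlgEquiv.commutes, ← hδ] at h1
    have h2 : AlgEquiv.restrictNormalHom L σ η = η := mul_left_cancel₀ hδ0 h1
    have h3 : AlgEquiv.restrictNormalHom L σ = 1 := by
      apply hc
      have h4 := hη (AlgEquiv.restrictNormalHom L σ)
      rw [h2] at h4
      exact retls_const_eq Q h4 (hη 1)
    have h5 := hcomm ⟨z, hz⟩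
    rw [h3] at h5
    exact h5.symm

section Adj
variable {K E : Type*} [Field K] [Field E] [Algebra K E]

theorem retls_adjoin_stable {S : Set E} {g : E ≃ₐ[K] E} (hS : ∀ z ∈ S, g z ∈ S) :
    ∀ z ∈ IntermediateField.adjoin K S, g z ∈ IntermediateField.adjoin K S := by
  intro z hz
  induction hz using IntermediateField.adjoin_induction with
  | mem x hx => exact IntermediateField.subset_adjoin K S (hS x hx)
  | algebraMap x => rw [AlgEquiv.commutes]; exact IntermediateField.algebraMap_mem _ x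
  | add x y _ _ hx hy => rw [map_add]; exact add_mem hx hy
  | inv x _ hx => rw [map_inv₀]; exact inv_mem hx
  | mul x y _ _ hx hy => rw [map_mul]; exact mul_mem hx hy

theorem retls_adjoin_fixed {S : Set E} {g : E ≃ₐ[K] E} (hS : ∀ z ∈ S, g z = z) :
    ∀ z ∈ IntermediateField.adjoin K S, g z = z := by
  intro z hz
  induction hz using IntermediateField.adjoin_induction with
  | mem x hx => exact hS x hx
  | algebraMap x => rw [AlgEquiv.commutes]
  | add x y _ _ hx hy => rw [map_add, hx, hy]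
  | inv x _ hx => rw [map_inv₀, hx]
  | mul x y _ _ hx hy => rw [map_mul, hx, hy]

end Adj

theorem retls_minpoly_scale {K E : Type*} [Field K] [Field E] [Algebra K E] {y : E}
    (hy : IsIntegral K y) {c : K} (hc : c ≠ 0) :
    minpoly K (algebraMap K E c * y) = (minpoly K y).scaleRoots c := by
  symm
  apply minpoly.unique
  · exact (monic_scaleRoots_iff c).2 (minpoly.monic hy)
  · exact scaleRoots_aeval_eq_zero (minpoly.aeval K y)
  · intro q hq hq0
    rw [degree_scaleRoots]
    have h1 : aeval y (q.scaleRoots c⁻¹) = 0 := by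
      have := scaleRoots_aeval_eq_zero (r := c⁻¹) hq0
      rwa [← mul_assoc, ← map_mul, inv_mul_cancel₀ hc, map_one, one_mul] at this
    have := minpoly.min K y ((monic_scaleRoots_iff c⁻¹).2 hq) h1
    rwa [degree_scaleRoots] at this

theorem retls_aeval_reflect {A : Type*} [Field A] [Algebra ℂ A] {x : A} (hx : x ≠ 0) (p : ℂ[X])
    {K : ℕ} (hK : p.natDegree ≤ K) : aeval x⁻¹ (reflect K p) * x ^ K = aeval x p := by
  let := invertibleOfNonzero hx
  have := eval₂_reflect_mul_pow (algebraMap ℂ A) x K p hK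
  rwa [invOf_eq_inv] at this

theorem retls_mem_retExt {ε : ℝ} (hε : 0 < ε) {z : ℂ} (hz : z ∈ retExt ε⁻¹) :
    z ≠ 0 ∧ z⁻¹ ∈ Metric.ball (0 : ℂ) ε := by
  have h1 : ε⁻¹ < ‖z‖ := by
    rcases hz with h | h
    · exact lt_of_lt_of_le h (Complex.abs_re_le_norm z)
    · exact lt_of_lt_of_le h (Complex.abs_im_le_norm z)
  have h2 : 0 < ‖z‖ := lt_trans (inv_pos.2 hε) h1
  refine ⟨norm_pos_iff.1 h2, ?_⟩
  rw [mem_ball_zero_iff, norm_inv]
  exact inv_lt_of_inv_lt₀ hε h1

/-- substitution `z ↦ 1/z` -/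
theorem retls_hsplits_inv {P F' : ℂ[X][X]} (hPm : P.Monic) (N : ℕ)
    (hdeg : F'.natDegree = P.natDegree)
    (hcoeff : ∀ j, F'.coeff j = reflect (N * (P.natDegree - j)) (P.coeff j))
    (hN : ∀ j, (P.coeff j).natDegree ≤ N * (P.natDegree - j))
    {ε : ℝ} (hε : 0 < ε) (h : RetHSplits F' (Metric.ball 0 ε)) : RetHSplits P (retExt ε⁻¹) := by
  obtain ⟨θ', hθ', hs⟩ := h
  refine ⟨fun i z => z ^ N * θ' (Fin.cast hdeg.symm i) z⁻¹, fun i => ?_, fun z hz => ?_⟩
  · refine (differentiableOn_id.pow N).mul ((hθ' _).comp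
      (differentiableOn_id.inv fun z hz => (retls_mem_retExt hε hz).1)
      fun z hz => (retls_mem_retExt hε hz).2)
  · obtain ⟨hz0, hzb⟩ := retls_mem_retExt hε hz
    have hζ0 : z⁻¹ ≠ 0 := inv_ne_zero hz0
    have h1 : F'.map (evalRingHom z⁻¹) = (P.map (evalRingHom z)).scaleRoots (z⁻¹ ^ N) := by
      ext j
      rw [coeff_map, hcoeff, coeff_scaleRoots, hPm.natDegree_map, coeff_map, coe_evalRingHom,
        coe_evalRingHom]
      have := retls_aeval_reflect hz0 (P.coeff j) (hN j)
      rw [coe_aeval_eq_eval, coe_aeval_eq_eval] at this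
      rw [← this, ← pow_mul, mul_assoc, ← mul_pow, mul_inv_cancel₀ hz0, one_pow, mul_one]
    apply Polynomial.funext
    intro t
    have h2 := scaleRoots_eval₂_mul (p := P.map (evalRingHom z)) (RingHom.id ℂ) t (z⁻¹ ^ N)
    rw [← h1, hs _ hzb, hPm.natDegree_map] at h2
    simp only [eval₂_id, RingHom.id_apply, eval_prod, eval_sub, eval_X, eval_C] at h2
    have h3 : (z⁻¹ ^ N) ^ P.natDegree ≠ 0 := pow_ne_zero _ (pow_ne_zero _ hζ0)
    apply mul_left_cancel₀ h3
    rw [← h2, eval_prod]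
    simp only [eval_sub, eval_X, eval_C]
    rw [← (finCongr hdeg.symm).prod_comp]
    have h4 : (z⁻¹ ^ N) ^ P.natDegree = ∏ _i : Fin P.natDegree, z⁻¹ ^ N := by
      rw [Finset.prod_const, Finset.card_univ, Fintype.card_fin]
    rw [h4, ← Finset.prod_mul_distrib]
    refine Finset.prod_congr rfl fun i _ => ?_
    rw [finCongr_apply, mul_sub, ← mul_assoc, ← mul_pow, inv_mul_cancel₀ hz0, one_pow, one_mul]

end Claimed.Agent.R280
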