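import Claimed.Agent.R280.RET.Braid

/-!
# Row 280, package RETR (~800 lines): places of `ℂ(x)`, Möbius changes of the generator; `StRetSorted → StRetP1`

PROVED (helper288; RETR1 by route A: `sum_ord_mul_deg_le`, `exists_place_lt_one`, `exists_place_one_lt`, `Place.finite_res` of package FF).
* RETR1 (~500 lines): `IsRatGen.isFF`, `exists_isAt`, `isAt_unique`, `exists_isAtInf`, `isAtInf_unique`, `isAtInf_or_isAt`,
  `v_sub_eq`, `v_eq_of_isAtInf`  (`M ≃ RatFunc ℂ`/`FractionRing ℂ[X]`; a place of `ℂ(x)` with `v x ≤ 1` has centre a prime `(X - b)` of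
  `ℂ[X]`, and `v` is the `(X - b)`-adic valuation because it is normalised; or use FF1/FF2: `sum_zeros` gives
  `∑ max (ord_P (x - b)) 0 · deg P = [M : ℂ(x - b)] = 1`, which yields uniqueness and `v_sub_eq` at once).
* RETR2 (~300 lines): Möbius changes, `exists_rotation`.
`stRetP1_of_sorted` is proved.

Owner: helper256.
-/

set_option autoImplicit false

namespace Claimed.Agent.R280

open WithZero

section

variable {M : Type} [Field M] [Algebra ℂ M] {x : M}

theorem IsRatGen.isFF (hx : IsRatGen x) : IsFF ℂ M := by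
  refine ⟨x, hx.1, ?_⟩
  rw [hx.2]
  exact Module.finite_of_finrank_pos (by rw [IntermediateField.finrank_top]; exact one_pos)

/-- two elements which generate each other: transfer of `IsRatGen` -/
theorem retr2_isRatGen_of {x y : M} (hx : IsRatGen x) (h1 : IsAlgebraic ℂ y → IsAlgebraic ℂ x)
    (h2 : x ∈ IntermediateField.adjoin ℂ {y}) : IsRatGen y := by
  refine ⟨fun h => hx.1 (h1 h), ?_⟩
  rw [eq_top_iff, ← hx.2, IntermediateField.adjoin_le_iff]
  intro z hz
  rw [Set.mem_singleton_iff] at hz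
  rw [hz]
  exact h2

theorem retr1_sub (hx : IsRatGen x) (b : ℂ) : IsRatGen (x - algebraMap ℂ M b) := by
  have e : x = (x - algebraMap ℂ M b) + algebraMap ℂ M b := (sub_add_cancel _ _).symm
  refine retr2_isRatGen_of hx (fun h => ?_) ?_
  · have h3 := h.add (isAlgebraic_algebraMap (A := M) b)
    rwa [← e] at h3
  · have h3 : (x - algebraMap ℂ M b) + algebraMap ℂ M b
        ∈ IntermediateField.adjoin ℂ {x - algebraMap ℂ M b} :=
      add_mem (IntermediateField.mem_adjoin_simple_self ℂ _) (IntermediateField.algebraMap_mem _ _)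
    rwa [← e] at h3

theorem retr1_inv (hx : IsRatGen x) : IsRatGen x⁻¹ := by
  refine retr2_isRatGen_of hx (fun h => ?_) ?_
  · have h3 := h.inv
    rwa [inv_inv] at h3
  · have h3 := inv_mem (IntermediateField.mem_adjoin_simple_self ℂ x⁻¹)
    rwa [inv_inv] at h3

theorem retr1_ne_zero (hx : IsRatGen x) : x ≠ 0 := by
  rintro rfl
  exact hx.1 isAlgebraic_zero

theorem retr1_finrank (hx : IsRatGen x) :
    Module.finrank (IntermediateField.adjoin ℂ {x}) M = 1 := by
  rw [hx.2, IntermediateField.finrank_top]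

/-- a generator has at most one zero -/
theorem retr1_zero_unique (hx : IsRatGen x) {P P' : Place ℂ M} (h : P.v x < 1) (h' : P'.v x < 1) :
    P = P' := by
  classical
  have := hx.isFF
  by_contra hne
  have h0 := retr1_ne_zero hx
  have h1 := sum_ord_mul_deg_le ({P, P'} : Finset (Place ℂ M)) h0 (by
    intro Q hQ
    rcases Finset.mem_insert.1 hQ with rfl | hQ
    · exact h
    · rw [Finset.mem_singleton.1 hQ]
      exact h')
  rw [Finset.sum_pair hne, retr1_finrank hx] at h1
  have a1 : 0 < P.ord x := (P.v_lt_one_iff h0).1 h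
  have a2 : 0 < P'.ord x := (P'.v_lt_one_iff h0).1 h'
  have d1 : (0 : ℤ) < P.deg := by exact_mod_cast P.deg_pos
  have d2 : (0 : ℤ) < P'.deg := by exact_mod_cast P'.deg_pos
  have m1 : 0 < P.ord x * (P.deg : ℤ) := mul_pos a1 d1
  have m2 : 0 < P'.ord x * (P'.deg : ℤ) := mul_pos a2 d2
  push_cast at h1
  omega

/-- the zero of a generator is simple -/
theorem retr1_zero_simple (hx : IsRatGen x) {P : Place ℂ M} (h : P.v x < 1) : P.v x = exp (-1) := by
  classical
  have := hx.isFF
  have h0 := retr1_ne_zero hx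
  have h1 := sum_ord_mul_deg_le ({P} : Finset (Place ℂ M)) h0 (by
    intro Q hQ
    rw [Finset.mem_singleton.1 hQ]
    exact h)
  rw [Finset.sum_singleton, retr1_finrank hx] at h1
  have a1 : 0 < P.ord x := (P.v_lt_one_iff h0).1 h
  have d1 : (0 : ℤ) < P.deg := by exact_mod_cast P.deg_pos
  have h2 : P.ord x = 1 := by
    have : P.ord x * 1 ≤ P.ord x * (P.deg : ℤ) := mul_le_mul_of_nonneg_left (by omega) a1.le
    push_cast at h1
    omega
  exact (P.ord_eq_iff h0 1).1 h2

theorem IsRatGen.exists_isAt (hx : IsRatGen x) (b : ℂ) : ∃ P : Place ℂ M, P.IsAt x b := by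
  have := hx.isFF
  exact exists_place_lt_one (retr1_sub hx b).1

theorem IsRatGen.isAt_unique (hx : IsRatGen x) {P P' : Place ℂ M} {b : ℂ} (h : P.IsAt x b)
    (h' : P'.IsAt x b) : P = P' := retr1_zero_unique (retr1_sub hx b) h h'

theorem IsRatGen.exists_isAtInf (hx : IsRatGen x) : ∃ P : Place ℂ M, P.IsAtInf x := by
  have := hx.isFF
  exact exists_place_one_lt hx.1

theorem retr1_inv_lt {P : Place ℂ M} (h : P.IsAtInf x) : P.v x⁻¹ < 1 := by
  rw [map_inv₀]
  exact inv_lt_one_of_one_lt₀ h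

theorem IsRatGen.isAtInf_unique (hx : IsRatGen x) {P P' : Place ℂ M} (h : P.IsAtInf x)
    (h' : P'.IsAtInf x) : P = P' :=
  retr1_zero_unique (retr1_inv hx) (retr1_inv_lt h) (retr1_inv_lt h')

theorem IsRatGen.isAtInf_or_isAt (hx : IsRatGen x) (P : Place ℂ M) :
    P.IsAtInf x ∨ ∃ b, P.IsAt x b := by
  have := hx.isFF
  by_cases h : 1 < P.v x
  · exact Or.inl h
  · right
    have hx1 : x ∈ P.O := (Valuation.mem_valuationSubring_iff _ _).2 (not_lt.1 h)
    have := P.finite_res
    have hbij := IsAlgClosed.algebraMap_bijective_of_isIntegral (k := ℂ) (K := P.Res)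
    obtain ⟨b, hb⟩ := hbij.2 (IsLocalRing.residue P.O ⟨x, hx1⟩)
    refine ⟨b, ?_⟩
    have h2 : IsLocalRing.residue P.O ⟨x, hx1⟩ = IsLocalRing.residue P.O (algebraMap ℂ P.O b) :=
      hb.symm
    exact (P.residue_eq_iff _ _).1 h2

theorem retr2_v_le_one (P : Place ℂ M) (c : ℂ) : P.v (algebraMap ℂ M c) ≤ 1 := by
  by_cases h : c = 0
  · simp [h]
  · exact (P.triv c h).le

theorem Place.IsAt.unique_pt {P : Place ℂ M} {b b' : ℂ} (h : P.IsAt x b) (h' : P.IsAt x b') :
    b = b' := by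
  by_contra hne
  have h1 : P.v (algebraMap ℂ M (b - b')) = 1 := P.triv _ (sub_ne_zero.2 hne)
  have e : algebraMap ℂ M (b - b') = (x - algebraMap ℂ M b') - (x - algebraMap ℂ M b) := by
    rw [map_sub]
    ring
  have h2 : P.v (algebraMap ℂ M (b - b')) < 1 := by
    rw [e]
    exact lt_of_le_of_lt (Valuation.map_sub _ _ _) (max_lt h' h)
  rw [h1] at h2
  exact lt_irrefl _ h2

theorem Place.IsAt.not_isAtInf {P : Place ℂ M} {b : ℂ} (h : P.IsAt x b) : ¬ P.IsAtInf x := by
  unfold Place.IsAtInf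
  rw [not_lt]
  have e : x = (x - algebraMap ℂ M b) + algebraMap ℂ M b := (sub_add_cancel _ _).symm
  rw [e]
  exact (Valuation.map_add _ _ _).trans (max_le (le_of_lt h) (retr2_v_le_one P b))

/-- `x - b` is a uniformiser at the place `x = b` -/
theorem IsRatGen.v_sub_eq (hx : IsRatGen x) {P : Place ℂ M} {b : ℂ} (h : P.IsAt x b) :
    P.v (x - algebraMap ℂ M b) = exp (-1) := retr1_zero_simple (retr1_sub hx b) h

/-- `1/x` is a uniformiser at `∞` -/
theorem IsRatGen.v_eq_of_isAtInf (hx : IsRatGen x) {P : Place ℂ M} (h : P.IsAtInf x) :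
    P.v x = exp 1 := by
  have h1 := retr1_zero_simple (retr1_inv hx) (retr1_inv_lt h)
  rw [map_inv₀, inv_eq_iff_eq_inv, ← WithZero.exp_neg, neg_neg] at h1
  exact h1


/-! ### Möbius changes of the generator -/

theorem IsRatGen.smul (hx : IsRatGen x) {c : ℂ} (hc : c ≠ 0) :
    IsRatGen (algebraMap ℂ M c * x) := by
  have hc' : algebraMap ℂ M c ≠ 0 := by
    rw [Ne, map_eq_zero]
    exact hc
  have e : x = algebraMap ℂ M c⁻¹ * (algebraMap ℂ M c * x) := by
    rw [← mul_assoc, ← map_mul, inv_mul_cancel₀ hc, map_one, one_mul]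
  refine retr2_isRatGen_of hx (fun h => ?_) ?_
  · have h3 := (isAlgebraic_algebraMap (A := M) c⁻¹).mul h
    rwa [← e] at h3
  · have h3 : algebraMap ℂ M c⁻¹ * (algebraMap ℂ M c * x)
        ∈ IntermediateField.adjoin ℂ {algebraMap ℂ M c * x} :=
      mul_mem (IntermediateField.algebraMap_mem _ _) (IntermediateField.mem_adjoin_simple_self ℂ _)
    rwa [← e] at h3

theorem IsRatGen.inv_sub (hx : IsRatGen x) (c : ℂ) : IsRatGen (x - algebraMap ℂ M c)⁻¹ := by
  have e : x = ((x - algebraMap ℂ M c)⁻¹)⁻¹ + algebraMap ℂ M c := by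
    rw [inv_inv, sub_add_cancel]
  refine retr2_isRatGen_of hx (fun h => ?_) ?_
  · have h3 := h.inv.add (isAlgebraic_algebraMap (A := M) c)
    rwa [← e] at h3
  · have h3 : ((x - algebraMap ℂ M c)⁻¹)⁻¹ + algebraMap ℂ M c
        ∈ IntermediateField.adjoin ℂ {(x - algebraMap ℂ M c)⁻¹} :=
      add_mem (inv_mem (IntermediateField.mem_adjoin_simple_self ℂ _))
        (IntermediateField.algebraMap_mem _ _)
    rwa [← e] at h3

theorem Place.IsAt.smul {P : Place ℂ M} {b : ℂ} (h : P.IsAt x b) (c : ℂ) :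
    P.IsAt (algebraMap ℂ M c * x) (c * b) := by
  unfold Place.IsAt at h ⊢
  rw [map_mul, ← mul_sub, map_mul]
  calc P.v (algebraMap ℂ M c) * P.v (x - algebraMap ℂ M b)
      ≤ 1 * P.v (x - algebraMap ℂ M b) := mul_le_mul_left (retr2_v_le_one P c) _
    _ = P.v (x - algebraMap ℂ M b) := one_mul _
    _ < 1 := h

theorem Place.IsAt.inv_sub {P : Place ℂ M} {b : ℂ} (h : P.IsAt x b) {c : ℂ} (hbc : b ≠ c) :
    P.IsAt (x - algebraMap ℂ M c)⁻¹ (b - c)⁻¹ := by
  unfold Place.IsAt at h ⊢
  have hbc' : b - c ≠ 0 := sub_ne_zero.2 hbc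
  have h1 : P.v (algebraMap ℂ M (b - c)) = 1 := P.triv _ hbc'
  have h2 : P.v (x - algebraMap ℂ M c) = 1 := by
    have e : x - algebraMap ℂ M c = (x - algebraMap ℂ M b) + algebraMap ℂ M (b - c) := by
      rw [map_sub]
      ring
    rw [e, Valuation.map_add_eq_of_lt_right _ (by rw [h1]; exact h), h1]
  have h3 : x - algebraMap ℂ M c ≠ 0 := by
    intro h0
    rw [h0, map_zero] at h2
    exact zero_ne_one h2
  have h4 : algebraMap ℂ M (b - c) ≠ 0 := by
    rw [Ne, map_eq_zero]
    exact hbc'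
  have e : (x - algebraMap ℂ M c)⁻¹ - algebraMap ℂ M (b - c)⁻¹
      = -(x - algebraMap ℂ M b) * ((x - algebraMap ℂ M c)⁻¹ * (algebraMap ℂ M (b - c))⁻¹) := by
    rw [map_inv₀]
    field_simp
    rw [map_sub]
    ring
  rw [e, map_mul, map_mul, map_inv₀, map_inv₀, h1, h2, Valuation.map_neg]
  simpa using h

theorem Place.IsAtInf.inv_sub {P : Place ℂ M} (h : P.IsAtInf x) (c : ℂ) :
    P.IsAt (x - algebraMap ℂ M c)⁻¹ 0 := by
  unfold Place.IsAtInf at h
  unfold Place.IsAt
  have h2 : P.v (x - algebraMap ℂ M c) = P.v x := by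
    rw [sub_eq_add_neg]
    refine Valuation.map_add_eq_of_lt_left _ ?_
    rw [Valuation.map_neg]
    exact lt_of_le_of_lt (retr2_v_le_one P c) h
  rw [map_zero, sub_zero, map_inv₀, h2]
  exact inv_lt_one_of_one_lt₀ h

end

/-- after a rotation, finitely many points have pairwise distinct real parts -/
theorem exists_rotation (S : Finset ℂ) :
    ∃ c : ℂ, c ≠ 0 ∧ Set.InjOn (fun b : ℂ => (c * b).re) (S : Set ℂ) := by
  classical
  obtain ⟨s, hs⟩ := Infinite.exists_notMem_finset
    ((S ×ˢ S).image fun p : ℂ × ℂ => (p.1.re - p.2.re) / (p.1.im - p.2.im))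
  refine ⟨⟨1, s⟩, ?_, ?_⟩
  · intro h
    have := congrArg Complex.re h
    simp at this
  · intro b hb b' hb' hbb
    simp only [Complex.mul_re] at hbb
    by_contra hne
    by_cases him : b.im = b'.im
    · apply hne
      apply Complex.ext _ him
      rw [him] at hbb
      linarith
    · apply hs
      rw [Finset.mem_image]
      refine ⟨(b, b'), Finset.mem_product.2 ⟨hb, hb'⟩, ?_⟩
      have h0 : b.im - b'.im ≠ 0 := sub_ne_zero.2 him
      simp only
      rw [div_eq_iff h0]
      linarith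

/-- **glue**: the sorted form of RET for the line implies the general form -/
theorem stRetP1_of_sorted (h : StRetSorted) : StRetP1 := by
  intro M E _ _ _ _ _ x hx r P hP
  have := hx.isFF
  have hfin : {b : ℂ | ∃ k, (P k).IsAt x b}.Finite := by
    have : {b : ℂ | ∃ k, (P k).IsAt x b} = ⋃ k, {b : ℂ | (P k).IsAt x b} := by
      ext b; simp
    rw [this]
    exact Set.finite_iUnion fun k =>
      Set.Subsingleton.finite fun b hb b' hb' => Place.IsAt.unique_pt hb hb'
  obtain ⟨c, hc⟩ := hfin.exists_notMem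
  have hx1 : IsRatGen (x - algebraMap ℂ M c)⁻¹ := hx.inv_sub c
  have h1 : ∀ k, ∃ b, (P k).IsAt (x - algebraMap ℂ M c)⁻¹ b := by
    intro k
    rcases hx.isAtInf_or_isAt (P k) with h | ⟨b, hb⟩
    · exact ⟨0, h.inv_sub c⟩
    · refine ⟨(b - c)⁻¹, hb.inv_sub ?_⟩
      rintro rfl
      exact hc ⟨k, hb⟩
  choose b1 hb1 using h1
  obtain ⟨l, hl0, hl⟩ := exists_rotation (Finset.univ.image b1)
  have hx2 := hx1.smul hl0
  have hb2 : ∀ k, (P k).IsAt (algebraMap ℂ M l * (x - algebraMap ℂ M c)⁻¹) (l * b1 k) :=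
    fun k => (hb1 k).smul l
  have hinj : Function.Injective fun k => (l * b1 k).re := by
    intro k k' hkk
    have hbb : b1 k = b1 k' := hl (by simp) (by simp) hkk
    exact hP (hx1.isAt_unique (hb1 k) (hbb ▸ hb1 k'))
  have hsm : StrictMono ((fun k => (l * b1 k).re) ∘ Tuple.sort fun k => (l * b1 k).re) :=
    (Tuple.monotone_sort _).strictMono_of_injective (hinj.comp (Equiv.injective _))
  obtain ⟨γ, V, hd⟩ := h M E _ hx2 r (fun k => l * b1 (Tuple.sort (fun k => (l * b1 k).re) k)) hsm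
    (P ∘ Tuple.sort fun k => (l * b1 k).re) (fun k => hb2 _)
  obtain ⟨γ', V', hd'⟩ := hd.perm (Tuple.sort fun k => (l * b1 k).re)⁻¹
  refine ⟨γ', V', ?_⟩
  have : (P ∘ Tuple.sort fun k => (l * b1 k).re) ∘
      ((Tuple.sort fun k => (l * b1 k).re)⁻¹ : Equiv.Perm (Fin r)) = P := by
    funext k; simp
  rwa [this] at hd'

end Claimed.Agent.R280
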