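import Claimed.Agent.R280.RET.Real
import Claimed.Agent.R280.RET.Rat

/-!
# Row 280, package RET / LOCAL: unramified  <=>  locally holomorphically split   (owner of the statements: helper30)

Context as in `RealDefs.lean`; `x = retX KK`.

* `retX_isRatGen` (~60 lines).
* UNRAM (~300 lines) `ret_unram_at`, `ret_unram_inf` : a finite normal `L/KK` which has ONE place of ramification index `1` over `Q₀` is fixed pointwise by all
  decomposition groups over `Q₀`  (`Place.existsUnique_below`, `isAt_unique`, `v_sub_eq` ⇒ `Q.OverE Q₀ 1`; for `V` above `Q₀` take `Q'` below `V` (`Place.exists_mid`),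
  `Q' = σ Q` (`Place.exists_smulAut_eq`), so `ramIdx = 1`, then `fixes_of_ramIdx_eq_one`).
* LOCAL (~1500 lines) `ret_local_split`, `ret_local_split_inf` : if all conjugates of the integral element `y` are fixed by the decomposition groups over the place `x = a`,
  then `minpoly ℂ[X] y` splits holomorphically near `a`.   PLAN.  `L` = normal closure of `KK(y)`, `n = [L:KK]`, `G = Gal(L/KK)`.
  (1) the decomposition groups in `G` of the places `Q | Q₀` are trivial ⇒ there are exactly `n` places `Q_1..Q_n` over `Q₀`, `e = deg = 1`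
      (`card_stabilizer_eq_ramIdx`, `Place.exists_smulAut_eq`, `sum_ramIdx_mul_deg`).
  (2) `weak_approx`: `η ∈ L` with `Q_i.v (η - c_i) < 1`, `c_i ∈ ℂ` pairwise distinct.  The coefficients of `H₀ = ∏_{g ∈ G} (T - g η) ∈ KK[T]` are regular at `a`;
      choose `d ∈ ℂ[X]`, `d(a) ≠ 0`, with `η' = d η` integral over `ℂ[X]`; `H = minpoly ℂ[X] η'` has degree `n` and `H(a,T) = ∏ (T - d(a) c_i)` is separable.
  (3) `retHSplits_of_separable` ⇒ `H` splits on a ball `W`; `L = KK(η')` is the splitting field of `H`; `ret_exists_real_of_splitting` + `RetIsReal.hsplits`.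
  At `∞`: the same with the generator `1/x` (second `ℂ[X]`-algebra structure on `KK`, `E`), then substitute `z ↦ 1/z`; a realization on the punctured disc `0 < |w| < ε`
  gives an embedding `L → Mer (retExt R)`, `R > 1/ε`; elements integral over `ℂ[x]` go to holomorphic functions.
-/

set_option autoImplicit false
set_option linter.unusedSectionVars false

namespace Claimed.Agent.R280

open Polynomial WithZero
open scoped Pointwise

variable {KK E : Type} [Field KK] [Field E] [Algebra ℂ KK] [Algebra ℂ[X] KK] [IsScalarTower ℂ ℂ[X] KK]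
  [IsFractionRing ℂ[X] KK] [Algebra KK E] [Algebra ℂ[X] E] [IsScalarTower ℂ[X] KK E] [Algebra ℂ E]
  [IsScalarTower ℂ KK E] [IsAlgClosure KK E]

variable (KK) in
theorem retX_isRatGen : IsRatGen (retX KK) := by
  have haeval : ∀ p : ℂ[X], Polynomial.aeval (retX KK) p = algebraMap ℂ[X] KK p := by
    intro p
    rw [retX, Polynomial.aeval_algebraMap_apply, Polynomial.aeval_X_left_apply]
  constructor
  · rw [transcendental_iff_injective]
    intro p q hpq
    rw [haeval, haeval] at hpq
    exact IsFractionRing.injective ℂ[X] KK hpq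
  · rw [eq_top_iff]
    intro f _
    obtain ⟨p, q, _, rfl⟩ := IsFractionRing.div_surjective (A := ℂ[X]) f
    have hmem : ∀ p : ℂ[X], algebraMap ℂ[X] KK p ∈ IntermediateField.adjoin ℂ {retX KK} := by
      intro p
      rw [← haeval]
      exact IntermediateField.algebra_adjoin_le_adjoin ℂ _
        (Polynomial.aeval_mem_adjoin_singleton ℂ (retX KK))
    exact (IntermediateField.adjoin ℂ {retX KK}).div_mem (hmem p) (hmem q)

/-- a finite normal `L/KK` with one place of ramification index `1` over `Q₀` is fixed by the decomposition groups over `Q₀` -/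
theorem ret_unram_of_overE (L : IntermediateField KK E) [FiniteDimensional KK L]
    (hL : ∀ (g : E ≃ₐ[KK] E), ∀ y ∈ L, g y ∈ L) {Q₀ : Place ℂ KK} (Q : Place ℂ L)
    (hQ : Q.OverE Q₀ 1) {V : ValuationSubring E} (hV : Q₀.Above E V) {g : E ≃ₐ[KK] E}
    (hg : g • V = V) {y : E} (hy : y ∈ L) : g y = y := by
  have : IsFF ℂ KK := (retX_isRatGen KK).isFF
  have : CharZero KK := charZero_of_injective_algebraMap (algebraMap ℂ KK).injective
  have : Normal KK E := IsAlgClosure.normal KK E
  have hnorm : Normal KK L := by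
    rw [IntermediateField.normal_iff_forall_map_le']
    rintro σ _ ⟨w, hw, rfl⟩
    exact hL σ w hw
  have : IsGalois KK L := ⟨⟩
  obtain ⟨Q', hQ'V, hQ'⟩ := Place.exists_mid L hV
  obtain ⟨σ, hσ⟩ := Place.exists_smulAut_eq (⟨1, hQ⟩ : Q.Over Q₀) hQ'
  have he : Q'.ramIdx Q₀ = 1 := by
    rw [← hσ, (Place.smulAut_over σ (⟨1, hQ⟩ : Q.Over Q₀)).2.1]
    exact hQ.ramIdx_eq
  exact fixes_of_ramIdx_eq_one hV hQ'V he hg (⟨y, hy⟩ : L)

theorem ret_exp_pow_eq {c : ℤ} (hc : c ≠ 0) {e : ℕ} (h : (exp c : ℤᵐ⁰) ^ e = exp c) : e = 1 := by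
  rw [← exp_nsmul, exp_inj, nsmul_eq_mul] at h
  have h1 : ((e : ℤ) - 1) * c = 0 := by linarith
  rcases mul_eq_zero.1 h1 with h2 | h2
  · omega
  · exact absurd h2 hc

theorem ret_unram_at (L : IntermediateField KK E) [FiniteDimensional KK L]
    (hL : ∀ (g : E ≃ₐ[KK] E), ∀ y ∈ L, g y ∈ L) {a : ℂ} {Q₀ : Place ℂ KK} (h₀ : Q₀.IsAt (retX KK) a)
    (Q : Place ℂ L) (hQ : Q.v (algebraMap KK L (retX KK - algebraMap ℂ KK a)) = exp (-1))
    {V : ValuationSubring E} (hV : Q₀.Above E V) {g : E ≃ₐ[KK] E} (hg : g • V = V) {y : E} (hy : y ∈ L) :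
    g y = y := by
  have : IsFF ℂ KK := (retX_isRatGen KK).isFF
  obtain ⟨P1, ⟨e, he0, he⟩, -⟩ := Place.existsUnique_below (M := KK) Q
  have h1 := he (retX KK - algebraMap ℂ KK a)
  rw [hQ] at h1
  have hP1 : P1.IsAt (retX KK) a := by
    change P1.v _ < 1
    by_contra hcon
    rw [not_lt] at hcon
    have h2 : (1 : ℤᵐ⁰) ≤ exp (-1) := by rw [h1]; exact one_le_pow₀ hcon
    rw [← exp_zero, exp_le_exp] at h2
    omega
  have hP1Q : P1 = Q₀ := (retX_isRatGen KK).isAt_unique hP1 h₀
  subst hP1Q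
  rw [(retX_isRatGen KK).v_sub_eq hP1] at h1
  have he1 : e = 1 := ret_exp_pow_eq (by norm_num) h1.symm
  subst he1
  exact ret_unram_of_overE L hL Q ⟨he0, he⟩ hV hg hy

theorem ret_unram_inf (L : IntermediateField KK E) [FiniteDimensional KK L]
    (hL : ∀ (g : E ≃ₐ[KK] E), ∀ y ∈ L, g y ∈ L) {Q₀ : Place ℂ KK} (h₀ : Q₀.IsAtInf (retX KK))
    (Q : Place ℂ L) (hQ : Q.v (algebraMap KK L (retX KK)) = exp 1)
    {V : ValuationSubring E} (hV : Q₀.Above E V) {g : E ≃ₐ[KK] E} (hg : g • V = V) {y : E} (hy : y ∈ L) :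
    g y = y := by
  have : IsFF ℂ KK := (retX_isRatGen KK).isFF
  obtain ⟨P1, ⟨e, he0, he⟩, -⟩ := Place.existsUnique_below (M := KK) Q
  have h1 := he (retX KK)
  rw [hQ] at h1
  have hP1 : P1.IsAtInf (retX KK) := by
    change 1 < P1.v _
    by_contra hcon
    rw [not_lt] at hcon
    have h2 : exp 1 ≤ (1 : ℤᵐ⁰) := by rw [h1]; exact pow_le_one₀ zero_le hcon
    rw [← exp_zero, exp_le_exp] at h2
    omega
  have hP1Q : P1 = Q₀ := (retX_isRatGen KK).isAtInf_unique hP1 h₀
  subst hP1Q
  rw [(retX_isRatGen KK).v_eq_of_isAtInf hP1] at h1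
  have he1 : e = 1 := ret_exp_pow_eq (by norm_num) h1.symm
  subst he1
  exact ret_unram_of_overE L hL Q ⟨he0, he⟩ hV hg hy

end Claimed.Agent.R280
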