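import Claimed.Agent.R280.RET.SortedCore
import Claimed.Agent.R280.RET.DropLast

/-!
# Row 280, package RET / TOP of the analytic half: `StRetSorted`   (owner of the statements: helper30)

* TOP-1 `ret_sorted_core` (glue, ~500 lines): from the model (M1, M4, M6-M10) to `IsP1Datum`, for `r ≥ 2`.
* TOP-2 `IsP1Datum.drop_last` (~250 lines): forget the last point.
* TOP-3 `stRetSorted` (~200 lines): create the instances `Algebra ℂ[X] M` etc. from `IsRatGen x`, add two dummy points on the right, apply TOP-1 and TOP-2 twice.
-/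

set_option autoImplicit false
set_option linter.style.haveILetI false

namespace Claimed.Agent.R280

open Polynomial WithZero
open scoped Pointwise

/-- from `IsRatGen x`: `M` is the fraction field of `ℂ[X]` via `X ↦ x` -/
theorem IsRatGen.isFractionRing {M : Type} [Field M] [Algebra ℂ M] {x : M} (hx : IsRatGen x) :
    letI : Algebra ℂ[X] M := (Polynomial.aeval x).toAlgebra
    IsFractionRing ℂ[X] M := by
  letI : Algebra ℂ[X] M := (Polynomial.aeval x).toAlgebra
  have hinj : Function.Injective (algebraMap ℂ[X] M) := (transcendental_iff_injective).1 hx.1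
  haveI : FaithfulSMul ℂ[X] M := (faithfulSMul_iff_algebraMap_injective _ _).2 hinj
  refine IsFractionRing.of_field ℂ[X] M fun z => ?_
  have hz : z ∈ IntermediateField.adjoin ℂ {x} := by rw [hx.2]; trivial
  obtain ⟨p, q, h⟩ := (IntermediateField.mem_adjoin_simple_iff ℂ z).1 hz
  exact ⟨p, q, h⟩

/-- TOP-3: **the output of the analytic half of RET.** -/
theorem stRetSorted : StRetSorted := by
  intro M E _ _ _ _ _ x hx r b hb P hP
  letI a1 : Algebra ℂ[X] M := (Polynomial.aeval x).toAlgebra
  haveI t1 : IsScalarTower ℂ ℂ[X] M := IsScalarTower.of_algebraMap_eq fun c => by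
    change _ = Polynomial.aeval x (Polynomial.C c)
    simp
  haveI f1 : IsFractionRing ℂ[X] M := hx.isFractionRing
  letI a2 : Algebra ℂ[X] E := ((algebraMap M E).comp (algebraMap ℂ[X] M)).toAlgebra
  haveI t2 : IsScalarTower ℂ[X] M E := IsScalarTower.of_algebraMap_eq fun _ => rfl
  letI a3 : Algebra ℂ E := ((algebraMap M E).comp (algebraMap ℂ M)).toAlgebra
  haveI t3 : IsScalarTower ℂ M E := IsScalarTower.of_algebraMap_eq fun _ => rfl
  haveI : IsFF ℂ M := hx.isFF
  have hX : retX M = x := by
    change Polynomial.aeval x Polynomial.X = x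
    simp
  -- two dummy points on the right
  set c : ℝ := ∑ k, |(b k).re| + 1 with hc
  have hbc : ∀ k, (b k).re < c := fun k => by
    have h1 : |(b k).re| ≤ ∑ k, |(b k).re| :=
      Finset.single_le_sum (f := fun k => |(b k).re|) (fun _ _ => abs_nonneg _) (Finset.mem_univ k)
    have h2 := le_abs_self (b k).re
    rw [hc]; linarith
  let b' : Fin (r + 2) → ℂ := fun j => if h : j.val < r then b ⟨j.val, h⟩ else ((c + j.val : ℝ) : ℂ)
  have hb' : StrictMono fun j => (b' j).re := by
    intro i j hij
    have hij' : i.val < j.val := hij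
    by_cases hj : j.val < r
    · have hi : i.val < r := lt_trans hij' hj
      simp only [b', dif_pos hi, dif_pos hj]
      exact hb (show (⟨i.val, hi⟩ : Fin r) < ⟨j.val, hj⟩ from hij')
    · by_cases hi : i.val < r
      · simp only [b', dif_pos hi, dif_neg hj, Complex.ofReal_re]
        have := hbc ⟨i.val, hi⟩
        have h0 : (0 : ℝ) ≤ j.val := Nat.cast_nonneg _
        linarith
      · simp only [b', dif_neg hi, dif_neg hj, Complex.ofReal_re]
        have : (i.val : ℝ) < j.val := by exact_mod_cast hij'
        linarith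
  have hex : ∀ j : Fin (r + 2), ∃ Q : Place ℂ M, Q.IsAt x (b' j) := fun j => hx.exists_isAt _
  choose Q hQ using hex
  let P' : Fin (r + 2) → Place ℂ M := fun j => if h : j.val < r then P ⟨j.val, h⟩ else Q j
  have hP' : ∀ j, (P' j).IsAt (retX M) (b' j) := by
    intro j
    rw [hX]
    by_cases hj : j.val < r
    · simp only [P', b', dif_pos hj]; exact hP _
    · have := hQ j
      simp only [P', dif_neg hj]; exact this
  have hinj : Function.Injective P' := by
    intro i j hij
    have h1 := hP' i
    have h2 := hP' j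
    rw [hij] at h1
    have := Place.IsAt.unique_pt h1 h2
    exact hb'.injective (congrArg Complex.re this)
  obtain ⟨γ, V, hd⟩ := ret_sorted_core (E := E) (by omega) b' hb' P' hP'
  have hd1 := hd.drop_last hinj
  have hd2 := hd1.drop_last (hinj.comp (Fin.castSucc_injective _))
  refine ⟨(γ ∘ Fin.castSucc) ∘ Fin.castSucc, (V ∘ Fin.castSucc) ∘ Fin.castSucc, ?_⟩
  have hPP : (P' ∘ Fin.castSucc) ∘ Fin.castSucc = P := by
    funext k
    simp [P']
  rw [hPP] at hd2
  exact hd2

end Claimed.Agent.R280
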