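import Claimed.Agent.R280.RET.Torus
import Claimed.Agent.R280.RET.Sorted

/-!
# Row 280, package RET: Riemann's existence theorem for the punctured torus (interface)

`Om` is an algebraically closed field with a ring isomorphism `e : ℂ ≃+* Om`; `XOm = Om(x,y)` is the function
field of a Weierstrass curve, `ξ i` the place at the affine point `(a i, b i)`; the `a i` are pairwise
distinct and no `ξ i` is a 2-torsion point.  Then the number of marked `J`-covers with inertia classes `C`
(w.r.t. the root of unity `e (exp (2πi/|J|))`) is the number of generating tuples.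

    ret_torus ⇐ ret_torus_of_sorted (RET/Torus.lean: Layers 0, 1, algebra; helper256) + stRetSorted (RET/Sorted.lean: Layers 2, 3, analysis; helper30)
-/

set_option autoImplicit false

namespace Claimed.Agent.R280

open WithZero

theorem ret_torus {Om XOm E : Type} [Field Om] [Field XOm] [Field E] [Algebra Om XOm] [Algebra XOm E]
    [IsAlgClosure XOm E] (e : ℂ ≃+* Om) (W : WeierstrassCurve Om) (hΔ : W.Δ ≠ 0) (x y : XOm)
    (hxy : (W.baseChange XOm).toAffine.Equation x y) (hx : Transcendental Om x)
    (hgen : IntermediateField.adjoin Om {x, y} = ⊤) {n : ℕ} (a b : Fin n → Om)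
    (ξ : Fin n → Place Om XOm)
    (hξ : ∀ i, (ξ i).v (x - algebraMap Om XOm (a i)) < 1 ∧ (ξ i).v (y - algebraMap Om XOm (b i)) < 1)
    (ha : Function.Injective a) (hb : ∀ i, 2 * b i + W.a₁ * a i + W.a₃ ≠ 0)
    (J : Type) [Group J] [Finite J] (C : Multiset (ConjClasses J)) :
    Nat.card (Sur E J ξ (e (Complex.exp (2 * Real.pi * Complex.I / (Nat.card J : ℂ)))) C)
      = Nat.card (Tup J n C) :=
  ret_torus_of_sorted stRetSorted e W hΔ x y hxy hx hgen a b ξ hξ ha hb J C

end Claimed.Agent.R280
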