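import Claimed.Agent.R280.RET.ModelRoot
import Claimed.Agent.R280.RET.FamilyPoly
import Claimed.Agent.R280.RET.Family

/-! # Row 280, RET / MODEL: M10a (overview: header of `ModelDefs.lean`) -/

set_option autoImplicit false
set_option linter.unusedSectionVars false

namespace Claimed.Agent.R280

open Polynomial WithZero
open scoped Pointwise

variable {KK : Type} {E : Type} [Field KK] [Field E] [Algebra ℂ KK] [Algebra ℂ[X] KK]
  [IsScalarTower ℂ ℂ[X] KK] [IsFractionRing ℂ[X] KK] [Algebra KK E] [Algebra ℂ[X] E]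
  [IsScalarTower ℂ[X] KK E] [Algebra ℂ E] [IsScalarTower ℂ KK E] [IsAlgClosure KK E]

variable {r : ℕ} {b : Fin r → ℂ} {P : Fin r → Place ℂ KK}

/-- M10a.  `S = G`, `σ k = Equiv.mulLeft (g k)`, `s0 = 1`; `f, F, q` from `ret_family`.  The coefficients of `∏ s, (T - f s)` and `∏ s, (T - F s)` agree on every `retA b j` (`F = f ∘ perm`), so by
`ret_glue_polynomial` there is a monic `Gp : ℂ[X][X]` split by `f` on `retDup b` and by `F` on `retDdn b`; on `retExt R` it is split by the functions of `ret_glue_Ext` (`retH σ 0 = retH σ r = 1`).  M3: the roots are in `N`.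
`RetIsReal.exists_of_root`: `y s` with `evU (y s) = f s`.  `evD ((α 0)⁻¹ (y s)) = F s` on `retA b 0`, hence on `retDdn b`; so `α j ((α 0)⁻¹ (y s)) = y (retH σ j s)` and
`γ k (y t) = y ((retH σ k) ((retH σ (k+1))⁻¹ t)) = y (g k * t)`.  `y s ≠ y 1` because `f s q = 0 ≠ f 1 q`. -/
theorem RetModel.exists_orbit (m : RetModel E b P) (hb : StrictMono fun k => (b k).re)
    (hP : ∀ k, (P k).IsAt (retX KK) (b k)) (hr : 0 < r) {G : Type} [Group G] [Finite G] (g : Fin r → G)
    (hg : (List.ofFn g).prod = 1) :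
    ∃ y : G → E, (∀ s, y s ∈ retN E (Set.range P)) ∧ (∀ k s, m.γ k (y s) = y (g k * s)) ∧
      ∀ s, s ≠ 1 → y s ≠ y 1 := by
  classical
  have := Fintype.ofFinite G
  set σ : Fin r → Equiv.Perm G := fun k => MulAction.toPermHom G G (g k) with hσdef
  have hσ : (List.ofFn σ).prod = 1 := by
    have h1 : List.ofFn σ = (List.ofFn g).map (MulAction.toPermHom G G) := by
      rw [List.map_ofFn]; rfl
    rw [h1, ← map_list_prod, hg, map_one]
  obtain ⟨f, F, q, C₀, n, hf, hF, hFf, hbd, hq, hq1, hq0⟩ := ret_family hr b hb σ hσ 1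
  obtain ⟨Gp, hmonic, hdeg, hG1, hG2⟩ := ret_exists_poly_of_family hb hf hF
    (fun j hj => ⟨retH σ j, fun s => hFf j hj s⟩) hbd
  set e : Fin (Fintype.card G) ≃ G := (Fintype.equivFin G).symm with he
  have hs1 : RetHSplits Gp (retDup b) := RetHSplits.of_fin hdeg (fun i => f (e i)) (fun i => hf _)
    (fun z hz => by rw [hG1 z hz, ← Equiv.prod_comp e])
  have hs2 : RetHSplits Gp (retDdn b) := RetHSplits.of_fin hdeg (fun i => F (e i)) (fun i => hF _)
    (fun z hz => by rw [hG2 z hz, ← Equiv.prod_comp e])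
  obtain ⟨R, hR0, -, hR⟩ := exists_ret_bound b 0
  have h0 : ∀ s, Set.EqOn (f s) (F s) (retA b 0) := fun s z hz => by
    rw [hFf 0 (Nat.zero_le _) s hz, retH_zero]; rfl
  have hw : ∀ s, ∃ w : ℂ → ℂ, DifferentiableOn ℂ w (retExt R) ∧ Set.EqOn w (f s) (retCdn R) ∧
      Set.EqOn w (F s) (retCup R) := fun s =>
    ret_glue_Ext hR hR0 (hf s) (hF s) (h0 s) (fun z hz => by
      rw [hFf r le_rfl s hz, retH_of_le σ hσ le_rfl]; rfl)
  choose w hw1 hw2 hw3 using hw
  have hs3 : RetHSplits Gp (retExt R) := RetHSplits.of_fin hdeg (fun i => w (e i)) (fun i => hw1 _)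
    (fun z hz => by
      rw [Equiv.prod_comp e (fun s => (X - C (w s z) : ℂ[X]))]
      rw [← retCup_union_retCdn] at hz
      rcases hz with hz | hz
      · rw [hG2 z (retCup_subset_Ddn hR hz)]
        exact Finset.prod_congr rfl fun s _ => by rw [hw3 s hz]
      · rw [hG1 z (retCdn_subset_Dup hR hz)]
        exact Finset.prod_congr rfl fun s _ => by rw [hw2 s hz])
  have hroots : ∀ y : E, Polynomial.aeval y Gp = 0 → y ∈ retN E (Set.range P) := fun y hy =>
    retN_of_hsplits hb hP hmonic hs1 hs2 hR0 hs3 hy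
  have hy : ∀ s, ∃ y : E, Polynomial.aeval y Gp = 0 ∧ Set.EqOn (m.evU y) (f s) (retDup b) := fun s =>
    m.realU.exists_of_root (retDup_isOpen b) (retDup_isPreconnected b) (retDup_nonempty b) hmonic
      hroots (hf s)
      (fun z hz => by
        rw [hG1 z hz, eval_prod]
        exact Finset.prod_eq_zero (Finset.mem_univ s) (by simp))
  choose y hy1 hy2 using hy
  have hyN : ∀ s, y s ∈ retN E (Set.range P) := fun s => hroots _ (hy1 s)
  have hyi : ∀ s, IsIntegral ℂ[X] (y s) := fun s => ⟨Gp, hmonic, hy1 s⟩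
  have key : ∀ j, j ≤ r → ∀ s, m.α j ((m.α 0)⁻¹ (y s)) = y (retH σ j s) := by
    intro j hj s
    set gs := (m.α 0)⁻¹ (y s) with hgs
    have hgN : gs ∈ retN E (Set.range P) := retN_normal _ _ (hyN s)
    have hgi : IsIntegral ℂ[X] gs := ret_isIntegral_map _ (hyi s)
    have hD : Set.EqOn (m.evD gs) (F s) (retDdn b) := by
      refine ret_eqOn_of_eqOn_open (retDdn_isOpen b) (retDdn_isPreconnected b)
        (m.realD.holo gs hgN hgi) (hF s) (retA_isOpen b 0) (retA_nonempty hb (Nat.zero_le _))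
        (retA_subset_Ddn b _) ?_
      intro z hz
      have h1 : m.α 0 gs = y s := by simp [hgs, AlgEquiv.aut_inv]
      rw [m.cmp 0 (Nat.zero_le _) gs hgN hgi hz, h1, hy2 s (retA_subset_Dup b _ hz), h0 s hz]
    refine m.realU.eq_of_eqOn (retDup_isOpen b) (retDup_isPreconnected b) (retN_normal _ _ hgN)
      (hyN _) (ret_isIntegral_map _ hgi) (hyi _) (retA_isOpen b j) (retA_nonempty hb hj)
      (retA_subset_Dup b _) ?_
    intro z hz
    rw [← m.cmp j hj gs hgN hgi hz, hD (retA_subset_Ddn b _ hz), hFf j hj s hz,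
      hy2 _ (retA_subset_Dup b _ hz)]
  refine ⟨y, hyN, ?_, ?_⟩
  · intro k t
    set s := (retH σ (k + 1))⁻¹ t with hs
    have h1 : m.α (k + 1) ((m.α 0)⁻¹ (y s)) = y t := by
      rw [key (k + 1) k.isLt s, hs]; simp
    have h2 : (m.α (k + 1))⁻¹ (y t) = (m.α 0)⁻¹ (y s) := by
      rw [← h1]; simp [AlgEquiv.aut_inv]
    change m.α k ((m.α (k + 1))⁻¹ (y t)) = _
    rw [h2, key k k.isLt.le s, ← retH_succ σ k, hs]
    congr 1
    simp [hσdef]
  · intro s hs hcon
    have h1 := hy2 s (retA_subset_Dup b _ hq)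
    have h2 := hy2 1 (retA_subset_Dup b _ hq)
    rw [hcon, h2, hq0 s hs] at h1
    exact hq1 h1

end Claimed.Agent.R280
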