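import Claimed.Agent.R280.RET.ModelAux
import Claimed.Agent.R280.RET.GlueFun
import Claimed.Agent.R280.RET.FrameK

/-! # Row 280, RET / MODEL: M8 (overview: header of `ModelDefs.lean`) -/

set_option autoImplicit false
set_option linter.unusedSectionVars false

namespace Claimed.Agent.R280

open Polynomial WithZero
open scoped Pointwise

theorem RetHSplits.of_fin {P : ℂ[X][X]} {U : Set ℂ} {n : ℕ} (hn : P.natDegree = n)
    (θ : Fin n → ℂ → ℂ) (h1 : ∀ i, DifferentiableOn ℂ (θ i) U)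
    (h2 : ∀ z ∈ U, P.map (evalRingHom z) = ∏ i, (X - C (θ i z))) : RetHSplits P U := by
  subst hn; exact ⟨θ, h1, h2⟩

/-- a Kummer polynomial splits where a holomorphic `n`-th root exists -/
theorem retKum_hsplits {c : ℂ[X]} {n : ℕ} (hn : 0 < n) {U : Set ℂ} {ρ : ℂ → ℂ}
    (hρ : DifferentiableOn ℂ ρ U) (hpow : ∀ z ∈ U, ρ z ^ n = c.eval z) :
    RetHSplits (X ^ n - C c : ℂ[X][X]) U := by
  refine RetHSplits.of_fin (natDegree_X_pow_sub_C) (fun i z => zetaC n ^ (i : ℕ) * ρ z)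
    (fun i => hρ.const_mul _) ?_
  intro z hz
  rw [Polynomial.map_sub, Polynomial.map_pow, Polynomial.map_X, Polynomial.map_C, coe_evalRingHom,
    X_pow_sub_C_eq_prod (zetaC_isPrimitiveRoot hn.ne') hn (hpow z hz), Finset.prod_range]

section Roots

variable {r : ℕ} {b : Fin r → ℂ}

theorem ret_rootDn_of_lt {j : ℕ} {z : ℂ} (hz : z ∈ retA b j) {i : Fin r} (h : i.val < j) (n : ℕ) :
    retRootDn n (z - b i) = retRootUp n (z - b i) :=
  retRootDn_eq_of_re_pos n (by rw [Complex.sub_re]; linarith [(hz i).1 h])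

theorem ret_rootDn_of_le {j : ℕ} {z : ℂ} (hz : z ∈ retA b j) {i : Fin r} (h : j ≤ i.val) (n : ℕ) :
    retRootDn n (z - b i) = zetaC n * retRootUp n (z - b i) :=
  retRootDn_eq_of_re_neg n (by rw [Complex.sub_re]; linarith [(hz i).2 h])

/-- the `n`-th root of `(z - b k)(z - b l)^(n-1)` on the plane cut upwards -/
noncomputable def retKumUp (b : Fin r → ℂ) (k l : Fin r) (n : ℕ) (z : ℂ) : ℂ :=
  retRootUp n (z - b k) * retRootUp n (z - b l) ^ (n - 1)

/-- the `n`-th root of `(z - b k)(z - b l)^(n-1)` on the plane cut downwards -/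
noncomputable def retKumDn (b : Fin r → ℂ) (k l : Fin r) (n : ℕ) (z : ℂ) : ℂ :=
  retRootDn n (z - b k) * retRootDn n (z - b l) ^ (n - 1)

theorem retKumUp_differentiableOn (b : Fin r → ℂ) (k l : Fin r) (n : ℕ) :
    DifferentiableOn ℂ (retKumUp b k l n) (retDup b) := fun _ hz =>
  ((ret_rootUp_sub_differentiableAt b k n hz).mul
    ((ret_rootUp_sub_differentiableAt b l n hz).pow _)).differentiableWithinAt

theorem retKumDn_differentiableOn (b : Fin r → ℂ) (k l : Fin r) (n : ℕ) :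
    DifferentiableOn ℂ (retKumDn b k l n) (retDdn b) := fun _ hz =>
  ((ret_rootDn_sub_differentiableAt b k n hz).mul
    ((ret_rootDn_sub_differentiableAt b l n hz).pow _)).differentiableWithinAt

theorem retKumUp_pow (k l : Fin r) {n : ℕ} (hn : 0 < n) {z : ℂ} (hz : z ∈ retDup b) :
    retKumUp b k l n z ^ n = ((X - C (b k)) * (X - C (b l)) ^ (n - 1) : ℂ[X]).eval z := by
  have h1 : ∀ i, z - b i ≠ 0 := fun i h =>
    not_mem_retDup b i (by rw [sub_eq_zero] at h; exact h ▸ hz)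
  rw [retKumUp, mul_pow, ← pow_mul, mul_comm (n - 1) n, pow_mul, retRootUp_pow hn (h1 k),
    retRootUp_pow hn (h1 l)]
  simp

theorem retKumDn_pow (k l : Fin r) {n : ℕ} (hn : 0 < n) {z : ℂ} (hz : z ∈ retDdn b) :
    retKumDn b k l n z ^ n = ((X - C (b k)) * (X - C (b l)) ^ (n - 1) : ℂ[X]).eval z := by
  have h1 : ∀ i, z - b i ≠ 0 := fun i h =>
    not_mem_retDdn b i (by rw [sub_eq_zero] at h; exact h ▸ hz)
  rw [retKumDn, mul_pow, ← pow_mul, mul_comm (n - 1) n, pow_mul, retRootDn_pow hn (h1 k),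
    retRootDn_pow hn (h1 l)]
  simp

theorem zetaC_pow_self {n : ℕ} (hn : 0 < n) : zetaC n ^ n = 1 :=
  (zetaC_isPrimitiveRoot hn.ne').pow_eq_one

theorem zetaC_ne_zero (n : ℕ) : zetaC n ≠ 0 := Complex.exp_ne_zero _

theorem retKum_eq_zero_strip (k l : Fin r) {n : ℕ} (hn : 0 < n) :
    Set.EqOn (retKumUp b k l n) (retKumDn b k l n) (retA b 0) := by
  intro z hz
  rw [retKumDn, ret_rootDn_of_le hz (Nat.zero_le _), ret_rootDn_of_le hz (Nat.zero_le _), retKumUp,
    mul_pow]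
  have : zetaC n * zetaC n ^ (n - 1) = 1 := by
    rw [← pow_succ', Nat.sub_add_cancel hn, zetaC_pow_self hn]
  calc retRootUp n (z - b k) * retRootUp n (z - b l) ^ (n - 1)
      = (zetaC n * zetaC n ^ (n - 1)) * (retRootUp n (z - b k) * retRootUp n (z - b l) ^ (n - 1)) := by
        rw [this, one_mul]
    _ = _ := by ring

theorem retKum_eq_last_strip (k l : Fin r) (n : ℕ) :
    Set.EqOn (retKumUp b k l n) (retKumDn b k l n) (retA b r) := by
  intro z hz
  rw [retKumDn, ret_rootDn_of_lt hz k.isLt, ret_rootDn_of_lt hz l.isLt, retKumUp]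

/-- the jump of `retKumDn / retKumUp` across `b k` is `ζ` -/
theorem retKum_jump {k l : Fin r} (hkl : k ≠ l) (n : ℕ) :
    ∃ δ : ℂ, δ ≠ 0 ∧ (∀ z ∈ retA b (k + 1), retKumDn b k l n z = δ * retKumUp b k l n z) ∧
      ∀ z ∈ retA b k, retKumDn b k l n z = zetaC n * δ * retKumUp b k l n z := by
  rcases lt_or_gt_of_ne hkl with h | h
  · refine ⟨zetaC n ^ (n - 1), pow_ne_zero _ (zetaC_ne_zero n), ?_, ?_⟩
    · intro z hz
      rw [retKumDn, ret_rootDn_of_lt hz (Nat.lt_succ_self _), ret_rootDn_of_le hz h, retKumUp]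
      ring
    · intro z hz
      rw [retKumDn, ret_rootDn_of_le hz le_rfl, ret_rootDn_of_le hz (le_of_lt h), retKumUp]
      ring
  · refine ⟨1, one_ne_zero, ?_, ?_⟩
    · intro z hz
      rw [retKumDn, ret_rootDn_of_lt hz (Nat.lt_succ_self _),
        ret_rootDn_of_lt hz (Nat.lt_succ_of_lt h), retKumUp]
      ring
    · intro z hz
      rw [retKumDn, ret_rootDn_of_le hz le_rfl, ret_rootDn_of_lt hz h, retKumUp]
      ring

end Roots

variable {KK : Type} {E : Type} [Field KK] [Field E] [Algebra ℂ KK] [Algebra ℂ[X] KK]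
  [IsScalarTower ℂ ℂ[X] KK] [IsFractionRing ℂ[X] KK] [Algebra KK E] [Algebra ℂ[X] E]
  [IsScalarTower ℂ[X] KK E] [Algebra ℂ E] [IsScalarTower ℂ KK E] [IsAlgClosure KK E]

theorem ret_algebraMap_X_sub_C (a : ℂ) :
    algebraMap ℂ[X] KK (X - C a) = retX KK - algebraMap ℂ KK a := by
  rw [map_sub, retX, IsScalarTower.algebraMap_apply ℂ ℂ[X] KK]
  rfl

theorem ret_algebraMap_C (a : ℂ) :
    algebraMap ℂ[X] E (C a) = algebraMap KK E (algebraMap ℂ KK a) := by
  rw [IsScalarTower.algebraMap_apply ℂ[X] KK E, IsScalarTower.algebraMap_apply ℂ ℂ[X] KK]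
  rfl

variable {r : ℕ} {b : Fin r → ℂ} {P : Fin r → Place ℂ KK}

/-- M8, integral form -/
theorem RetModel.exists_root_aux (m : RetModel E b P) (hb : StrictMono fun k => (b k).re)
    (hP : ∀ k, (P k).IsAt (retX KK) (b k)) {k l : Fin r} (hkl : k ≠ l) {n : ℕ} (hn : 0 < n) :
    ∃ τ ∈ retN E (Set.range P),
      τ ^ n = algebraMap ℂ[X] E ((X - C (b k)) * (X - C (b l)) ^ (n - 1)) ∧
      m.γ k τ = algebraMap ℂ[X] E (C (zetaC n)) * τ := by
  set c : ℂ[X] := (X - C (b k)) * (X - C (b l)) ^ (n - 1) with hc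
  have hmonic : (X ^ n - C c : ℂ[X][X]).Monic := monic_X_pow_sub_C c hn.ne'
  obtain ⟨R, hR0, -, hR⟩ := exists_ret_bound b 0
  obtain ⟨w, hw, hw1, hw2⟩ := ret_glue_Ext hR hR0 (retKumUp_differentiableOn b k l n)
    (retKumDn_differentiableOn b k l n) (retKum_eq_zero_strip k l hn) (retKum_eq_last_strip k l n)
  have hroots : ∀ y : E, Polynomial.aeval y (X ^ n - C c : ℂ[X][X]) = 0 →
      y ∈ retN E (Set.range P) := by
    intro y hy
    refine retN_of_hsplits hb hP hmonic
      (retKum_hsplits hn (retKumUp_differentiableOn b k l n) (fun z hz => retKumUp_pow k l hn hz))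
      (retKum_hsplits hn (retKumDn_differentiableOn b k l n) (fun z hz => retKumDn_pow k l hn hz))
      hR0 (retKum_hsplits hn hw ?_) hy
    intro z hz
    rw [← retCup_union_retCdn] at hz
    rcases hz with hz | hz
    · rw [hw2 hz]; exact retKumDn_pow k l hn (retCup_subset_Ddn hR hz)
    · rw [hw1 hz]; exact retKumUp_pow k l hn (retCdn_subset_Dup hR hz)
  obtain ⟨τ, hτ, hτev⟩ := m.realU.exists_of_root (retDup_isOpen b) (retDup_isPreconnected b)
    (retDup_nonempty b) hmonic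
    hroots (retKumUp_differentiableOn b k l n) (fun z hz => by
      rw [Polynomial.map_sub, Polynomial.map_pow, Polynomial.map_X, Polynomial.map_C,
        coe_evalRingHom, eval_sub, eval_pow, eval_X, eval_C, retKumUp_pow k l hn hz, sub_self])
  have hτN := hroots τ hτ
  have hτi : IsIntegral ℂ[X] τ := ⟨_, hmonic, hτ⟩
  refine ⟨τ, hτN, ?_, ?_⟩
  · rw [map_sub, map_pow, aeval_X, aeval_C, sub_eq_zero] at hτ
    exact hτ
  · obtain ⟨δ, hδ, hδ1, hδ2⟩ := retKum_jump (b := b) hkl n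
    set g := (m.α (k + 1))⁻¹ τ with hg
    have hgN : g ∈ retN E (Set.range P) := retN_normal _ _ hτN
    have hgi : IsIntegral ℂ[X] g := ret_isIntegral_map _ hτi
    have hD : Set.EqOn (m.evD g) (fun z => δ⁻¹ * retKumDn b k l n z) (retDdn b) := by
      refine ret_eqOn_of_eqOn_open (retDdn_isOpen b) (retDdn_isPreconnected b)
        (m.realD.holo g hgN hgi) ((retKumDn_differentiableOn b k l n).const_mul _)
        (retA_isOpen b (k + 1)) (retA_nonempty hb k.isLt) (retA_subset_Ddn b _) ?_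
      intro z hz
      have h1 : m.α (k + 1) g = τ := by simp [hg, AlgEquiv.aut_inv]
      rw [m.cmp (k + 1) k.isLt g hgN hgi hz, h1, hτev (retA_subset_Dup b _ hz)]
      change _ = δ⁻¹ * retKumDn b k l n z
      rw [hδ1 z hz, inv_mul_cancel_left₀ hδ]
    have hζN : algebraMap ℂ[X] E (C (zetaC n)) * τ ∈ retN E (Set.range P) :=
      (retN E (Set.range P)).mul_mem (ret_algebraMap_mem _ _) hτN
    change m.α k g = _
    refine m.realU.eq_of_eqOn (retDup_isOpen b) (retDup_isPreconnected b) (retN_normal _ _ hgN) hζN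
      (ret_isIntegral_map _ hgi) (isIntegral_algebraMap.mul hτi) (retA_isOpen b k)
      (retA_nonempty hb k.isLt.le) (retA_subset_Dup b _) ?_
    intro z hz
    have hzD := retA_subset_Dup b _ hz
    rw [← m.cmp k k.isLt.le g hgN hgi hz, hD (retA_subset_Ddn b _ hz)]
    change δ⁻¹ * retKumDn b k l n z = _
    rw [hδ2 z hz, m.realU.mul _ (ret_algebraMap_mem _ _) _ hτN isIntegral_algebraMap hτi z hzD,
      m.realU.poly _ z hzD, eval_C, hτev hzD]
    field_simp

/-- M8.  `G = T^n - (x - b k)(x - b l)^(n-1)` splits on `retDup b` (roots `ζ^i • rootUp(z - b k) rootUp(z - b l)^(n-1)`), on `retDdn b` (`rootDn`), and on `retExt R`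
(`ret_glue_Ext`).  By M3 its roots are in `N`; by `RetIsReal.exists_of_root` there is a root `τ'` with
`evU τ' = rootUp(z - b k) rootUp(z - b l)^(n-1)`.  `evD ((α (k+1))⁻¹ τ')` and `δ⁻¹ • rootDn(z - b k) rootDn(z - b l)^(n-1)` agree on `retA b (k+1)`,
hence on `retDdn b`; on `retA b k` this is `ζ • evU τ'`.  So `γ k τ' = ζ τ'`; `τ = τ'/(x - b l)`. -/
theorem RetModel.exists_root (m : RetModel E b P) (hb : StrictMono fun k => (b k).re)
    (hP : ∀ k, (P k).IsAt (retX KK) (b k)) {k l : Fin r} (hkl : k ≠ l) {n : ℕ} (hn : 0 < n) :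
    ∃ τ ∈ retN E (Set.range P),
      τ ^ n = algebraMap KK E ((retX KK - algebraMap ℂ KK (b k)) / (retX KK - algebraMap ℂ KK (b l))) ∧
      m.γ k τ = algebraMap KK E (algebraMap ℂ KK (zetaC n)) * τ := by
  obtain ⟨τ, hτN, hτ1, hτ2⟩ := m.exists_root_aux hb hP hkl hn
  have hne : algebraMap ℂ[X] E (X - C (b l)) ≠ 0 :=
    ret_algebraMap_ne_zero KK (X_sub_C_ne_zero _)
  refine ⟨τ / algebraMap ℂ[X] E (X - C (b l)),
    (retN E (Set.range P)).div_mem hτN (ret_algebraMap_mem _ _), ?_, ?_⟩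
  · rw [div_pow, hτ1, map_mul, map_pow, map_div₀, ← ret_algebraMap_X_sub_C, ← ret_algebraMap_X_sub_C,
      ← IsScalarTower.algebraMap_apply, ← IsScalarTower.algebraMap_apply]
    have : algebraMap ℂ[X] E (X - C (b l)) ^ n
        = algebraMap ℂ[X] E (X - C (b l)) ^ (n - 1) * algebraMap ℂ[X] E (X - C (b l)) := by
      rw [← pow_succ, Nat.sub_add_cancel hn]
    rw [this]
    field_simp
  · rw [map_div₀, hτ2, ret_map_algebraMap, ret_algebraMap_C (KK := KK), mul_div_assoc]

end Claimed.Agent.R280
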