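import Claimed.Agent.R280.RET.ModelAux
import Claimed.Agent.R280.RET.GlueFun

/-! # Row 280, RET / MODEL: M9a (overview: header of `ModelDefs.lean`) -/

set_option autoImplicit false
set_option linter.unusedSectionVars false

namespace Claimed.Agent.R280

open Polynomial WithZero
open scoped Pointwise

variable {KK : Type} {E : Type} [Field KK] [Field E] [Algebra ℂ KK] [Algebra ℂ[X] KK]
  [IsScalarTower ℂ ℂ[X] KK] [IsFractionRing ℂ[X] KK] [Algebra KK E] [Algebra ℂ[X] E]
  [IsScalarTower ℂ[X] KK E] [Algebra ℂ E] [IsScalarTower ℂ KK E] [IsAlgClosure KK E]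

/-- a family of holomorphic extensions (from the nonempty open set `A` to the connected open set `W`) of a realization is a realization -/
theorem ret_real_of_extension {L L₀ : IntermediateField KK E} (hL : L ≤ L₀) {ev₀ ev : E → ℂ → ℂ}
    {D W A : Set ℂ} (h₀ : RetIsReal E L₀ ev₀ D) (hW : IsOpen W) (hc : IsPreconnected W)
    (hA : IsOpen A) (hne : A.Nonempty) (hAW : A ⊆ W) (hAD : A ⊆ D)
    (hev : ∀ y ∈ L, IsIntegral ℂ[X] y → DifferentiableOn ℂ (ev y) W ∧ Set.EqOn (ev y) (ev₀ y) A) :
    RetIsReal E L ev W where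
  holo := fun y hy hi => (hev y hy hi).1
  add := by
    intro y hy y' hy' hi hi'
    have h1 := hev y hy hi
    have h2 := hev y' hy' hi'
    have h3 := hev (y + y') (L.add_mem hy hy') (hi.add hi')
    have : Set.EqOn (ev (y + y')) (fun z => ev y z + ev y' z) W :=
      ret_eqOn_of_eqOn_open hW hc h3.1 (h1.1.add h2.1) hA hne hAW (fun z hz => by
        rw [h3.2 hz, h1.2 hz, h2.2 hz, h₀.add y (hL hy) y' (hL hy') hi hi' z (hAD hz)])
    exact fun z hz => this hz
  mul := by
    intro y hy y' hy' hi hi'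
    have h1 := hev y hy hi
    have h2 := hev y' hy' hi'
    have h3 := hev (y * y') (L.mul_mem hy hy') (hi.mul hi')
    have : Set.EqOn (ev (y * y')) (fun z => ev y z * ev y' z) W :=
      ret_eqOn_of_eqOn_open hW hc h3.1 (h1.1.mul h2.1) hA hne hAW (fun z hz => by
        rw [h3.2 hz, h1.2 hz, h2.2 hz, h₀.mul y (hL hy) y' (hL hy') hi hi' z (hAD hz)])
    exact fun z hz => this hz
  poly := by
    intro p
    have h3 := hev (algebraMap ℂ[X] E p) (ret_algebraMap_mem L p) isIntegral_algebraMap
    have : Set.EqOn (ev (algebraMap ℂ[X] E p)) (fun z => p.eval z) W :=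
      ret_eqOn_of_eqOn_open hW hc h3.1 p.differentiable.differentiableOn hA hne hAW (fun z hz => by
        rw [h3.2 hz, h₀.poly p z (hAD hz)])
    exact fun z hz => this hz

variable {r : ℕ} {b : Fin r → ℂ} {P : Fin r → Place ℂ KK}

/-- M9a.  For `y ∈ N` integral with `γ k y = y`: `u = evU y` and `v = evD ((α (k+1))⁻¹ y)` agree on `retA b (k+1)` and on `retA b k`; `u` is bounded near `b k`
(`ret_root_bound`); `ret_glue_W` gives `ev y` on `retW b k` (choice); additivity etc. by the identity theorem. -/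
theorem RetModel.exists_real_W (m : RetModel E b P) (hb : StrictMono fun k => (b k).re)
    (hP : ∀ k, (P k).IsAt (retX KK) (b k)) (k : Fin r) :
    ∃ ev : E → ℂ → ℂ, RetIsReal E
      (retN E (Set.range P) ⊓ IntermediateField.fixedField (Subgroup.zpowers (m.γ k))) ev (retW b k) := by
  classical
  have key : ∀ y ∈ retN E (Set.range P) ⊓ IntermediateField.fixedField (Subgroup.zpowers (m.γ k)),
      IsIntegral ℂ[X] y → ∃ w : ℂ → ℂ, DifferentiableOn ℂ w (retW b k) ∧
        Set.EqOn w (m.evU y) (retA b k) := by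
    intro y hy hi
    have hyN : y ∈ retN E (Set.range P) := hy.1
    have hfix : m.γ k y = y := hy.2 ⟨m.γ k, Subgroup.mem_zpowers _⟩
    set g := (m.α (k + 1))⁻¹ y with hg
    have hgN : g ∈ retN E (Set.range P) := retN_normal _ _ hyN
    have hgi : IsIntegral ℂ[X] g := ret_isIntegral_map _ hi
    have h1 : Set.EqOn (m.evU y) (m.evD g) (retA b k) := by
      intro z hz
      rw [m.cmp k k.isLt.le g hgN hgi hz]
      congr 2
      exact hfix.symm
    have h2 : Set.EqOn (m.evU y) (m.evD g) (retA b (k + 1)) := by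
      intro z hz
      rw [m.cmp (k + 1) k.isLt g hgN hgi hz]
      congr 2
      simp [hg, AlgEquiv.aut_inv]
    obtain ⟨C, n, hC⟩ := ret_root_bound (minpoly.monic hi)
    obtain ⟨w, hw1, hw2, -⟩ := ret_glue_W hb k (m.realU.holo y hyN hi) (m.realD.holo g hgN hgi) h1 h2
      (ε := 1) (M := max C 0 * (1 + (1 + ‖b k‖)) ^ n) one_pos (by
        intro z hz hzb
        have h3 : ‖z‖ ≤ 1 + ‖b k‖ := by
          have := norm_le_norm_add_norm_sub' z (b k)
          linarith
        calc ‖m.evU y z‖ ≤ C * (1 + ‖z‖) ^ n :=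
              hC z _ (m.realU.root hyN hi (minpoly.aeval _ _) hz)
          _ ≤ max C 0 * (1 + ‖z‖) ^ n :=
              mul_le_mul_of_nonneg_right (le_max_left _ _) (by positivity)
          _ ≤ max C 0 * (1 + (1 + ‖b k‖)) ^ n := by
              apply mul_le_mul_of_nonneg_left _ (le_max_right _ _)
              exact pow_le_pow_left₀ (by positivity) (by linarith) _)
    exact ⟨w, hw1, fun z hz => hw2 ⟨retA_subset_W hb k hz, retA_subset_Dup b k hz⟩⟩
  refine ⟨fun y => if h : y ∈ retN E (Set.range P) ⊓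
      IntermediateField.fixedField (Subgroup.zpowers (m.γ k)) ∧ IsIntegral ℂ[X] y
      then Classical.choose (key y h.1 h.2) else 0, ?_⟩
  refine ret_real_of_extension inf_le_left m.realU (retW_isOpen b k) (retW_convex b k).isPreconnected
    (retA_isOpen b k) (retA_nonempty hb k.isLt.le) (retA_subset_W hb k) (retA_subset_Dup b k) ?_
  intro y hy hi
  simp only [dif_pos (And.intro hy hi)]
  exact Classical.choose_spec (key y hy hi)

end Claimed.Agent.R280
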