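import Claimed.Agent.R280.RET.RealDefs

/-! # Row 280, RET / MODEL: M9c (pure algebra) (overview: header of `ModelDefs.lean`) -/

set_option autoImplicit false

namespace Claimed.Agent.R280

open Polynomial WithZero
open scoped Pointwise

/-- every valuation ring extends to any field extension -/
theorem ret_exists_valuationSubring_comap {F E : Type*} [Field F] [Field E] [Algebra F E]
    (A : ValuationSubring F) : ∃ V : ValuationSubring E, V.comap (algebraMap F E) = A := by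
  obtain ⟨V, h, hloc⟩ :=
    IsLocalRing.exists_factor_valuationRing ((algebraMap F E).comp A.subtype)
  refine ⟨V, ?_⟩
  ext x
  rw [ValuationSubring.mem_comap]
  constructor
  · intro hx
    by_contra hxA
    have hx0 : x ≠ 0 := fun h0 => hxA (h0 ▸ A.zero_mem)
    have hinv : x⁻¹ ∈ A := (A.mem_or_inv_mem x).resolve_left hxA
    have hu : IsUnit (((algebraMap F E).comp A.subtype).codRestrict V.toSubring h ⟨x⁻¹, hinv⟩) := by
      rw [isUnit_iff_exists_inv]
      refine ⟨⟨algebraMap F E x, hx⟩, ?_⟩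
      apply Subtype.ext
      change algebraMap F E x⁻¹ * algebraMap F E x = 1
      rw [← map_mul, inv_mul_cancel₀ hx0, map_one]
    have hu' := hloc.map_nonunit _ hu
    obtain ⟨⟨b, hb⟩, hb'⟩ := isUnit_iff_exists_inv.1 hu'
    have h1 : x⁻¹ * b = 1 := congrArg Subtype.val hb'
    have h2 : b = x := by
      field_simp at h1
      exact h1
    exact hxA (h2 ▸ hb)
  · intro hx
    exact h ⟨x, hx⟩

/-- ultrametric inequality with pairwise distinct nonzero values -/
theorem ret_val_le_sum {E Γ : Type*} [Field E] [LinearOrderedCommGroupWithZero Γ] (v : Valuation E Γ)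
    {ι : Type*} (s : Finset ι) (f : ι → E)
    (hd : ∀ i ∈ s, ∀ j ∈ s, i ≠ j → f i ≠ 0 → v (f i) ≠ v (f j)) (j : ι) (hj : j ∈ s) :
    v (f j) ≤ v (∑ i ∈ s, f i) := by
  classical
  obtain ⟨m, hm, hmax⟩ := Finset.exists_max_image s (fun i => v (f i)) ⟨j, hj⟩
  by_cases h0 : f m = 0
  · have := hmax j hj
    rw [h0, map_zero] at this
    exact this.trans zero_le
  · have h1 : v (∑ i ∈ s, f i) = v (f m) := by
      apply Valuation.map_sum_eq_of_lt v hm
      intro i hi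
      rw [Finset.mem_sdiff, Finset.mem_singleton] at hi
      exact lt_of_le_of_ne (hmax i hi.1) (fun h => hd m hm i hi.1 (Ne.symm hi.2) h0 h.symm)
    rw [h1]
    exact hmax j hj

section Eigen

variable {K E : Type*} [Field K] [Field E] [Algebra K E]

/-- the `ζ^j`-eigencomponent of `y` -/
noncomputable def retEig (σ : E ≃ₐ[K] E) (n : ℕ) (ζ y : E) (j : ℕ) : E :=
  (n : E)⁻¹ * ∑ i ∈ Finset.range n, ((ζ ^ j)⁻¹) ^ i * (σ ^ i) y

theorem retEig_sum (σ : E ≃ₐ[K] E) {n : ℕ} (hn : (n : E) ≠ 0) {ζ : E} (hζ : IsPrimitiveRoot ζ n)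
    (y : E) : ∑ j ∈ Finset.range n, retEig σ n ζ y j = y := by
  have hn0 : 0 < n := Nat.pos_of_ne_zero (fun h => hn (by rw [h]; simp))
  have hζ0 : ζ ≠ 0 := hζ.ne_zero hn0.ne'
  unfold retEig
  rw [← Finset.mul_sum, Finset.sum_comm]
  have hinner : ∀ i ∈ Finset.range n,
      ∑ j ∈ Finset.range n, ((ζ ^ j)⁻¹) ^ i * (σ ^ i) y = if i = 0 then (n : E) * y else 0 := by
    intro i hi
    rw [← Finset.sum_mul]
    by_cases h0 : i = 0
    · subst h0
      simp
    · rw [if_neg h0]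
      have hx : ∀ j, ((ζ ^ j)⁻¹) ^ i = ((ζ ^ i)⁻¹) ^ j := by
        intro j
        rw [inv_pow, inv_pow, ← pow_mul, ← pow_mul, mul_comm]
      simp only [hx]
      have hne : (ζ ^ i)⁻¹ ≠ 1 := by
        intro h
        rw [inv_eq_one] at h
        exact hζ.pow_ne_one_of_pos_of_lt h0 (Finset.mem_range.1 hi) h
      have hpow : ((ζ ^ i)⁻¹) ^ n = 1 := by
        rw [inv_pow, ← pow_mul, mul_comm, pow_mul, hζ.pow_eq_one, one_pow, inv_one]
      have hg := geom_sum_mul ((ζ ^ i)⁻¹) n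
      rw [hpow, sub_self] at hg
      rw [(mul_eq_zero.1 hg).resolve_right (sub_ne_zero.2 hne), zero_mul]
  rw [Finset.sum_congr rfl hinner, Finset.sum_ite_eq' (Finset.range n) 0 (fun _ => (n : E) * y),
    if_pos (Finset.mem_range.2 hn0), ← mul_assoc, inv_mul_cancel₀ hn, one_mul]

theorem retEig_map (σ : E ≃ₐ[K] E) {n : ℕ} {ζ : E} (hζ : ζ ^ n = 1) (hζ0 : ζ ≠ 0) (hσζ : σ ζ = ζ)
    {y : E} (hy : (σ ^ n) y = y) (j : ℕ) : σ (retEig σ n ζ y j) = ζ ^ j * retEig σ n ζ y j := by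
  unfold retEig
  set ω : E := (ζ ^ j)⁻¹ with hω
  have hω0 : ω ≠ 0 := inv_ne_zero (pow_ne_zero _ hζ0)
  have hσω : σ ω = ω := by rw [hω, map_inv₀, map_pow, hσζ]
  have hωn : ω ^ n = 1 := by
    rw [hω, inv_pow, ← pow_mul, mul_comm, pow_mul, hζ, one_pow, inv_one]
  have hζj : ζ ^ j = ω⁻¹ := by rw [hω, inv_inv]
  rw [map_mul, map_inv₀, map_natCast, map_sum, hζj]
  have h1 : ∀ i ∈ Finset.range n, σ (ω ^ i * (σ ^ i) y) = ω⁻¹ * (ω ^ (i + 1) * (σ ^ (i + 1)) y) := by
    intro i _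
    rw [map_mul, map_pow, hσω, pow_succ' σ i, AlgEquiv.mul_apply, pow_succ' ω i, ← mul_assoc,
      ← mul_assoc, inv_mul_cancel₀ hω0, one_mul]
  rw [Finset.sum_congr rfl h1, ← Finset.mul_sum]
  have h2 : ∑ i ∈ Finset.range n, ω ^ (i + 1) * (σ ^ (i + 1)) y
      = ∑ i ∈ Finset.range n, ω ^ i * (σ ^ i) y := by
    have h3 := Finset.sum_range_succ (fun i => ω ^ i * (σ ^ i) y) n
    have h4 := Finset.sum_range_succ' (fun i => ω ^ i * (σ ^ i) y) n
    rw [h3] at h4
    simp only [hωn, hy, pow_zero, one_mul, AlgEquiv.one_apply] at h4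
    exact (add_right_cancel h4).symm
  rw [h2]
  ring

end Eigen

theorem ret_exists_pow_fix {K E : Type*} [Field K] [Field E] [Algebra K E] [Algebra.IsIntegral K E]
    (σ : E ≃ₐ[K] E) (y : E) : ∃ n : ℕ, 0 < n ∧ (σ ^ n) y = y := by
  have hfin : ((minpoly K y).rootSet E).Finite := Polynomial.rootSet_finite _ _
  have hmem : ∀ i : ℕ, (σ ^ i) y ∈ (minpoly K y).rootSet E := by
    intro i
    rw [Polynomial.mem_rootSet]
    refine ⟨minpoly.ne_zero (Algebra.IsIntegral.isIntegral y), ?_⟩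
    rw [Polynomial.aeval_algHom_apply (σ ^ i : E ≃ₐ[K] E), minpoly.aeval, map_zero]
  have := hfin.to_subtype
  obtain ⟨i, j, hij, h⟩ := Finite.exists_ne_map_eq_of_infinite
    (fun i : ℕ => (⟨(σ ^ i) y, hmem i⟩ : (minpoly K y).rootSet E))
  have h' : (σ ^ i) y = (σ ^ j) y := congrArg Subtype.val h
  have key : ∀ a b : ℕ, a < b → (σ ^ a) y = (σ ^ b) y → ∃ n : ℕ, 0 < n ∧ (σ ^ n) y = y := by
    intro a b hab hh
    refine ⟨b - a, by omega, ?_⟩
    have h1 : σ ^ b = σ ^ a * σ ^ (b - a) := by rw [← pow_add]; congr 1; omega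
    rw [h1, AlgEquiv.mul_apply] at hh
    exact ((σ ^ a).injective hh).symm
  rcases lt_or_gt_of_ne hij with h1 | h1
  · exact key i j h1 h'
  · exact key j i h1 h'.symm

theorem ret_val_distinct {E Γ : Type*} [Field E] [LinearOrderedCommGroupWithZero Γ]
    (v : Valuation E Γ) (InF : E → Prop) {ϖ : E} (hϖ0 : ϖ ≠ 0) (hϖ1 : v ϖ < 1)
    (hF : ∀ a, InF a → a ≠ 0 → ∃ k : ℤ, v a = v ϖ ^ k) {n : ℕ} {τ : E}
    (hτ : τ ^ n = ϖ) (c : ℕ → E) (hc : ∀ j < n, InF (c j / τ ^ j)) {i j : ℕ} (hi : i < n)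
    (hj : j < n) (hij : i ≠ j) (h0 : c i ≠ 0) : v (c i) ≠ v (c j) := by
  intro heq
  have hτ0 : τ ≠ 0 := by
    rintro rfl
    apply hϖ0
    rw [← hτ, zero_pow (by omega)]
  have hcj : c j ≠ 0 := by
    intro h
    rw [h, map_zero] at heq
    exact h0 ((map_eq_zero v).1 heq)
  set t := v τ with ht
  have ht0 : 0 < t := zero_lt_iff.2 ((map_ne_zero v).2 hτ0)
  have htn : t ^ n = v ϖ := by rw [ht, ← map_pow, hτ]
  have ht1 : t ≠ 1 := by
    intro h
    rw [h, one_pow] at htn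
    exact hϖ1.ne htn.symm
  have hval : ∀ m < n, c m ≠ 0 → ∃ k : ℤ, v (c m) = t ^ ((n : ℤ) * k + m) := by
    intro m hm hcm
    obtain ⟨k, hk⟩ := hF _ (hc m hm) (div_ne_zero hcm (pow_ne_zero _ hτ0))
    refine ⟨k, ?_⟩
    have h1 : c m = c m / τ ^ m * τ ^ m := by
      rw [div_mul_cancel₀ _ (pow_ne_zero _ hτ0)]
    rw [h1, map_mul, hk, map_pow, ← ht, ← htn, zpow_add₀ ht0.ne', zpow_mul, zpow_natCast,
      zpow_natCast]
  obtain ⟨k, hk⟩ := hval i hi h0
  obtain ⟨k', hk'⟩ := hval j hj hcj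
  rw [hk, hk'] at heq
  have h2 := zpow_right_injective₀ ht0 ht1 heq
  have h3 : ((n : ℤ) * k + i) % n = ((n : ℤ) * k' + j) % n := by rw [h2]
  rw [Int.mul_add_emod_self_left, Int.mul_add_emod_self_left] at h3
  rw [Int.emod_eq_of_lt (by positivity) (by exact_mod_cast hi),
    Int.emod_eq_of_lt (by positivity) (by exact_mod_cast hj)] at h3
  exact hij (by exact_mod_cast h3)

theorem ret_stable_core {K E : Type*} [Field K] [Field E] [Algebra K E] [Algebra.IsIntegral K E]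
    [CharZero E] (V : ValuationSubring E) (g : E ≃ₐ[K] E) (N : IntermediateField K E)
    (hN : ∀ y ∈ N, g y ∈ N) {ϖ : E} (hϖ0 : ϖ ≠ 0) (hϖ1 : V.valuation ϖ < 1)
    (hF : ∀ a ∈ N, g a = a → a ≠ 0 → ∃ k : ℤ, V.valuation a = V.valuation ϖ ^ k)
    (ζ : ℕ → E) (hζ : ∀ n, 0 < n → IsPrimitiveRoot (ζ n) n) (hζN : ∀ n, ζ n ∈ N)
    (hgζ : ∀ n, g (ζ n) = ζ n)
    (hτ : ∀ n : ℕ, 0 < n → ∃ τ ∈ N, τ ^ n = ϖ ∧ g τ = ζ n * τ) :
    ∀ y ∈ N, (y ∈ V ↔ g y ∈ V) := by
  intro y hy
  obtain ⟨n, hn, hfix⟩ := ret_exists_pow_fix g y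
  obtain ⟨τ, hτN, hτn, hgτ⟩ := hτ n hn
  have hz := hζ n hn
  set z := ζ n with hzdef
  have hz0 : z ≠ 0 := hz.ne_zero hn.ne'
  have hzn : z ^ n = 1 := hz.pow_eq_one
  have hnE : (n : E) ≠ 0 := Nat.cast_ne_zero.2 hn.ne'
  have hτ0 : τ ≠ 0 := by
    rintro rfl
    apply hϖ0
    rw [← hτn, zero_pow hn.ne']
  set v := V.valuation with hv
  have hvz : v z = 1 := by
    have h1 : v z ^ n = 1 := by rw [← map_pow, hzn, map_one]
    exact (pow_eq_one_iff_of_nonneg zero_le hn.ne').1 h1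
  set c : ℕ → E := retEig g n z y with hc
  have hsum : ∑ j ∈ Finset.range n, c j = y := retEig_sum g hnE hz y
  have hmap : ∀ j, g (c j) = z ^ j * c j := retEig_map g hzn hz0 (hgζ n) hfix
  have hpowN : ∀ i : ℕ, (g ^ i) y ∈ N := by
    intro i
    induction i with
    | zero => simpa using hy
    | succ i ih =>
      rw [pow_succ', AlgEquiv.mul_apply]
      exact hN _ ih
  have hcN : ∀ j, c j ∈ N := by
    intro j
    rw [hc]
    unfold retEig
    refine N.mul_mem (N.inv_mem (natCast_mem N n)) (N.sum_mem ?_)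
    intro i _
    exact N.mul_mem (pow_mem (N.inv_mem (pow_mem (hζN n) _)) _) (hpowN i)
  have hInF : ∀ j < n, (c j / τ ^ j ∈ N ∧ g (c j / τ ^ j) = c j / τ ^ j) := by
    intro j _
    refine ⟨N.div_mem (hcN j) (pow_mem hτN _), ?_⟩
    rw [map_div₀, map_pow, hmap, hgτ, mul_pow, mul_div_mul_left _ _ (pow_ne_zero _ hz0)]
  have hdist : ∀ i ∈ Finset.range n, ∀ j ∈ Finset.range n, i ≠ j → c i ≠ 0 → v (c i) ≠ v (c j) := by
    intro i hi j hj hij h0
    exact ret_val_distinct v (fun a => a ∈ N ∧ g a = a) hϖ0 hϖ1 (fun a ha => hF a ha.1 ha.2) hτn c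
      hInF (Finset.mem_range.1 hi) (Finset.mem_range.1 hj) hij h0
  have hvzc : ∀ j, v (z ^ j * c j) = v (c j) := by
    intro j
    rw [map_mul, map_pow, hvz, one_pow, one_mul]
  have hgy : g y = ∑ j ∈ Finset.range n, z ^ j * c j := by
    rw [← hsum, map_sum]
    exact Finset.sum_congr rfl (fun j _ => hmap j)
  have hmemV : ∀ x : E, x ∈ V ↔ v x ≤ 1 := fun x => (V.valuation_le_one_iff x).symm
  constructor
  · intro hyV
    rw [hmemV, hgy]
    apply Valuation.map_sum_le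
    intro j hj
    rw [hvzc]
    have := ret_val_le_sum v (Finset.range n) c hdist j hj
    rw [hsum] at this
    exact this.trans ((hmemV y).1 hyV)
  · intro hyV
    rw [hmemV, ← hsum]
    apply Valuation.map_sum_le
    intro j hj
    have := ret_val_le_sum v (Finset.range n) (fun j => z ^ j * c j) (by
      intro i hi j hj hij h0
      simp only [hvzc]
      exact hdist i hi j hj hij (right_ne_zero_of_mul h0)) j hj
    rw [← hgy] at this
    simp only [hvzc] at this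
    exact this.trans ((hmemV _).1 hyV)

/-- values on a subfield with a discrete place: powers of the value of a uniformiser -/
theorem ret_val_of_place {k K E : Type*} [Field k] [Field K] [Field E] [Algebra K E]
    (N₀ : IntermediateField K E) [Algebra k N₀] (Q : Place k N₀) (V : ValuationSubring E)
    (hV : V.comap (algebraMap N₀ E) = Q.O) (π₀ : N₀) (hπ : Q.v π₀ = exp (-1)) :
    (π₀ : E) ≠ 0 ∧ V.valuation (π₀ : E) < 1 ∧
      ∀ a : N₀, a ≠ 0 → ∃ m : ℤ, V.valuation (a : E) = V.valuation (π₀ : E) ^ m := by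
  have hmem : ∀ a : N₀, (a : E) ∈ V ↔ Q.v a ≤ 1 := by
    intro a
    have h1 : a ∈ V.comap (algebraMap N₀ E) ↔ a ∈ Q.O := by rw [hV]
    rw [ValuationSubring.mem_comap, Valuation.mem_valuationSubring_iff] at h1
    exact h1
  have hle : ∀ a : N₀, V.valuation (a : E) ≤ 1 ↔ Q.v a ≤ 1 := fun a =>
    (V.valuation_le_one_iff _).trans (hmem a)
  have hone : ∀ a : N₀, Q.v a = 1 → V.valuation (a : E) = 1 := by
    intro a ha
    have ha0 : a ≠ 0 := by
      rintro rfl
      simp at ha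
    apply le_antisymm
    · exact (hle a).2 ha.le
    · have h3 := (hle a⁻¹).2 (by rw [map_inv₀, ha, inv_one])
      have h4 : ((a⁻¹ : N₀) : E) = (a : E)⁻¹ := rfl
      rw [h4, map_inv₀] at h3
      have h5 : V.valuation (a : E) ≠ 0 := (_root_.map_ne_zero _).2 (by simpa using ha0)
      exact (inv_le_one₀ (zero_lt_iff.2 h5)).1 h3
  have hπ0 : π₀ ≠ 0 := by
    rintro rfl
    rw [map_zero] at hπ
    exact WithZero.exp_ne_zero hπ.symm
  have hπE : (π₀ : E) ≠ 0 := by simpa using hπ0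
  refine ⟨hπE, ?_, ?_⟩
  · apply lt_of_le_of_ne
    · apply (hle π₀).2
      rw [hπ, ← WithZero.exp_zero, WithZero.exp_le_exp]
      norm_num
    · intro h
      have h3 : V.valuation ((π₀⁻¹ : N₀) : E) ≤ 1 := by
        have h4 : ((π₀⁻¹ : N₀) : E) = (π₀ : E)⁻¹ := rfl
        rw [h4, map_inv₀, h, inv_one]
      have h5 := (hle _).1 h3
      rw [map_inv₀, hπ, ← WithZero.exp_neg, ← WithZero.exp_zero, WithZero.exp_le_exp] at h5
      norm_num at h5
  · intro a ha
    have hva : Q.v a ≠ 0 := (_root_.map_ne_zero _).2 ha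
    set m : ℤ := log (Q.v a) with hm
    have hexp : Q.v a = exp m := (WithZero.exp_log hva).symm
    refine ⟨-m, ?_⟩
    have hu : Q.v (a * π₀ ^ m) = 1 := by
      rw [map_mul, map_zpow₀, hπ, hexp, ← WithZero.exp_zsmul, ← WithZero.exp_add,
        ← WithZero.exp_zero]
      congr 1
      simp
    have h6 := hone _ hu
    have h7 : ((a * π₀ ^ m : N₀) : E) = (a : E) * (π₀ : E) ^ m := by
      push_cast
      rfl
    rw [h7, map_mul, map_zpow₀] at h6
    rw [zpow_neg]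
    exact eq_inv_of_mul_eq_one_left h6

variable {KK : Type} {E : Type} [Field KK] [Field E] [Algebra ℂ KK] [Algebra ℂ[X] KK]
  [IsScalarTower ℂ ℂ[X] KK] [IsFractionRing ℂ[X] KK] [Algebra KK E] [Algebra ℂ[X] E]
  [IsScalarTower ℂ[X] KK E] [Algebra ℂ E] [IsScalarTower ℂ KK E] [IsAlgClosure KK E]

/-- M9c (pure algebra, ~700 lines).  `N₀ = N ∩ Fix g` with a discrete place `Q⁰`, uniformiser `π ∈ KK`, and `n`-th roots `τ_n ∈ N` of `π` with `g τ_n = ζ_n τ_n`.
Take `V` = any valuation ring of `E` dominating the local ring `Q⁰.O` (Mathlib: `LocalSubring.exists_le_valuationSubring`-type lemma; valuation rings are maximal for domination, so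
`V ∩ N₀ = Q⁰.O`).  For `y ∈ N` choose `n` with `g^n y = y`; `y = ∑_{j<n} a_j τ_n^j`, `a_j = (1/n) ∑_i ζ^{-ij} g^i y / τ_n^j ∈ N₀`; the values `V.valuation (a_j τ_n^j)` of the nonzero terms are pairwise
distinct (`v(τ_n)^n = v(π)` generates `v(N₀ˣ)`), so `y ∈ V ⇔ ∀ j, a_j τ_n^j ∈ V`; and `a_j (g y) = ζ^j a_j (y)`. -/
theorem ret_stable_ext (N : IntermediateField KK E) (hN : ∀ (g : E ≃ₐ[KK] E), ∀ y ∈ N, g y ∈ N)
    (g : E ≃ₐ[KK] E) (Q : Place ℂ ↥(N ⊓ IntermediateField.fixedField (Subgroup.zpowers g))) (π : KK)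
    (hπ : Q.v (algebraMap KK _ π) = exp (-1))
    (hτ : ∀ n : ℕ, 0 < n → ∃ τ ∈ N, τ ^ n = algebraMap KK E π ∧
      g τ = algebraMap KK E (algebraMap ℂ KK (zetaC n)) * τ) :
    ∃ V : ValuationSubring E,
      V.comap (algebraMap ↥(N ⊓ IntermediateField.fixedField (Subgroup.zpowers g)) E) = Q.O ∧
      ∀ y ∈ N, (y ∈ V ↔ g y ∈ V) := by
  have hchar : CharZero KK := charZero_of_injective_algebraMap (algebraMap ℂ KK).injective
  have hcharE : CharZero E := charZero_of_injective_algebraMap (algebraMap KK E).injective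
  have hint : Algebra.IsIntegral KK E := (IsAlgClosure.isAlgebraic (R := KK) (K := E)).isIntegral
  obtain ⟨V, hV⟩ := ret_exists_valuationSubring_comap (E := E) Q.O
  refine ⟨V, hV, ?_⟩
  obtain ⟨h0, h1, hF⟩ := ret_val_of_place _ Q V hV (algebraMap KK _ π) hπ
  have hfixmem : ∀ a ∈ N, g a = a →
      a ∈ N ⊓ IntermediateField.fixedField (Subgroup.zpowers g) := by
    intro a haN hga
    rw [IntermediateField.mem_inf]
    refine ⟨haN, ?_⟩
    rw [IntermediateField.mem_fixedField_iff]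
    intro f hf
    obtain ⟨m, rfl⟩ := Subgroup.mem_zpowers_iff.1 hf
    have hstab : g ∈ MulAction.stabilizer (E ≃ₐ[KK] E) a := hga
    exact (MulAction.stabilizer (E ≃ₐ[KK] E) a).zpow_mem hstab m
  refine ret_stable_core V g N (hN g) h0 h1 ?_
    (fun n => algebraMap KK E (algebraMap ℂ KK (zetaC n))) ?_ ?_ ?_ hτ
  · intro a haN hga ha0
    exact hF ⟨a, hfixmem a haN hga⟩ (by
      intro h
      exact ha0 (congrArg Subtype.val h))
  · intro n hn
    exact ((zetaC_isPrimitiveRoot hn.ne').map_of_injective (algebraMap ℂ KK).injective).map_of_injective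
      (algebraMap KK E).injective
  · intro n
    exact N.algebraMap_mem _
  · intro n
    exact g.commutes _

end Claimed.Agent.R280
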