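import Claimed.Agent.R280.RET.ModelFixed
import Claimed.Agent.R280.RET.ModelRoot
import Claimed.Agent.R280.RET.ModelW
import Claimed.Agent.R280.RET.StableExt
import Claimed.Agent.R280.RET.LiftDecomp
import Claimed.Agent.R280.RET.HomOrbit
import Claimed.Agent.R280.RET.ModelOrbit

/-! # Row 280, RET / MODEL: M9, M10 (glue) (overview: header of `ModelDefs.lean`) -/

set_option autoImplicit false
set_option linter.style.haveILetI false
set_option linter.unusedSectionVars false

namespace Claimed.Agent.R280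

open Polynomial WithZero
open scoped Pointwise

variable {KK : Type} {E : Type} [Field KK] [Field E] [Algebra ℂ KK] [Algebra ℂ[X] KK]
  [IsScalarTower ℂ ℂ[X] KK] [IsFractionRing ℂ[X] KK] [Algebra KK E] [Algebra ℂ[X] E]
  [IsScalarTower ℂ[X] KK E] [Algebra ℂ E] [IsScalarTower ℂ KK E] [IsAlgClosure KK E]

/-- `(x - a)/(x - a')` is a uniformiser wherever `x - a` is one -/
theorem ret_place_unif (N₀ : IntermediateField KK E) (Q : Place ℂ N₀) {a a' : ℂ} (hne : a ≠ a')
    (hQ1 : Q.v (algebraMap KK N₀ (retX KK - algebraMap ℂ KK a)) = exp (-1)) :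
    Q.v (algebraMap KK N₀
      ((retX KK - algebraMap ℂ KK a) / (retX KK - algebraMap ℂ KK a'))) = exp (-1) := by
  have hQ2 : Q.v (algebraMap KK N₀ (retX KK - algebraMap ℂ KK a')) = 1 := by
    have h2 : Q.v (algebraMap KK N₀ (algebraMap ℂ KK (a - a'))) = 1 := by
      rw [← IsScalarTower.algebraMap_apply]
      exact Q.triv _ (sub_ne_zero.2 hne)
    have : retX KK - algebraMap ℂ KK a'
        = (retX KK - algebraMap ℂ KK a) + algebraMap ℂ KK (a - a') := by
      rw [map_sub]; ring
    rw [this, map_add, Valuation.map_add_eq_of_lt_right, h2]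
    rw [h2, hQ1]
    rw [← exp_zero]; exact exp_lt_exp.2 (by norm_num)
  rw [map_div₀, map_div₀, hQ1, hQ2, div_one]

/-- a valuation ring of `E` whose trace on `N₀` is a place where `x - a` is a uniformiser lies above the place `x = a` -/
theorem ret_above_of_comap (N₀ : IntermediateField KK E) (Q : Place ℂ N₀) {a : ℂ}
    (hQ1 : Q.v (algebraMap KK N₀ (retX KK - algebraMap ℂ KK a)) = exp (-1))
    {V : ValuationSubring E} (hVQ : V.comap (algebraMap N₀ E) = Q.O) {P₀ : Place ℂ KK}
    (hP₀ : P₀.IsAt (retX KK) a) : P₀.Above E V := by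
  have hx := retX_isRatGen KK
  haveI : IsFF ℂ KK := hx.isFF
  change V.comap (algebraMap KK E) = P₀.O
  have h1 : V.comap (algebraMap KK E) = Q.O.comap (algebraMap KK N₀) := by
    rw [← hVQ]
    ext f
    simp only [ValuationSubring.mem_comap]
    rw [← IsScalarTower.algebraMap_apply]
  rw [h1]
  have h3 : (1 : ℤᵐ⁰) < (exp (-1 : ℤ))⁻¹ := by
    rw [← exp_neg, ← exp_zero]; exact exp_lt_exp.2 (by norm_num)
  have hnot : (retX KK - algebraMap ℂ KK a)⁻¹ ∉ Q.O.comap (algebraMap KK N₀) := by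
    intro this
    rw [ValuationSubring.mem_comap, Valuation.mem_valuationSubring_iff, map_inv₀, map_inv₀,
      hQ1] at this
    exact absurd this (not_le.2 h3)
  obtain ⟨P', hP'⟩ := exists_place_of_valuationSubring (k := ℂ) (Q.O.comap (algebraMap KK N₀))
    (fun c => by
      rw [ValuationSubring.mem_comap, ← IsScalarTower.algebraMap_apply]
      exact Q.algebraMap_mem c)
    (fun htop => hnot (by rw [htop]; trivial))
  rw [← hP']
  have hat : P'.IsAt (retX KK) a := by
    change P'.v _ < 1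
    by_contra hcon
    rw [not_lt] at hcon
    apply hnot
    rw [← hP', Valuation.mem_valuationSubring_iff, map_inv₀]
    exact inv_le_one_of_one_le₀ hcon
  rw [hx.isAt_unique hat hP₀]

variable {r : ℕ} {b : Fin r → ℂ} {P : Fin r → Place ℂ KK}

/-- M9 (glue, ~200 lines): M9a + `RetIsReal.exists_place` at `b k` + M8 (with some `l ≠ k`; `(P k).v (x - b l) = 1`) + M9c + (`V` is above `P k`: the place of `KK` below `Q` is `x = b k`) + M9d. -/
theorem RetModel.exists_decomp (m : RetModel E b P) (hb : StrictMono fun k => (b k).re)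
    (hP : ∀ k, (P k).IsAt (retX KK) (b k)) (hr : 2 ≤ r) (k : Fin r) :
    ∃ V : ValuationSubring E, (P k).Above E V ∧
      ∃ g : E ≃ₐ[KK] E, g • V = V ∧ ∀ y ∈ retN E (Set.range P), g y = m.γ k y := by
  have hN : ∀ (g : E ≃ₐ[KK] E), ∀ y ∈ retN E (Set.range P), g y ∈ retN E (Set.range P) :=
    fun g y hy => retN_normal _ g hy
  obtain ⟨ev, hev⟩ := m.exists_real_W hb hP k
  obtain ⟨Q, hQ1, -⟩ := hev.exists_place (retW_isOpen b k) (retW_convex b k).isPreconnected
    (mem_retW_self hb k)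
  obtain ⟨l, hl⟩ : ∃ l : Fin r, k ≠ l := by
    by_cases hk : k.val = 0
    · exact ⟨⟨1, by omega⟩, fun h => by have := congrArg Fin.val h; simp at this; omega⟩
    · exact ⟨⟨0, by omega⟩, fun h => by have := congrArg Fin.val h; simp at this; omega⟩
  have hne : b k ≠ b l := fun h => hl (hb.injective (congrArg Complex.re h))
  obtain ⟨V, hVQ, hVg⟩ := ret_stable_ext (retN E (Set.range P)) hN (m.γ k) Q _
    (ret_place_unif _ Q hne hQ1) (fun n hn => m.exists_root hb hP hl hn)
  have hVP : (P k).Above E V := ret_above_of_comap _ Q hQ1 hVQ (hP k)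
  obtain ⟨g', hg'V, hg'N⟩ := ret_lift_decomp (retN E (Set.range P)) hN hVP (m.γ k) hVg
  exact ⟨V, hVP, g', hg'V, hg'N⟩

/-- M10 -/
theorem RetModel.exists_hom (m : RetModel E b P) (hb : StrictMono fun k => (b k).re)
    (hP : ∀ k, (P k).IsAt (retX KK) (b k)) (hr : 0 < r) {G : Type} [Group G] [Finite G] (g : Fin r → G)
    (hg : (List.ofFn g).prod = 1) :
    ∃ φ : (E ≃ₐ[KK] E) →* G, IsOpen (φ.ker : Set (E ≃ₐ[KK] E)) ∧
      (∀ σ : E ≃ₐ[KK] E, (∀ y ∈ retN E (Set.range P), σ y = y) → φ σ = 1) ∧ ∀ k, φ (m.γ k) = g k := by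
  obtain ⟨y, h1, h2, h3⟩ := m.exists_orbit hb hP hr g hg
  exact ret_hom_of_orbit (retN E (Set.range P)) (fun g y hy => retN_normal _ g hy) m.γ
    (fun y hy hf => m.fixed hb hP hy hf) g y h1 h2 h3

end Claimed.Agent.R280
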