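import Claimed.Agent.R280.RET.ModelSplit
import Claimed.Agent.R280.RET.HolProd

/-! # Row 280, RET / MODEL: small algebraic tools (PROVED; owner helper30) -/

set_option autoImplicit false
set_option linter.unusedSectionVars false

namespace Claimed.Agent.R280

open Polynomial WithZero
open scoped Pointwise

variable {KK : Type} {E : Type} [Field KK] [Field E] [Algebra ℂ KK] [Algebra ℂ[X] KK]
  [IsScalarTower ℂ ℂ[X] KK] [IsFractionRing ℂ[X] KK] [Algebra KK E] [Algebra ℂ[X] E]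
  [IsScalarTower ℂ[X] KK E] [Algebra ℂ E] [IsScalarTower ℂ KK E] [IsAlgClosure KK E]

theorem ret_algebraMap_mem (L : IntermediateField KK E) (p : ℂ[X]) : algebraMap ℂ[X] E p ∈ L := by
  rw [IsScalarTower.algebraMap_apply ℂ[X] KK E]
  exact L.algebraMap_mem _

theorem ret_map_algebraMap (g : E ≃ₐ[KK] E) (p : ℂ[X]) :
    g (algebraMap ℂ[X] E p) = algebraMap ℂ[X] E p := by
  rw [IsScalarTower.algebraMap_apply ℂ[X] KK E, g.commutes]

theorem ret_isIntegral_map (g : E ≃ₐ[KK] E) {y : E} (hi : IsIntegral ℂ[X] y) :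
    IsIntegral ℂ[X] (g y) :=
  hi.map (g.toAlgHom.restrictScalars ℂ[X])

theorem ret_aeval_map (g : E ≃ₐ[KK] E) (y : E) (G : ℂ[X][X]) :
    Polynomial.aeval (g y) G = g (Polynomial.aeval y G) :=
  Polynomial.aeval_algHom_apply (g.toAlgHom.restrictScalars ℂ[X]) y G

theorem ret_algebraMap_ne_zero (KK : Type) {E : Type} [Field KK] [Field E] [Algebra ℂ[X] KK]
    [IsFractionRing ℂ[X] KK] [Algebra KK E] [Algebra ℂ[X] E] [IsScalarTower ℂ[X] KK E] {p : ℂ[X]}
    (hp : p ≠ 0) : algebraMap ℂ[X] E p ≠ 0 := by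
  rw [IsScalarTower.algebraMap_apply ℂ[X] KK E]
  intro h
  have h1 := (map_eq_zero (algebraMap KK E)).1 h
  exact hp ((IsFractionRing.injective ℂ[X] KK) (by rw [h1, map_zero]))

variable {r : ℕ} {b : Fin r → ℂ} {P : Fin r → Place ℂ KK}

/-- all roots of the minimal polynomial of an integral element of `N` are in `N` -/
theorem retN_of_root_minpoly (hb : StrictMono fun k => (b k).re)
    (hP : ∀ k, (P k).IsAt (retX KK) (b k)) {y : E} (hy : y ∈ retN E (Set.range P))
    (hi : IsIntegral ℂ[X] y) {w : E} (hw : Polynomial.aeval w (minpoly ℂ[X] y) = 0) :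
    w ∈ retN E (Set.range P) := by
  obtain ⟨R, hR, h3⟩ := retN_hsplits_Ext hP hy hi
  exact retN_of_hsplits hb hP (minpoly.monic hi) (retN_hsplits_Dup hb hP hy hi)
    (retN_hsplits_Ddn hb hP hy hi) hR h3 hw

theorem exists_ret_bound (b : Fin r → ℂ) (R0 : ℝ) :
    ∃ R : ℝ, 0 ≤ R ∧ R0 ≤ R ∧ ∀ k, |(b k).re| ≤ R ∧ |(b k).im| ≤ R := by
  refine ⟨|R0| + ∑ k, (|(b k).re| + |(b k).im|), ?_, ?_, fun k => ?_⟩
  · have : 0 ≤ ∑ k, (|(b k).re| + |(b k).im|) := Finset.sum_nonneg fun k _ => by positivity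
    positivity
  · have : 0 ≤ ∑ k, (|(b k).re| + |(b k).im|) := Finset.sum_nonneg fun k _ => by positivity
    linarith [le_abs_self R0]
  · have := Finset.single_le_sum (f := fun k => |(b k).re| + |(b k).im|)
      (fun k _ => by positivity) (Finset.mem_univ k)
    constructor <;> linarith [abs_nonneg (b k).re, abs_nonneg (b k).im, abs_nonneg R0]

theorem retExt_mono {R R' : ℝ} (h : R ≤ R') : retExt R' ⊆ retExt R := by
  rintro z (hz | hz)
  · exact Or.inl (lt_of_le_of_lt h hz)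
  · exact Or.inr (lt_of_le_of_lt h hz)

end Claimed.Agent.R280
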