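import Claimed.Agent.R280.RET.Local

/-!
# Row 280, package RET / MODEL: the analytic model of the maximal extension unramified outside `b`   (owner of the statements: helper30)

Context as in `RealDefs.lean`; `x = retX KK`; `b : Fin r → ℂ` with strictly increasing real parts; `P k` = the place `x = b k`; `N = retN E (range P)`.

`RetModel E b P` : realizations `evU` of `N` on `retDup b`, `evD` on `retDdn b`, and automorphisms `α j` (`j ≤ r`) with `evD y = evU (α j y)` on the strip `retA b j`.
`γ k = α k * (α (k+1))⁻¹` = analytic continuation along a counterclockwise loop around `b k`: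
  `evU (γ k y)` on `retA b k` (left of `b k`) is the continuation of `evU y` on `retA b (k+1)` (right of `b k`) across the upward cut.

* M1 `retN_normal`.
* M2 `retN_hsplits_Dup/Ddn/Ext` : elements of `N` split holomorphically  (LOCAL + SPLIT).
* M3 `retN_of_hsplits` : conversely.
* M4 `ret_exists_model`.
* M6 `RetModel.fixed` : the fixed field of the `γ k` in `N` is `KK`.
* M7 `RetModel.alpha_zero_eq` : `α 0 = α r` on `N`, hence `γ 0 * ⋯ * γ (r-1) = 1` on `N` (`RetModel.prod_gamma`).
* M8 `RetModel.exists_root` : `γ k` multiplies an `n`-th root of the uniformiser `(x - b k)/(x - b l)` by `exp (2πi/n)`.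
* M9 `RetModel.exists_decomp` : `γ k` on `N` is induced by an element of a decomposition group over `P k`.
* M10 `RetModel.exists_hom` : existence of covers with prescribed monodromy (consumer of Layer 3).
-/

set_option autoImplicit false
set_option linter.unusedSectionVars false

namespace Claimed.Agent.R280

open Polynomial WithZero
open scoped Pointwise

variable {KK : Type} (E : Type) [Field KK] [Field E] [Algebra ℂ KK] [Algebra ℂ[X] KK]
  [IsScalarTower ℂ ℂ[X] KK] [IsFractionRing ℂ[X] KK] [Algebra KK E] [Algebra ℂ[X] E]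
  [IsScalarTower ℂ[X] KK E] [Algebra ℂ E] [IsScalarTower ℂ KK E] [IsAlgClosure KK E]

/-- the analytic model -/
structure RetModel {r : ℕ} (b : Fin r → ℂ) (P : Fin r → Place ℂ KK) where
  evU : E → ℂ → ℂ
  evD : E → ℂ → ℂ
  α : ℕ → (E ≃ₐ[KK] E)
  realU : RetIsReal E (retN E (Set.range P)) evU (retDup b)
  realD : RetIsReal E (retN E (Set.range P)) evD (retDdn b)
  cmp : ∀ j, j ≤ r → ∀ y ∈ retN E (Set.range P), IsIntegral ℂ[X] y →
    Set.EqOn (evD y) (evU (α j y)) (retA b j)

variable {E}

/-- the monodromy generator at `b k` -/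
noncomputable def RetModel.γ {r : ℕ} {b : Fin r → ℂ} {P : Fin r → Place ℂ KK} (m : RetModel E b P)
    (k : Fin r) : E ≃ₐ[KK] E := m.α k * (m.α (k + 1))⁻¹

/-- M1: conjugates of decomposition groups are decomposition groups -/
theorem retN_normal (S : Set (Place ℂ KK)) (g : E ≃ₐ[KK] E) {y : E} (hy : y ∈ retN E S) :
    g y ∈ retN E S := by
  have : IsFF ℂ KK := (retX_isRatGen KK).isFF
  rw [mem_retN_iff] at hy ⊢
  rintro h ⟨Q, hQ, V, hV, hh⟩
  have h1 : g⁻¹ * h * g ∈ retI E S := by
    refine ⟨Q, hQ, g⁻¹ • V, Place.above_smul hV _, ?_⟩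
    rw [← mul_smul, mul_assoc, mul_inv_cancel, mul_one, mul_smul, hh]
  have h2 := hy _ h1
  have h3 : g ((g⁻¹ * h * g) y) = h (g y) := by
    change g (g⁻¹ (h (g y))) = h (g y)
    simp [AlgEquiv.aut_inv]
  rw [← h3, h2]

/-- every element of `E` is an integral element divided by a polynomial (`KK` is EXPLICIT) -/
theorem ret_exists_integral_mul (KK : Type) {E : Type} [Field KK] [Field E] [Algebra ℂ[X] KK]
    [IsFractionRing ℂ[X] KK] [Algebra KK E] [Algebra ℂ[X] E] [IsScalarTower ℂ[X] KK E]
    [IsAlgClosure KK E] (y : E) :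
    ∃ p : ℂ[X], p ≠ 0 ∧ IsIntegral ℂ[X] (algebraMap ℂ[X] E p * y) := by
  have halg : IsAlgebraic KK y := (IsAlgClosure.isAlgebraic (R := KK) (K := E)).isAlgebraic y
  have halg' : IsAlgebraic ℂ[X] y := (IsFractionRing.isAlgebraic_iff ℂ[X] KK E).2 halg
  obtain ⟨p, hp, hi⟩ := halg'.exists_integral_multiple
  refine ⟨p, hp, ?_⟩
  rw [← Algebra.smul_def]
  exact hi

theorem ret_prod_telescope {G : Type} [Group G] (α : ℕ → G) (r : ℕ) :
    (List.ofFn fun k : Fin r => α k * (α (k + 1))⁻¹).prod = α 0 * (α r)⁻¹ := by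
  induction r with
  | zero => simp
  | succ n ih =>
    rw [List.ofFn_succ_last, List.prod_append, List.prod_singleton]
    simp only [Fin.val_castSucc, Fin.val_last]
    rw [ih]
    group

variable {r : ℕ} {b : Fin r → ℂ} {P : Fin r → Place ℂ KK}

/-- telescoping -/
theorem RetModel.prod_gamma (m : RetModel E b P) : (List.ofFn m.γ).prod = m.α 0 * (m.α r)⁻¹ :=
  ret_prod_telescope m.α r

end Claimed.Agent.R280
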