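import Claimed.Agent.R280.RET.ModelAux
import Claimed.Agent.R280.RET.GlueFun

/-! # Row 280, RET / MODEL: M6, M7 (overview: header of `ModelDefs.lean`) -/

set_option autoImplicit false
set_option linter.unusedSectionVars false

namespace Claimed.Agent.R280

open Polynomial WithZero
open scoped Pointwise

variable {KK : Type} {E : Type} [Field KK] [Field E] [Algebra ℂ KK] [Algebra ℂ[X] KK]
  [IsScalarTower ℂ ℂ[X] KK] [IsFractionRing ℂ[X] KK] [Algebra KK E] [Algebra ℂ[X] E]
  [IsScalarTower ℂ[X] KK E] [Algebra ℂ E] [IsScalarTower ℂ KK E] [IsAlgClosure KK E]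

variable {r : ℕ} {b : Fin r → ℂ} {P : Fin r → Place ℂ KK}

/-- M6 for integral elements -/
theorem RetModel.fixed_integral (m : RetModel E b P) (hb : StrictMono fun k => (b k).re)
    {y : E} (hy : y ∈ retN E (Set.range P))
    (hi : IsIntegral ℂ[X] y) (hfix : ∀ k, m.γ k y = y) : y ∈ Set.range (algebraMap KK E) := by
  -- `(α j)⁻¹ y` does not depend on `j`
  have hstep : ∀ j, j ≤ r → (m.α j)⁻¹ y = (m.α 0)⁻¹ y := by
    intro j
    induction j with
    | zero => intro _; rfl
    | succ j ih =>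
      intro hj
      have h1 := hfix ⟨j, hj⟩
      have h2 : m.α j ((m.α (j + 1))⁻¹ y) = y := h1
      rw [← ih (by omega)]
      have h3 : (m.α j)⁻¹ (m.α j ((m.α (j + 1))⁻¹ y)) = (m.α (j + 1))⁻¹ y := by
        simp [AlgEquiv.aut_inv]
      rw [← h3, h2]
  set g := (m.α 0)⁻¹ y with hg
  have hgN : g ∈ retN E (Set.range P) := retN_normal _ _ hy
  have hgi : IsIntegral ℂ[X] g := ret_isIntegral_map _ hi
  have huv : ∀ j, j ≤ r → Set.EqOn (m.evU y) (m.evD g) (retA b j) := by
    intro j hj z hz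
    rw [m.cmp j hj g hgN hgi hz, ← hstep j hj]
    congr 2
    simp [AlgEquiv.aut_inv]
  obtain ⟨C, n, hC⟩ := ret_root_bound (minpoly.monic hi)
  obtain ⟨p, hp, -⟩ := ret_glue_polynomial hb (m.realU.holo y hy hi) (m.realD.holo g hgN hgi) huv
    (C := C) (n := n) (fun z hz => hC z _ (m.realU.root hy hi (minpoly.aeval _ _) hz))
  have hyp : y = algebraMap ℂ[X] E p :=
    m.realU.eq_of_eqOn (retDup_isOpen b) (retDup_isPreconnected b) hy (ret_algebraMap_mem _ p) hi
      isIntegral_algebraMap (retDup_isOpen b) (retDup_nonempty b) subset_rfl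
      (fun z hz => by rw [hp z hz, m.realU.poly p z hz])
  exact ⟨algebraMap ℂ[X] KK p, by rw [hyp, ← IsScalarTower.algebraMap_apply]⟩

/-- M6.  Wlog `y` integral (`ret_exists_integral_mul KK y`).  `g := (α j)⁻¹ y` does not depend on `j ≤ r` (as `γ k y = y`); `u = evU y`, `v = evD g` agree on all
`retA b j`; growth by `ret_root_bound`; `ret_glue_polynomial` gives `p`; `evU y = evU p` ⇒ `y = p` (`RetIsReal.eq_of_eqOn`). -/
theorem RetModel.fixed (m : RetModel E b P) (hb : StrictMono fun k => (b k).re)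
    (hP : ∀ k, (P k).IsAt (retX KK) (b k)) {y : E} (hy : y ∈ retN E (Set.range P))
    (hfix : ∀ k, m.γ k y = y) : y ∈ Set.range (algebraMap KK E) := by
  obtain ⟨p, hp, hi⟩ := ret_exists_integral_mul KK y
  obtain ⟨c, hc⟩ := m.fixed_integral hb
    ((retN E (Set.range P)).mul_mem (ret_algebraMap_mem _ p) hy) hi
    (fun k => by rw [map_mul, ret_map_algebraMap, hfix k])
  have hp' : algebraMap ℂ[X] E p ≠ 0 := ret_algebraMap_ne_zero KK hp
  refine ⟨c / algebraMap ℂ[X] KK p, ?_⟩
  rw [map_div₀, hc, ← IsScalarTower.algebraMap_apply, mul_div_cancel_left₀ _ hp']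

/-- M7 for integral elements -/
theorem RetModel.alpha_zero_eq_integral (m : RetModel E b P) (hb : StrictMono fun k => (b k).re)
    (hP : ∀ k, (P k).IsAt (retX KK) (b k)) {w : E} (hw : w ∈ retN E (Set.range P))
    (hwi : IsIntegral ℂ[X] w) : m.α 0 w = m.α r w := by
  set y := m.α 0 w with hy
  have hyN : y ∈ retN E (Set.range P) := retN_normal _ _ hw
  have hyi : IsIntegral ℂ[X] y := ret_isIntegral_map _ hwi
  have hy'N : m.α r w ∈ retN E (Set.range P) := retN_normal _ _ hw
  have hy'i : IsIntegral ℂ[X] (m.α r w) := ret_isIntegral_map _ hwi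
  have hwroot : Polynomial.aeval w (minpoly ℂ[X] y) = 0 := by
    have h1 : Polynomial.aeval y (minpoly ℂ[X] y) = 0 := minpoly.aeval _ _
    rw [hy, ret_aeval_map] at h1
    exact (map_eq_zero_iff _ (m.α 0).injective).1 h1
  obtain ⟨R0, -, h3⟩ := retN_hsplits_Ext hP hyN hyi
  obtain ⟨R, hR0, hRR0, hR⟩ := exists_ret_bound b R0
  obtain ⟨θ, hθ, hs⟩ := h3.mono (retExt_mono hRR0)
  have hCdn : retCdn R ⊆ retExt R := by rw [← retCup_union_retCdn]; exact Set.subset_union_right
  have hCup : retCup R ⊆ retExt R := by rw [← retCup_union_retCdn]; exact Set.subset_union_left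
  have hleft : ((-(R + 1) : ℝ) : ℂ) ∈ {z : ℂ | z.re < -R} := by
    show ((-(R + 1) : ℝ) : ℂ).re < -R
    rw [Complex.ofReal_re]; linarith
  have hright : ((R + 1 : ℝ) : ℂ) ∈ {z : ℂ | R < z.re} := by
    show R < ((R + 1 : ℝ) : ℂ).re
    rw [Complex.ofReal_re]; linarith
  -- `evU y = θ i` on `retCdn R`
  obtain ⟨i, hi⟩ := ret_root_eq_of_split (retCdn_isOpen R) (retCdn_isPreconnected hR0)
    ⟨_, Or.inl hleft⟩ (fun i => (hθ i).mono hCdn) (fun z hz => hs z (hCdn hz))
    ((m.realU.holo y hyN hyi).mono (retCdn_subset_Dup hR))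
    (fun z hz => m.realU.root hyN hyi (minpoly.aeval _ _) (retCdn_subset_Dup hR hz))
  -- `evD w = θ i'` on `retCup R`
  obtain ⟨i', hi'⟩ := ret_root_eq_of_split (retCup_isOpen R) (retCup_isPreconnected hR0)
    ⟨_, Or.inl hleft⟩ (fun i => (hθ i).mono hCup) (fun z hz => hs z (hCup hz))
    ((m.realD.holo w hw hwi).mono (retCup_subset_Ddn hR))
    (fun z hz => m.realD.root hw hwi hwroot (retCup_subset_Ddn hR hz))
  -- `θ i = θ i'`
  have hθθ : Set.EqOn (θ i) (θ i') (retExt R) := by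
    refine ret_eqOn_of_eqOn_open (retExt_isOpen R) (retExt_isPreconnected hR0) (hθ i) (hθ i')
      (W' := {z : ℂ | z.re < -R}) (isOpen_lt Complex.continuous_re continuous_const) ⟨_, hleft⟩
      (fun z hz => hCdn (Or.inl hz)) ?_
    intro z hz
    rw [← hi (Or.inl hz), ← hi' (Or.inl hz),
      m.cmp 0 (Nat.zero_le _) w hw hwi (left_subset_retA hR hz)]
  symm
  refine m.realU.eq_of_eqOn (retDup_isOpen b) (retDup_isPreconnected b) hy'N hyN hy'i hyi
    (W' := {z : ℂ | R < z.re}) (isOpen_lt continuous_const Complex.continuous_re) ⟨_, hright⟩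
    (fun z hz => retCdn_subset_Dup hR (Or.inr (Or.inl hz))) ?_
  intro z hz
  rw [← m.cmp r le_rfl w hw hwi (right_subset_retA hR hz), hi' (Or.inr (Or.inl hz)),
    ← hθθ (hCdn (Or.inr (Or.inl hz))), hi (Or.inr (Or.inl hz))]

/-- M7.  Wlog `y` integral, `G = minpoly ℂ[X] y`, roots `θ i` on `retExt R` (M2, `R` large).  `evU y` is a root of `G` on the connected set `retCdn R`, so `evU y = θ i` there.
`g := (α 0)⁻¹ y`: `evD g = evU y` on `retA b 0 ⊇ {re < -R}`; `evD g = θ i'` on `retCup R`; so `θ i = θ i'` on `{re < -R}`, hence on `retExt R`; on `{re > R} ⊆ retA b r`: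
`evU (α r g) = evD g = θ i = evU y`, so `α r g = y`. -/
theorem RetModel.alpha_zero_eq (m : RetModel E b P) (hb : StrictMono fun k => (b k).re)
    (hP : ∀ k, (P k).IsAt (retX KK) (b k)) {y : E} (hy : y ∈ retN E (Set.range P)) :
    m.α 0 y = m.α r y := by
  obtain ⟨p, hp, hi⟩ := ret_exists_integral_mul KK y
  have h := m.alpha_zero_eq_integral hb hP
    ((retN E (Set.range P)).mul_mem (ret_algebraMap_mem _ p) hy) hi
  rw [map_mul, map_mul, ret_map_algebraMap, ret_map_algebraMap] at h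
  exact mul_left_cancel₀ (ret_algebraMap_ne_zero KK hp) h

end Claimed.Agent.R280
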