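import Claimed.Agent.R280.RET.ModelDefs
import Claimed.Agent.R280.RET.Split

/-! # Row 280, RET / MODEL: M2, M3, M4 (overview: header of `ModelDefs.lean`) -/

set_option autoImplicit false
set_option linter.unusedSectionVars false

namespace Claimed.Agent.R280

open Polynomial WithZero
open scoped Pointwise

variable {KK : Type} {E : Type} [Field KK] [Field E] [Algebra ℂ KK] [Algebra ℂ[X] KK]
  [IsScalarTower ℂ ℂ[X] KK] [IsFractionRing ℂ[X] KK] [Algebra KK E] [Algebra ℂ[X] E]
  [IsScalarTower ℂ[X] KK E] [Algebra ℂ E] [IsScalarTower ℂ KK E] [IsAlgClosure KK E]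

variable {r : ℕ} {b : Fin r → ℂ} {P : Fin r → Place ℂ KK}

/-! ### M2: `ret_local_split(_inf)` at every point (a point `a ∉ range b` has its place outside `range P` by `unique_pt`;
elements of `retI` fix all conjugates of `y` by M1), then `retHSplits_Dup/Ddn`. -/

theorem retN_local_split (hP : ∀ k, (P k).IsAt (retX KK) (b k))
    {y : E} (hy : y ∈ retN E (Set.range P)) (hi : IsIntegral ℂ[X] y) {a : ℂ} (ha : a ∉ Set.range b) :
    ∃ ε : ℝ, 0 < ε ∧ RetHSplits (minpoly ℂ[X] y) (Metric.ball a ε) := by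
  obtain ⟨Q₀, hQ₀⟩ := (retX_isRatGen KK).exists_isAt a
  have hQ₀P : Q₀ ∉ Set.range P := by
    rintro ⟨k, rfl⟩
    exact ha ⟨k, (hP k).unique_pt hQ₀⟩
  refine ret_local_split hi hQ₀ ?_
  intro V hV g hg σ
  exact mem_retN_iff.1 (retN_normal _ σ hy) g ⟨Q₀, hQ₀P, V, hV, hg⟩

theorem retN_hsplits_Dup (hb : StrictMono fun k => (b k).re) (hP : ∀ k, (P k).IsAt (retX KK) (b k))
    {y : E} (hy : y ∈ retN E (Set.range P)) (hi : IsIntegral ℂ[X] y) :
    RetHSplits (minpoly ℂ[X] y) (retDup b) := by
  apply retHSplits_Dup b hb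
  intro a ha
  refine retN_local_split hP hy hi ?_
  rintro ⟨k, rfl⟩
  exact not_mem_retDup b k ha

theorem retN_hsplits_Ddn (hb : StrictMono fun k => (b k).re) (hP : ∀ k, (P k).IsAt (retX KK) (b k))
    {y : E} (hy : y ∈ retN E (Set.range P)) (hi : IsIntegral ℂ[X] y) :
    RetHSplits (minpoly ℂ[X] y) (retDdn b) := by
  apply retHSplits_Ddn b hb
  intro a ha
  refine retN_local_split hP hy hi ?_
  rintro ⟨k, rfl⟩
  exact not_mem_retDdn b k ha

theorem retN_hsplits_Ext (hP : ∀ k, (P k).IsAt (retX KK) (b k))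
    {y : E} (hy : y ∈ retN E (Set.range P)) (hi : IsIntegral ℂ[X] y) :
    ∃ R : ℝ, 0 ≤ R ∧ RetHSplits (minpoly ℂ[X] y) (retExt R) := by
  obtain ⟨Q₀, hQ₀⟩ := (retX_isRatGen KK).exists_isAtInf
  have hQ₀P : Q₀ ∉ Set.range P := by
    rintro ⟨k, rfl⟩
    exact (hP k).not_isAtInf hQ₀
  refine ret_local_split_inf hi hQ₀ ?_
  intro V hV g hg σ
  exact mem_retN_iff.1 (retN_normal _ σ hy) g ⟨Q₀, hQ₀P, V, hV, hg⟩

/-- the splitting field of a monic `G` inside `E` is finite over `KK` -/
theorem ret_splitting_finite {G : ℂ[X][X]} (hG : G.Monic) :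
    FiniteDimensional KK (IntermediateField.adjoin KK {y : E | Polynomial.aeval y G = 0}) := by
  classical
  have hfin : Set.Finite {y : E | Polynomial.aeval y G = 0} := by
    refine ((G.map (algebraMap ℂ[X] E)).roots.toFinset.finite_toSet).subset ?_
    intro y hy
    rw [Finset.mem_coe, Multiset.mem_toFinset, Polynomial.mem_roots (hG.map _).ne_zero,
      Polynomial.IsRoot, Polynomial.eval_map, ← Polynomial.aeval_def]
    exact hy
  have := hfin.to_subtype
  apply IntermediateField.finiteDimensional_adjoin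
  intro y hy
  have : IsIntegral ℂ[X] y := ⟨G, hG, hy⟩
  exact this.tower_top

/-- the splitting field of `G` inside `E` is stable under automorphisms -/
theorem ret_splitting_normal (G : ℂ[X][X]) (g : E ≃ₐ[KK] E) (y : E)
    (hy : y ∈ IntermediateField.adjoin KK {y : E | Polynomial.aeval y G = 0}) :
    g y ∈ IntermediateField.adjoin KK {y : E | Polynomial.aeval y G = 0} := by
  have h1 : g y ∈ (IntermediateField.adjoin KK {y : E | Polynomial.aeval y G = 0}).map
      (g : E →ₐ[KK] E) := ⟨y, hy, rfl⟩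
  rw [IntermediateField.adjoin_map] at h1
  refine IntermediateField.adjoin.mono KK _ _ ?_ h1
  rintro _ ⟨w, hw, rfl⟩
  change Polynomial.aeval (g w) G = 0
  have h2 : Polynomial.aeval (g w) G = (g.toAlgHom.restrictScalars ℂ[X]) (Polynomial.aeval w G) :=
    (Polynomial.aeval_algHom_apply (g.toAlgHom.restrictScalars ℂ[X]) w G)
  rw [h2, (show Polynomial.aeval w G = 0 from hw), map_zero]

/-- M3: `L` = splitting field of `G` in `E` (finite, normal).  A place `Q ∉ range P` is `x = a`, `a ∉ range b`, or `x = ∞` (`isAtInf_or_isAt`);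
`a ∈ retDup b` or `a ∈ retDdn b`; `ret_exists_real_of_splitting` + `RetIsReal.exists_place(_inf)` + `ret_unram_at/inf`. -/
theorem retN_of_hsplits (hb : StrictMono fun k => (b k).re) (hP : ∀ k, (P k).IsAt (retX KK) (b k))
    {G : ℂ[X][X]} (hG : G.Monic) (h1 : RetHSplits G (retDup b)) (h2 : RetHSplits G (retDdn b)) {R : ℝ}
    (hR : 0 ≤ R) (h3 : RetHSplits G (retExt R)) {y : E} (hy : Polynomial.aeval y G = 0) :
    y ∈ retN E (Set.range P) := by
  rw [mem_retN_iff]
  rintro g ⟨Q, hQ, V, hV, hg⟩
  have hfin : FiniteDimensional KK (IntermediateField.adjoin KK {y : E | Polynomial.aeval y G = 0}) :=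
    ret_splitting_finite hG
  have hyL : y ∈ IntermediateField.adjoin KK {y : E | Polynomial.aeval y G = 0} :=
    IntermediateField.subset_adjoin KK _ hy
  rcases (retX_isRatGen KK).isAtInf_or_isAt Q with hinf | ⟨a, ha⟩
  · obtain ⟨ev, hev⟩ := ret_exists_real_of_splitting (KK := KK) (E := E) hG (retExt_isOpen R)
      (retExt_isPreconnected hR) ⟨((R + 1 : ℝ) : ℂ), Or.inl (by
        rw [Complex.ofReal_re]; exact lt_of_lt_of_le (by linarith) (le_abs_self _))⟩ h3
    obtain ⟨Q', hQ'⟩ := hev.exists_place_inf hR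
    exact ret_unram_inf _ (ret_splitting_normal G) hinf Q' hQ' hV hg hyL
  · have hab : a ∉ Set.range b := by
      rintro ⟨k, rfl⟩
      exact hQ ⟨k, (retX_isRatGen KK).isAt_unique (hP k) ha⟩
    rcases mem_retDup_or_retDdn hb hab with haD | haD
    · obtain ⟨ev, hev⟩ := ret_exists_real_of_splitting (KK := KK) (E := E) hG (retDup_isOpen b)
        (retDup_isPreconnected b) (retDup_nonempty b) h1
      obtain ⟨Q', hQ', -⟩ := hev.exists_place (retDup_isOpen b) (retDup_isPreconnected b) haD
      exact ret_unram_at _ (ret_splitting_normal G) ha Q' hQ' hV hg hyL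
    · obtain ⟨ev, hev⟩ := ret_exists_real_of_splitting (KK := KK) (E := E) hG (retDdn_isOpen b)
        (retDdn_isPreconnected b) (retDdn_nonempty b) h2
      obtain ⟨Q', hQ', -⟩ := hev.exists_place (retDdn_isOpen b) (retDdn_isPreconnected b) haD
      exact ret_unram_at _ (ret_splitting_normal G) ha Q' hQ' hV hg hyL

/-- M4: `ret_exists_real` on `retDup b`, `retDdn b` (M2), `ret_real_compare` on each `retA b j` (M1). -/
theorem ret_exists_model (hb : StrictMono fun k => (b k).re) (hP : ∀ k, (P k).IsAt (retX KK) (b k)) :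
    Nonempty (RetModel E b P) := by
  classical
  obtain ⟨evU, hU⟩ := ret_exists_real (retN E (Set.range P)) (retDup_isOpen b)
    (retDup_isPreconnected b) (retDup_nonempty b) (fun y hy hi => retN_hsplits_Dup hb hP hy hi)
  obtain ⟨evD, hD⟩ := ret_exists_real (retN E (Set.range P)) (retDdn_isOpen b)
    (retDdn_isPreconnected b) (retDdn_nonempty b) (fun y hy hi => retN_hsplits_Ddn hb hP hy hi)
  have hcmp : ∀ j, j ≤ r → ∃ g : E ≃ₐ[KK] E, ∀ y ∈ retN E (Set.range P), IsIntegral ℂ[X] y →
      Set.EqOn (evD y) (evU (g y)) (retA b j) := fun j hj =>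
    ret_real_compare (fun g y hy => retN_normal _ g hy) (retA_isOpen b j)
      (retA_convex b j).isPreconnected (retA_nonempty hb hj) (hU.mono (retA_subset_Dup b j))
      (hD.mono (retA_subset_Ddn b j))
  exact ⟨{ evU := evU
           evD := evD
           α := fun j => if hj : j ≤ r then Classical.choose (hcmp j hj) else 1
           realU := hU
           realD := hD
           cmp := fun j hj y hy hi => by
             simp only [dif_pos hj]
             exact Classical.choose_spec (hcmp j hj) y hy hi }⟩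

end Claimed.Agent.R280
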