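import Claimed.Agent.R280.Gal.ValExt

/-!
# Row 280, package RET: definitions and the interface between algebra (Layers 0, 1) and analysis (Layers 2, 3)

`M/ℂ` a function field, `E` an algebraic closure of `M`, `Gal = E ≃ₐ[M] E`.

* `zetaC m = exp (2πi/m)`.
* `HomUnram E G S` : homomorphisms `Gal → G` with open kernel, unramified outside the set `S` of places.
* `IsP1Datum E P γ V` : "`Gal(M_S/M)` is the free profinite group on the canonical inertia generators `γ k` at the valuation rings `V k`
  above the places `P k`, modulo the relation `γ 0 ⋯ γ (r-1) = 1`"  (genus zero, `S = range P`).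
  The relation is only required after applying a homomorphism in `HomUnram` (it does not hold in `Gal(E/M)`).
* `IsTorusDatum E P α β γ V` : the same in genus one, relation `[α, β] γ 0 ⋯ γ (n-1) = 1`.
* `Place.IsAt P x b`, `Place.IsAtInf P x` : the places `x = b`, `x = ∞`.
* `IsRatGen x` : `M = ℂ(x)`.

Owner: helper256.
-/

set_option autoImplicit false

namespace Claimed.Agent.R280

open WithZero
open scoped Pointwise

/-- the standard primitive `m`-th root of unity `exp (2πi/m)` -/
noncomputable def zetaC (m : ℕ) : ℂ := Complex.exp (2 * Real.pi * Complex.I / (m : ℂ))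

theorem zetaC_isPrimitiveRoot {m : ℕ} (hm : m ≠ 0) : IsPrimitiveRoot (zetaC m) m :=
  Complex.isPrimitiveRoot_exp m hm

section

variable {k M : Type} (E : Type) [Field k] [Field M] [Field E] [Algebra k M] [Algebra M E]

/-- homomorphisms `Gal(E/M) → G` with open kernel which are unramified outside `S` -/
def HomUnram (G : Type) [Group G] (S : Set (Place k M)) : Set ((E ≃ₐ[M] E) →* G) :=
  {φ | IsOpen (φ.ker : Set (E ≃ₐ[M] E)) ∧ ∀ P : Place k M, P ∉ S → UnramAt E φ P}

variable {E}

theorem homUnram_comp {S : Set (Place k M)} {G H : Type} [Group G] [Group H] (f : G →* H)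
    {Φ : (E ≃ₐ[M] E) →* G} (hΦ : Φ ∈ HomUnram E G S) : f.comp Φ ∈ HomUnram E H S := by
  refine ⟨Subgroup.isOpen_mono (H₁ := Φ.ker) (fun g hg => ?_) hΦ.1, fun P hP V hV g hg => ?_⟩
  · rw [MonoidHom.mem_ker] at hg ⊢
    rw [MonoidHom.comp_apply, hg, map_one]
  · rw [MonoidHom.comp_apply, hΦ.2 P hP V hV g hg, map_one]

end

section

variable {M : Type} (E : Type) [Field M] [Field E] [Algebra ℂ M] [Algebra M E]

/-- genus zero: canonical inertia generators `γ k` (at `V k` above `P k`) which freely generate, up to the relation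
`γ 0 ⋯ γ (r-1) = 1`, the Galois group of the maximal extension unramified outside `range P`. -/
structure IsP1Datum {r : ℕ} (P : Fin r → Place ℂ M) (γ : Fin r → (E ≃ₐ[M] E))
    (V : Fin r → ValuationSubring E) : Prop where
  above : ∀ k, (P k).Above E (V k)
  canon : ∀ k m, 0 < m → IsCanon E (P k) (V k) m (zetaC m) (γ k)
  bij : ∀ (G : Type) [Group G] [Finite G],
    Set.BijOn (fun (φ : (E ≃ₐ[M] E) →* G) (k : Fin r) => φ (γ k)) (HomUnram E G (Set.range P))
      {g | (List.ofFn g).prod = 1}

/-- genus one: the same with two more generators and the relation `[α, β] γ 0 ⋯ γ (n-1) = 1`. -/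
structure IsTorusDatum {n : ℕ} (P : Fin n → Place ℂ M) (α β : E ≃ₐ[M] E) (γ : Fin n → (E ≃ₐ[M] E))
    (V : Fin n → ValuationSubring E) : Prop where
  above : ∀ k, (P k).Above E (V k)
  canon : ∀ k m, 0 < m → IsCanon E (P k) (V k) m (zetaC m) (γ k)
  bij : ∀ (G : Type) [Group G] [Finite G],
    Set.BijOn (fun (φ : (E ≃ₐ[M] E) →* G) => ((φ α, φ β, fun k => φ (γ k)) : G × G × (Fin n → G)))
      (HomUnram E G (Set.range P))
      {t | t.1 * t.2.1 * t.1⁻¹ * t.2.1⁻¹ * (List.ofFn t.2.2).prod = 1}

end

section

variable {M : Type} [Field M] [Algebra ℂ M]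

/-- `M = ℂ(x)` -/
def IsRatGen (x : M) : Prop := Transcendental ℂ x ∧ IntermediateField.adjoin ℂ {x} = ⊤

/-- `P` is the place `x = b` -/
def Place.IsAt (P : Place ℂ M) (x : M) (b : ℂ) : Prop := P.v (x - algebraMap ℂ M b) < 1

/-- `P` is a pole of `x` -/
def Place.IsAtInf (P : Place ℂ M) (x : M) : Prop := 1 < P.v x

end

/-- **RET for the projective line, sorted form** (OUTPUT OF THE ANALYSIS, Layers 2 + 3; owner helper30).
`M = ℂ(x)`, branch points `b k` with strictly increasing real parts, `∞` unramified. -/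
def StRetSorted : Prop :=
  ∀ (M E : Type) [Field M] [Field E] [Algebra ℂ M] [Algebra M E] [IsAlgClosure M E] (x : M), IsRatGen x →
    ∀ (r : ℕ) (b : Fin r → ℂ), StrictMono (fun k => (b k).re) → ∀ P : Fin r → Place ℂ M,
      (∀ k, (P k).IsAt x (b k)) → ∃ γ V, IsP1Datum E P γ V

/-- **RET for the projective line**: arbitrary pairwise distinct places of a rational function field, in any order. -/
def StRetP1 : Prop :=
  ∀ (M E : Type) [Field M] [Field E] [Algebra ℂ M] [Algebra M E] [IsAlgClosure M E] (x : M), IsRatGen x →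
    ∀ (r : ℕ) (P : Fin r → Place ℂ M), Function.Injective P → ∃ γ V, IsP1Datum E P γ V

end Claimed.Agent.R280
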