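import Claimed.Agent.R280.RET.ParAux

/-! # Row 280, RET / PAR-2: the parametrix error operator is Fredholm (see `ParDefs.lean`) -/

set_option autoImplicit false

namespace Claimed.Agent.R280

open Complex MeasureTheory Topology
open scoped ContDiff BoundedContinuousFunction

variable {ι : Type} [Fintype ι] {E : Type} [NormedAddCommGroup E] [NormedSpace ℂ E]

namespace RetCutoffs

variable {𝒞 : RetCocycle ι E} {Ω : Set ℂ} (c : RetCutoffs 𝒞 Ω)

/-- the operator coefficient `(χ j * ∂̄χ' i) • T j i` -/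
noncomputable def opA (j i : ι) (x : ℂ) : E →L[ℂ] E :=
  (c.χ j x * retDbar (c.χ' i) x) • 𝒞.T j i x

theorem opA_continuous (j i : ι) : Continuous (c.opA j i) :=
  retPar_continuous_smul ((𝒞.isOpen j).inter (𝒞.isOpen i)) (c.coef_contDiff j i).continuous
    (c.coef_tsupport j i) (𝒞.holo j i).continuousOn

/-- one term of the kernel -/
noncomputable def kerTerm (j i : ι) (x z : ℂ) : E →L[ℂ] E :=
  (((Real.pi : ℂ)⁻¹) * (x - z)⁻¹ * c.lam i z) • c.opA j i x

theorem kerTerm_continuous (j i : ι) : Continuous (fun p : ℂ × ℂ => c.kerTerm j i p.1 p.2) := by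
  refine continuous_iff_continuousAt.2 (fun p => ?_)
  obtain ⟨x₀, z₀⟩ := p
  by_cases hxz : x₀ = z₀
  · subst hxz
    have h0 : (fun p : ℂ × ℂ => c.kerTerm j i p.1 p.2) =ᶠ[𝓝 (x₀, x₀)] fun _ => 0 := by
      by_cases hx : x₀ ∈ tsupport (c.lam i)
      · have h1 : ∀ᶠ p : ℂ × ℂ in 𝓝 (x₀, x₀), retDbar (c.χ' i) p.1 = 0 :=
          continuous_fst.continuousAt.eventually (c.dbar_near i hx)
        filter_upwards [h1] with p hp
        simp [kerTerm, opA, hp]
      · have h1 : ∀ᶠ p : ℂ × ℂ in 𝓝 (x₀, x₀), c.lam i p.2 = 0 :=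
          continuous_snd.continuousAt.eventually (notMem_tsupport_iff_eventuallyEq.1 hx)
        filter_upwards [h1] with p hp
        simp [kerTerm, hp]
    exact continuousAt_const.congr h0.symm
  · unfold kerTerm
    have hA : ContinuousAt (fun p : ℂ × ℂ => c.opA j i p.1) (x₀, z₀) :=
      ((c.opA_continuous j i).comp continuous_fst).continuousAt
    have hl : ContinuousAt (fun p : ℂ × ℂ => c.lam i p.2) (x₀, z₀) :=
      ((c.lam_smooth i).continuous.comp continuous_snd).continuousAt
    have hi : ContinuousAt (fun p : ℂ × ℂ => (p.1 - p.2)⁻¹) (x₀, z₀) :=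
      ContinuousAt.inv₀ (continuous_fst.sub continuous_snd).continuousAt (sub_ne_zero.2 hxz)
    exact ((continuousAt_const.mul hi).mul hl).smul hA

theorem kerTerm_eq_zero_of_x (j i : ι) {x : ℂ} (hx : x ∉ tsupport (retDbar (c.χ' i))) (z : ℂ) :
    c.kerTerm j i x z = 0 := by
  have : retDbar (c.χ' i) x = 0 := image_eq_zero_of_notMem_tsupport hx
  simp [kerTerm, opA, this]

theorem kerTerm_eq_zero_of_z (j i : ι) (x : ℂ) {z : ℂ} (hz : z ∉ tsupport (c.lam i)) :
    c.kerTerm j i x z = 0 := by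
  have : c.lam i z = 0 := image_eq_zero_of_notMem_tsupport hz
  simp [kerTerm, this]

open Classical in
/-- the kernel on `ι → E` -/
noncomputable def ker (x z : ℂ) : (ι → E) →L[ℂ] (ι → E) :=
  ∑ j, ∑ i, (ContinuousLinearMap.single ℂ (fun _ : ι => E) j).comp
    ((c.kerTerm j i x z).comp (ContinuousLinearMap.proj i))

theorem ker_apply (x z : ℂ) (v : ι → E) (j : ι) :
    c.ker x z v j = ∑ i, c.kerTerm j i x z (v i) := by
  classical
  unfold ker
  simp only [sum_apply, Finset.sum_apply, ContinuousLinearMap.comp_apply,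
    ContinuousLinearMap.single_apply, ContinuousLinearMap.proj_apply]
  rw [Finset.sum_eq_single j]
  · simp
  · intro b _ hb
    simp [Pi.single_eq_of_ne (Ne.symm hb)]
  · simp

theorem ker_continuous : Continuous (fun p : ℂ × ℂ => c.ker p.1 p.2) := by
  classical
  unfold ker
  refine continuous_finsetSum _ fun j _ => continuous_finsetSum _ fun i _ => ?_
  exact continuous_const.clm_comp ((c.kerTerm_continuous j i).clm_comp continuous_const)

theorem ker_hasCompactSupport : HasCompactSupport (fun p : ℂ × ℂ => c.ker p.1 p.2) := by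
  classical
  have hX : IsCompact (⋃ i, tsupport (retDbar (c.χ' i))) := isCompact_iUnion fun i => c.dbar_cpt i
  have hZ : IsCompact (⋃ i, tsupport (c.lam i)) := isCompact_iUnion fun i => c.lam_cpt i
  refine HasCompactSupport.intro (hX.prod hZ) (fun p hp => ?_)
  unfold ker
  refine Finset.sum_eq_zero fun j _ => Finset.sum_eq_zero fun i _ => ?_
  have : c.kerTerm j i p.1 p.2 = 0 := by
    by_cases h1 : p.1 ∈ tsupport (retDbar (c.χ' i))
    · by_cases h2 : p.2 ∈ tsupport (c.lam i)
      · exact absurd ⟨Set.mem_iUnion.2 ⟨i, h1⟩, Set.mem_iUnion.2 ⟨i, h2⟩⟩ hp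
      · exact c.kerTerm_eq_zero_of_z j i _ h2
    · exact c.kerTerm_eq_zero_of_x j i h1 _
  rw [this]; simp

theorem ker_integral [CompleteSpace E] (h : ℂ →ᵇ (ι → E)) (x : ℂ) (j : ι) :
    (∫ z : ℂ, c.ker x z (h z)) j = c.Kop (fun i z => h z i) j x := by
  have hZ : IsCompact (⋃ i, tsupport (c.lam i)) := isCompact_iUnion fun i => c.lam_cpt i
  have hkx : Continuous (fun z => c.ker x z) :=
    c.ker_continuous.comp (f := fun z : ℂ => (x, z)) (by fun_prop)
  have h0 : ∀ z, z ∉ (⋃ i, tsupport (c.lam i)) → c.ker x z = 0 := by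
    intro z hz
    ext v j
    rw [ker_apply]
    refine Finset.sum_eq_zero fun i _ => ?_
    rw [c.kerTerm_eq_zero_of_z j i x (fun hh => hz (Set.mem_iUnion.2 ⟨i, hh⟩))]
    simp
  have hint : Integrable (fun z : ℂ => c.ker x z (h z)) := retFR_integrable (c.ker x) hkx hZ h0 h
  have h1 := (ContinuousLinearMap.proj (R := ℂ) (φ := fun _ : ι => E) j).integral_comp_comm hint
  simp only [ContinuousLinearMap.proj_apply] at h1
  rw [← h1]
  simp only [ker_apply]
  have hci : ∀ i, Continuous (fun z => c.lam i z • h z i) := fun i =>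
    (c.lam_smooth i).continuous.smul ((continuous_apply i).comp h.continuous)
  have hsi : ∀ i, HasCompactSupport (fun z => c.lam i z • h z i) := fun i =>
    (c.lam_cpt i).smul_right
  have hterm : ∀ i z, c.kerTerm j i x z (h z i)
      = c.opA j i x (((Real.pi : ℂ)⁻¹) • ((x - z)⁻¹ • (c.lam i z • h z i))) := by
    intro i z
    simp only [kerTerm, smul_apply, map_smul, smul_smul, mul_assoc]
  have hinti : ∀ i, Integrable (fun z => ((Real.pi : ℂ)⁻¹) • ((x - z)⁻¹ • (c.lam i z • h z i))) :=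
    fun i => (retCauchy_integrable (hci i) (hsi i) x).smul _
  simp only [hterm]
  rw [integral_finsetSum _ (fun i _ => (c.opA j i x).integrable_comp (hinti i))]
  unfold Kop
  refine Finset.sum_congr rfl fun i _ => ?_
  rw [(c.opA j i x).integral_comp_comm (hinti i), integral_smul]
  simp only [opA, retCauchy, smul_apply]

end RetCutoffs

/-- PAR-2 (~500 lines): `1 + Kop` has finite codimension (kernel
`k x z v j = ∑ i, (π⁻¹ (x - z)⁻¹ lam i z χ j x ∂̄χ' i x) • T j i x (v i)` on `E' = ι → E`; apply `ret_kernel_fin_codim`). -/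
theorem ret_par_fredholm [FiniteDimensional ℂ E] (𝒞 : RetCocycle ι E) {Ω : Set ℂ} (c : RetCutoffs 𝒞 Ω) :
    ∃ N : ℕ, ∀ γ : ℕ → ι → ℂ → E, (∀ n i, Continuous (γ n i)) → (∀ n i, ∃ M, ∀ x, ‖γ n i x‖ ≤ M) →
      ∃ co : ℕ → ℂ, (∃ n < N, co n ≠ 0) ∧ ∃ h : ι → ℂ → E, (∀ i, Continuous (h i)) ∧
        ∀ j x, h j x + c.Kop h j x = ∑ n ∈ Finset.range N, co n • γ n j x := by
  have hcs : CompleteSpace E := FiniteDimensional.complete ℂ E
  obtain ⟨N, hN⟩ := ret_kernel_fin_codim c.ker c.ker_continuous c.ker_hasCompactSupport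
  refine ⟨N, fun γ hγc hγb => ?_⟩
  choose M hM using hγb
  let Γ : ℕ → (ℂ →ᵇ (ι → E)) := fun n =>
    BoundedContinuousFunction.ofNormedAddCommGroup (fun x i => γ n i x)
      (continuous_pi fun i => hγc n i) (∑ i, |M n i|) (fun x => by
        refine (pi_norm_le_iff_of_nonneg (Finset.sum_nonneg fun i _ => abs_nonneg _)).2 fun i => ?_
        exact ((hM n i x).trans (le_abs_self _)).trans
          (Finset.single_le_sum (f := fun i => |M n i|) (fun i _ => abs_nonneg _) (Finset.mem_univ i)))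
  obtain ⟨co, hco, h, hh⟩ := hN Γ
  refine ⟨co, hco, fun i z => h z i, fun i => (continuous_apply i).comp h.continuous, fun j x => ?_⟩
  have h1 := congrFun (hh x) j
  rw [Pi.add_apply, c.ker_integral h x j] at h1
  rw [h1]
  simp [Γ, Finset.sum_apply]

end Claimed.Agent.R280
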