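import Claimed.Agent.R280.RET.ParAux

/-! # Row 280, RET / PAR-3: from the integral equation to `∂̄ u = g` (see `ParDefs.lean`) -/

set_option autoImplicit false

namespace Claimed.Agent.R280

open Complex MeasureTheory Topology
open scoped ContDiff

section general

variable {F G : Type*} [NormedAddCommGroup F] [NormedSpace ℂ F] [NormedAddCommGroup G]
  [NormedSpace ℂ G]

theorem retPar_contDiffAt_clm_apply {n : WithTop ℕ∞} {T : ℂ → (F →L[ℂ] G)} {f : ℂ → F} {x : ℂ}
    (hT : ContDiffAt ℝ n T x) (hf : ContDiffAt ℝ n f x) :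
    ContDiffAt ℝ n (fun y => T y (f y)) x := by
  have hB : ContDiff ℂ n (fun p : (F →L[ℂ] G) × F => p.1 p.2) :=
    isBoundedBilinearMap_apply.contDiff
  exact (hB.restrict_scalars ℝ).contDiffAt.comp x (hT.prodMk hf)

theorem retPar_contDiffAt_of_holo [CompleteSpace F] {n : WithTop ℕ∞} {T : ℂ → F} {U : Set ℂ}
    (hU : IsOpen U) (hT : DifferentiableOn ℂ T U) {x : ℂ} (hx : x ∈ U) : ContDiffAt ℝ n T x :=
  ((hT.analyticAt (hU.mem_nhds hx)).contDiffAt (n := n)).restrict_scalars ℝ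

theorem retPar_contDiffAt_of_eventually_zero {n : WithTop ℕ∞} {f : ℂ → F} {x : ℂ}
    (h : ∀ᶠ y in 𝓝 x, f y = 0) : ContDiffAt ℝ n f x :=
  contDiffAt_const.congr_of_eventuallyEq (show f =ᶠ[𝓝 x] fun _ => (0 : F) from h)

end general

variable {ι : Type} [Fintype ι] {E : Type} [NormedAddCommGroup E] [NormedSpace ℂ E]

namespace RetCutoffs

variable {𝒞 : RetCocycle ι E} {Ω : Set ℂ} (c : RetCutoffs 𝒞 Ω)

/-- Step 1: `lam i • h i = h i` -/
theorem lam_smul_eq (i0 : ι) (g : ℂ → E) (hgΩ : tsupport g ⊆ Ω) (h : ι → ℂ → E)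
    (heq : ∀ j x, h j x + c.Kop h j x = c.χ j x • 𝒞.T j i0 x (g x)) (i : ι) (z : ℂ) :
    c.lam i z • h i z = h i z := by
  by_cases hz : h i z = 0
  · rw [hz, smul_zero]
  · have hχ : c.χ i z ≠ 0 := by
      intro h0
      apply hz
      have := heq i z
      simpa [RetCutoffs.Kop, h0] using this
    have hor : z ∈ Ω ∨ ∃ l, retDbar (c.χ' l) z ≠ 0 := by
      by_contra hcon
      push Not at hcon
      apply hz
      have hg0 : g z = 0 := image_eq_zero_of_notMem_tsupport (fun hh => hcon.1 (hgΩ hh))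
      have := heq i z
      simpa [RetCutoffs.Kop, hg0, hcon.2] using this
    rw [c.lam_one i z hχ hor, one_smul]

theorem smooth_one {f : ℂ → ℂ} (hf : ContDiff ℝ ∞ f) (x : ℂ) : ContDiffAt ℝ 1 f x :=
  (hf.of_le (by exact_mod_cast le_top)).contDiffAt

/-- the data term is `C¹` -/
theorem data_contDiff [CompleteSpace E] (i0 j : ι) {g : ℂ → E} (hg : ContDiff ℝ 1 g)
    (hgU : tsupport g ⊆ 𝒞.U i0) : ContDiff ℝ 1 (fun x => c.χ j x • 𝒞.T j i0 x (g x)) := by
  refine contDiff_iff_contDiffAt.2 (fun x => ?_)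
  by_cases hx1 : x ∈ tsupport (c.χ j)
  · by_cases hx2 : x ∈ tsupport g
    · exact (smooth_one (c.χ_smooth j) x).smul (retPar_contDiffAt_clm_apply
        (retPar_contDiffAt_of_holo ((𝒞.isOpen j).inter (𝒞.isOpen i0)) (𝒞.holo j i0)
          ⟨c.χ_supp j hx1, hgU hx2⟩) hg.contDiffAt)
    · refine retPar_contDiffAt_of_eventually_zero ?_
      filter_upwards [notMem_tsupport_iff_eventuallyEq.1 hx2] with y hy
      rw [hy]; simp
  · refine retPar_contDiffAt_of_eventually_zero ?_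
    filter_upwards [notMem_tsupport_iff_eventuallyEq.1 hx1] with y hy
    rw [hy]; simp

/-- the error terms are `C¹` -/
theorem err_contDiff [CompleteSpace E] (j i : ι) {φ : ℂ → E} (hφ : Continuous φ)
    (hφs : tsupport φ ⊆ tsupport (c.lam i)) :
    ContDiff ℝ 1 (fun x => (c.χ j x * retDbar (c.χ' i) x) • 𝒞.T j i x (retCauchy φ x)) := by
  have hcs : HasCompactSupport φ := (c.lam_cpt i).of_isClosed_subset (isClosed_tsupport _) hφs
  refine contDiff_iff_contDiffAt.2 (fun x => ?_)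
  by_cases hx1 : x ∈ tsupport (fun x => c.χ j x * retDbar (c.χ' i) x)
  · by_cases hx2 : x ∈ tsupport (c.lam i)
    · refine retPar_contDiffAt_of_eventually_zero ?_
      filter_upwards [c.dbar_near i hx2] with y hy
      rw [hy]; simp
    · refine (smooth_one (c.coef_contDiff j i) x).smul (retPar_contDiffAt_clm_apply
        (retPar_contDiffAt_of_holo ((𝒞.isOpen j).inter (𝒞.isOpen i)) (𝒞.holo j i)
          (c.coef_tsupport j i hx1)) ?_)
      exact retPar_contDiffAt_of_holo (isClosed_tsupport φ).isOpen_compl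
        (retCauchy_differentiableOn hφ hcs) (fun hh => hx2 (hφs hh))
  · refine retPar_contDiffAt_of_eventually_zero ?_
    filter_upwards [notMem_tsupport_iff_eventuallyEq.1 hx1] with y hy
    have hy' : c.χ j y * retDbar (c.χ' i) y = 0 := hy
    rw [hy']; simp

/-- one term of the parametrix solution -/
theorem term_dbar [CompleteSpace E] (j i : ι) {φ : ℂ → E} (hφ : ContDiff ℝ 1 φ)
    (hφs : HasCompactSupport φ) {x : ℂ} (hx : x ∈ 𝒞.U j) :
    DifferentiableAt ℝ (fun y => c.χ' i y • 𝒞.T j i y (retCauchy φ y)) x ∧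
      retDbar (fun y => c.χ' i y • 𝒞.T j i y (retCauchy φ y)) x
        = retDbar (c.χ' i) x • 𝒞.T j i x (retCauchy φ x) + c.χ' i x • 𝒞.T j i x (φ x) := by
  by_cases hx1 : x ∈ tsupport (c.χ' i)
  · have hxi : x ∈ 𝒞.U j ∩ 𝒞.U i := ⟨hx, c.χ'_supp i hx1⟩
    have hop : IsOpen (𝒞.U j ∩ 𝒞.U i) := (𝒞.isOpen j).inter (𝒞.isOpen i)
    have hT : DifferentiableAt ℂ (𝒞.T j i) x := (𝒞.holo j i).differentiableAt (hop.mem_nhds hxi)
    have hC1 : ContDiffAt ℝ 1 (retCauchy φ) x := (retCauchy_contDiff hφ hφs).contDiffAt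
    have hC : DifferentiableAt ℝ (retCauchy φ) x := hC1.differentiableAt one_ne_zero
    have hTC : DifferentiableAt ℝ (fun y => 𝒞.T j i y (retCauchy φ y)) x :=
      (retPar_contDiffAt_clm_apply (retPar_contDiffAt_of_holo hop (𝒞.holo j i) hxi)
        hC1).differentiableAt one_ne_zero
    have hχ : DifferentiableAt ℝ (c.χ' i) x :=
      (smooth_one (c.χ'_smooth i) x).differentiableAt one_ne_zero
    refine ⟨hχ.smul hTC, ?_⟩
    rw [retDbar_smul hχ hTC, retDbar_clm_apply hT hC, retDbar_retCauchy hφ hφs]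
  · have h0 : (fun y => c.χ' i y • 𝒞.T j i y (retCauchy φ y)) =ᶠ[𝓝 x] fun _ => 0 := by
      filter_upwards [notMem_tsupport_iff_eventuallyEq.1 hx1] with y hy
      rw [hy]; simp
    refine ⟨(differentiableAt_const (0 : E)).congr_of_eventuallyEq h0, ?_⟩
    rw [retDbar_eq_zero_of_eventuallyEq_const h0, retDbar_eq_zero_of_notMem_tsupport hx1,
      image_eq_zero_of_notMem_tsupport hx1]
    simp

end RetCutoffs

omit [Fintype ι] in
/-- cocycle identity applied to a vector, with the membership needed only when the coefficient is nonzero -/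
theorem RetCocycle.smul_comp_apply (𝒞 : RetCocycle ι E) (i j k : ι) {x : ℂ} (hi : x ∈ 𝒞.U i)
    (hj : x ∈ 𝒞.U j) (a : ℂ) (hk : a ≠ 0 → x ∈ 𝒞.U k) (v : E) :
    a • 𝒞.T i j x (𝒞.T j k x v) = a • 𝒞.T i k x v := by
  by_cases ha : a = 0
  · rw [ha, zero_smul, zero_smul]
  · rw [← 𝒞.comp i j k x hi hj (hk ha)]
    rfl

/-- PAR-3 (~700 lines): a solution of the integral equation gives a solution of `∂̄ u = g`. -/
theorem ret_par_solve [FiniteDimensional ℂ E] (𝒞 : RetCocycle ι E) {Ω : Set ℂ} (hΩ : IsCompact Ω)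
    (c : RetCutoffs 𝒞 Ω) (i0 : ι) (g : ℂ → E) (hg : ContDiff ℝ 1 g) (hgΩ : tsupport g ⊆ Ω)
    (hgU : tsupport g ⊆ 𝒞.U i0) (h : ι → ℂ → E) (hc : ∀ i, Continuous (h i))
    (heq : ∀ j x, h j x + c.Kop h j x = c.χ j x • 𝒞.T j i0 x (g x)) :
    ∃ u : ι → ℂ → E,
      (∀ j, ∀ x ∈ 𝒞.U j, DifferentiableAt ℝ (u j) x ∧ retDbar (u j) x = 𝒞.T j i0 x (g x)) ∧
      (∀ i j, ∀ x, x ∈ 𝒞.U i → x ∈ 𝒞.U j → u i x = 𝒞.T i j x (u j x)) ∧
      ∃ R M : ℝ, ∀ x, R < ‖x‖ → ‖u 𝒞.inf x‖ ≤ M := by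
  have hcs : CompleteSpace E := FiniteDimensional.complete ℂ E
  have hlam : ∀ i, (fun z => c.lam i z • h i z) = h i := fun i =>
    funext (c.lam_smul_eq i0 g hgΩ h heq i)
  have hsupp : ∀ i, tsupport (h i) ⊆ tsupport (c.lam i) := by
    intro i
    have := tsupport_smul_subset_left (c.lam i) (h i)
    rwa [hlam i] at this
  have hcpt : ∀ i, HasCompactSupport (h i) := fun i =>
    (c.lam_cpt i).of_isClosed_subset (isClosed_tsupport _) (hsupp i)
  have heq' : ∀ j x, h j x = c.χ j x • 𝒞.T j i0 x (g x)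
      - ∑ i, (c.χ j x * retDbar (c.χ' i) x) • 𝒞.T j i x (retCauchy (h i) x) := by
    intro j x
    have := heq j x
    unfold RetCutoffs.Kop at this
    simp only [hlam] at this
    rw [← this]; abel
  have hC1 : ∀ j, ContDiff ℝ 1 (h j) := by
    intro j
    have : h j = fun x => c.χ j x • 𝒞.T j i0 x (g x)
      - ∑ i, (c.χ j x * retDbar (c.χ' i) x) • 𝒞.T j i x (retCauchy (h i) x) := funext (heq' j)
    rw [this]
    exact (c.data_contDiff i0 j hg hgU).sub
      (ContDiff.sum fun i _ => c.err_contDiff j i (hc i) (hsupp i))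
  refine ⟨fun j x => ∑ i, c.χ' i x • 𝒞.T j i x (retCauchy (h i) x), ?_, ?_, ?_⟩
  · intro j x hx
    have hterm := fun i => c.term_dbar j i (hC1 i) (hcpt i) hx
    refine ⟨DifferentiableAt.fun_sum fun i _ => (hterm i).1, ?_⟩
    rw [retDbar_sum Finset.univ (fun i _ => (hterm i).1)]
    simp only [fun i => (hterm i).2]
    have hχ'h : ∀ i, c.χ' i x • 𝒞.T j i x (h i x) = 𝒞.T j i x (h i x) := by
      intro i
      by_cases h0 : h i x = 0
      · rw [h0]; simp
      · have h1 : x ∈ tsupport (c.lam i) := hsupp i (subset_tsupport _ h0)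
        rw [(c.χ'_one i x h1).eq_of_nhds, one_smul]
    have hTh : ∀ i, 𝒞.T j i x (h i x) = c.χ i x • 𝒞.T j i0 x (g x)
        - c.χ i x • ∑ l, retDbar (c.χ' l) x • 𝒞.T j l x (retCauchy (h l) x) := by
      intro i
      conv_lhs => rw [heq' i x]
      rw [map_sub, map_smul, map_sum, Finset.smul_sum]
      by_cases hχ : c.χ i x = 0
      · simp [hχ]
      · have hxi : x ∈ 𝒞.U i := c.χ_mem_U i hχ
        congr 1
        · by_cases hg0 : g x = 0
          · rw [hg0]; simp
          · have hxi0 : x ∈ 𝒞.U i0 := hgU (subset_tsupport _ hg0)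
            exact 𝒞.smul_comp_apply j i i0 hx hxi _ (fun _ => hxi0) _
        · refine Finset.sum_congr rfl fun l _ => ?_
          rw [map_smul, smul_smul]
          exact 𝒞.smul_comp_apply j i l hx hxi _
            (fun hne => c.dbar_mem_U l (right_ne_zero_of_mul hne)) _
    simp only [hχ'h]
    simp only [hTh]
    rw [Finset.sum_add_distrib, Finset.sum_sub_distrib, ← Finset.sum_smul, ← Finset.sum_smul,
      c.χ_sum x, one_smul, one_smul]
    abel
  · intro i j x hxi hxj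
    rw [map_sum]
    refine Finset.sum_congr rfl fun l _ => ?_
    rw [map_smul]
    exact (𝒞.smul_comp_apply i j l hxi hxj _ (fun hne => c.χ'_mem_U l hne) _).symm
  · obtain ⟨C, -, hC⟩ := retCauchy_bound (E := E) (c.lam_cpt 𝒞.inf)
    obtain ⟨M, hM⟩ := (hc 𝒞.inf).bounded_above_of_compact_support (hcpt 𝒞.inf)
    have hCb : ∀ w, ‖retCauchy (h 𝒞.inf) w‖ ≤ C * M :=
      hC (h 𝒞.inf) M (hc 𝒞.inf)
        (fun z hz => image_eq_zero_of_notMem_tsupport (fun hh => hz (hsupp _ hh))) hM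
    have hev : ∀ᶠ x in Filter.cocompact ℂ,
        (∑ i, c.χ' i x • 𝒞.T 𝒞.inf i x (retCauchy (h i) x)) = retCauchy (h 𝒞.inf) x := by
      have h1 : ∀ i, i ≠ 𝒞.inf → ∀ᶠ x in Filter.cocompact ℂ, c.χ' i x = 0 := by
        intro i hi
        filter_upwards [(c.χ'_cpt i hi).compl_mem_cocompact] with x hx
        exact image_eq_zero_of_notMem_tsupport hx
      have h1' : ∀ᶠ x in Filter.cocompact ℂ, ∀ i, i ≠ 𝒞.inf → c.χ' i x = 0 := by
        rw [Filter.eventually_all]
        intro i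
        by_cases hi : i = 𝒞.inf
        · exact Filter.Eventually.of_forall fun x hne => absurd hi hne
        · filter_upwards [h1 i hi] with x hx _ using hx
      have h2 : ∀ᶠ x in Filter.cocompact ℂ, x ∈ 𝒞.U 𝒞.inf := by
        have := Bornology.isBounded_def.1 𝒞.bdd_inf
        rw [compl_compl, Metric.cobounded_eq_cocompact] at this
        exact this
      filter_upwards [h1', h2, c.χ'_inf] with x hx1 hx2 hx3
      rw [Finset.sum_eq_single 𝒞.inf]
      · rw [hx3, one_smul, 𝒞.self _ x hx2]; rfl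
      · intro i _ hi
        rw [hx1 i hi, zero_smul]
      · intro hh; exact absurd (Finset.mem_univ _) hh
    obtain ⟨t, ht, hts⟩ := Filter.mem_cocompact.1 hev
    obtain ⟨R, hR⟩ := ht.isBounded.subset_closedBall (0 : ℂ)
    refine ⟨R, C * M, fun x hx => ?_⟩
    have hxt : x ∉ t := fun hh => by
      have := hR hh
      rw [mem_closedBall_zero_iff] at this
      linarith
    have h3 : (∑ i, c.χ' i x • 𝒞.T 𝒞.inf i x (retCauchy (h i) x)) = retCauchy (h 𝒞.inf) x :=
      hts hxt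
    show ‖∑ i, c.χ' i x • 𝒞.T 𝒞.inf i x (retCauchy (h i) x)‖ ≤ C * M
    rw [h3]
    exact hCb x

end Claimed.Agent.R280
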