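import Claimed.Agent.R280.RET.ParCut
import Claimed.Agent.R280.RET.ParFred
import Claimed.Agent.R280.RET.ParSolve

/-! # Row 280, RET / PAR-4: meromorphic sections with one pole (glue; see `ParDefs.lean`) -/

set_option autoImplicit false

namespace Claimed.Agent.R280

open Complex MeasureTheory Topology
open scoped ContDiff

theorem retPar_differentiableAt_clm_apply {F G : Type*} [NormedAddCommGroup F] [NormedSpace ℂ F]
    [NormedAddCommGroup G] [NormedSpace ℂ G] {T : ℂ → (F →L[ℂ] G)} {f : ℂ → F} {x : ℂ}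
    (hT : DifferentiableAt ℝ T x) (hf : DifferentiableAt ℝ f x) :
    DifferentiableAt ℝ (fun y => T y (f y)) x := by
  have hB : DifferentiableAt ℂ (fun p : (F →L[ℂ] G) × F => p.1 p.2) (T x, f x) :=
    isBoundedBilinearMap_apply.differentiableAt (T x, f x)
  exact (hB.restrictScalars ℝ).comp x (hT.prodMk hf)

variable {ι : Type} [Fintype ι] {E : Type} [NormedAddCommGroup E] [NormedSpace ℂ E]

omit [Fintype ι] in
/-- the cut-off principal part, transported to the chart `j` -/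
theorem RetCocycle.dbar_cut (𝒞 : RetCocycle ι E) (i0 j : ι) (q : ℂ) {η : ℂ → ℂ}
    (hη : ContDiff ℝ ∞ η) (hηs : tsupport η ⊆ 𝒞.U i0) {S : ℂ → E}
    (hS : DifferentiableOn ℂ S (𝒞.U i0 \ {q})) {z : ℂ} (hz : z ∈ 𝒞.U j) (hzq : z ≠ q) :
    DifferentiableAt ℝ (fun y => 𝒞.T j i0 y (η y • S y)) z ∧
      retDbar (fun y => 𝒞.T j i0 y (η y • S y)) z = 𝒞.T j i0 z (retDbar η z • S z) := by
  by_cases hz1 : z ∈ tsupport η
  · have hW : IsOpen (𝒞.U i0 \ {q}) := (𝒞.isOpen i0).sdiff isClosed_singleton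
    have hzW : z ∈ 𝒞.U i0 \ {q} := ⟨hηs hz1, hzq⟩
    have hSc : DifferentiableAt ℂ S z := hS.differentiableAt (hW.mem_nhds hzW)
    have hSr : DifferentiableAt ℝ S z := hSc.restrictScalars ℝ
    have hηd : DifferentiableAt ℝ η z := hη.differentiable (by simp) z
    have hs : DifferentiableAt ℝ (fun y => η y • S y) z := hηd.smul hSr
    have hT : DifferentiableAt ℂ (𝒞.T j i0) z :=
      (𝒞.holo j i0).differentiableAt (((𝒞.isOpen j).inter (𝒞.isOpen i0)).mem_nhds ⟨hz, hηs hz1⟩)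
    refine ⟨retPar_differentiableAt_clm_apply (hT.restrictScalars ℝ) hs, ?_⟩
    rw [retDbar_clm_apply hT hs, retDbar_smul hηd hSr, retDbar_eq_zero_of_differentiableAt hSc,
      smul_zero, add_zero]
  · have h0 : (fun y => 𝒞.T j i0 y (η y • S y)) =ᶠ[𝓝 z] fun _ => 0 := by
      filter_upwards [notMem_tsupport_iff_eventuallyEq.1 hz1] with y hy
      rw [hy]; simp
    refine ⟨(differentiableAt_const (0 : E)).congr_of_eventuallyEq h0, ?_⟩
    rw [retDbar_eq_zero_of_eventuallyEq_const h0, retDbar_eq_zero_of_notMem_tsupport hz1]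
    simp

/-- PAR-4 (~500 lines, glue): **existence of meromorphic sections with one pole.** -/
theorem ret_par_main [FiniteDimensional ℂ E] (𝒞 : RetCocycle ι E) (i0 : ι) (q : ℂ) (hq : q ∈ 𝒞.U i0)
    (P : ℕ → ℂ → E) (hP : ∀ n, DifferentiableOn ℂ (P n) (𝒞.U i0 \ {q})) :
    ∃ (N : ℕ) (co : ℕ → ℂ) (a : ι → ℂ → E), (∃ n < N, co n ≠ 0) ∧
      (∀ i, DifferentiableOn ℂ (a i) (𝒞.U i \ {q})) ∧
      (∀ i j, ∀ z, z ∈ 𝒞.U i → z ∈ 𝒞.U j → z ≠ q → a i z = 𝒞.T i j z (a j z)) ∧
      (∃ g : ℂ → E, DifferentiableAt ℂ g q ∧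
        ∀ᶠ z in 𝓝[≠] q, a i0 z = (∑ n ∈ Finset.range N, co n • P n z) + g z) ∧
      (∃ R M : ℝ, ∀ z, R < ‖z‖ → ‖a 𝒞.inf z‖ ≤ M) := by
  have hcs : CompleteSpace E := FiniteDimensional.complete ℂ E
  -- the cut-off at `q`
  obtain ⟨η, hηs, hηsupp, O, hO, hqO, hO1⟩ := retPar_exists_cutoff (S := {q})
    (U := 𝒞.U i0 ∩ Metric.ball q 1) isClosed_singleton ((𝒞.isOpen i0).inter Metric.isOpen_ball)
    (by
      intro z hz
      rw [Set.mem_singleton_iff] at hz
      subst hz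
      exact ⟨hq, Metric.mem_ball_self one_pos⟩)
  have hqO' : q ∈ O := hqO rfl
  have hηU : tsupport η ⊆ 𝒞.U i0 := fun z hz => (hηsupp hz).1
  have hηcpt : HasCompactSupport η :=
    Metric.isCompact_of_isClosed_isBounded (isClosed_tsupport _)
      (Metric.isBounded_ball.subset (fun z hz => (hηsupp hz).2))
  have hdη0 : ∀ z ∈ O, retDbar η z = 0 := by
    intro z hz
    refine retDbar_eq_zero_of_eventuallyEq_const (v := 1) ?_
    filter_upwards [hO.mem_nhds hz] with y hy using hO1 y hy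
  have hW : IsOpen (𝒞.U i0 \ {q}) := (𝒞.isOpen i0).sdiff isClosed_singleton
  have hdηsupp : tsupport (retDbar η) ⊆ 𝒞.U i0 \ {q} := by
    intro z hz
    refine ⟨hηU (tsupport_retDbar_subset _ hz), ?_⟩
    intro hzq
    rw [Set.mem_singleton_iff] at hzq
    subst hzq
    refine (notMem_tsupport_iff_eventuallyEq.2 ?_) hz
    filter_upwards [hO.mem_nhds hqO'] with y hy using hdη0 y hy
  have hdη1 : ContDiff ℝ 1 (retDbar η) := (retDbar_contDiff hηs).of_le (by exact_mod_cast le_top)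
  -- data built from a holomorphic function on the punctured chart
  have hdata : ∀ S : ℂ → E, DifferentiableOn ℂ S (𝒞.U i0 \ {q}) →
      ContDiff ℝ 1 (fun z => retDbar η z • S z) ∧
      tsupport (fun z => retDbar η z • S z) ⊆ tsupport η := by
    intro S hS
    refine ⟨retPar_contDiff_smul hW hdη1 hdηsupp ((hS.contDiffOn hW).restrict_scalars ℝ), ?_⟩
    exact (tsupport_smul_subset_left _ _).trans (tsupport_retDbar_subset _)
  obtain ⟨c⟩ := ret_exists_cutoffs 𝒞 (Ω := tsupport η) hηcpt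
  obtain ⟨N, hN⟩ := ret_par_fredholm 𝒞 c
  have hγc : ∀ n j, Continuous (fun x => c.χ j x • 𝒞.T j i0 x (retDbar η x • P n x)) := fun n j =>
    (c.data_contDiff i0 j (hdata (P n) (hP n)).1 ((hdata (P n) (hP n)).2.trans hηU)).continuous
  obtain ⟨co, hco, h, hhc, hheq⟩ := hN (fun n j x => c.χ j x • 𝒞.T j i0 x (retDbar η x • P n x))
    hγc (fun n j => by
      refine (hγc n j).bounded_above_of_compact_support ?_
      refine HasCompactSupport.intro hηcpt (fun x hx => ?_)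
      rw [retDbar_eq_zero_of_notMem_tsupport hx]; simp)
  set S : ℂ → E := fun z => ∑ n ∈ Finset.range N, co n • P n z with hSdef
  have hS : DifferentiableOn ℂ S (𝒞.U i0 \ {q}) :=
    DifferentiableOn.fun_sum fun n _ => (hP n).const_smul (co n)
  have hheq' : ∀ j x, h j x + c.Kop h j x = c.χ j x • 𝒞.T j i0 x (retDbar η x • S x) := by
    intro j x
    rw [hheq j x, hSdef]
    simp only [Finset.smul_sum, map_sum, map_smul]
    refine Finset.sum_congr rfl fun n _ => ?_
    simp only [smul_smul]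
    congr 1
    ring
  obtain ⟨u, hu1, hu2, R, M, hu3⟩ := ret_par_solve 𝒞 hηcpt c i0 (fun z => retDbar η z • S z)
    (hdata S hS).1 (hdata S hS).2 ((hdata S hS).2.trans hηU) h hhc hheq'
  refine ⟨N, co, fun j z => 𝒞.T j i0 z (η z • S z) - u j z, hco, ?_, ?_, ?_, ?_⟩
  · intro j z hz
    have h1 := 𝒞.dbar_cut i0 j q hηs hηU hS hz.1 hz.2
    have h2 := hu1 j z hz.1
    refine (differentiableAt_of_retDbar_eq_zero
      (f := fun z => 𝒞.T j i0 z (η z • S z) - u j z) (h1.1.fun_sub h2.1) ?_).differentiableWithinAt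
    rw [retDbar_sub h1.1 h2.1, h1.2, h2.2, sub_self]
  · intro i j z hzi hzj _
    show 𝒞.T i i0 z (η z • S z) - u i z = 𝒞.T i j z (𝒞.T j i0 z (η z • S z) - u j z)
    rw [map_sub, ← hu2 i j z hzi hzj]
    congr 1
    by_cases hη0 : η z = 0
    · rw [hη0]; simp
    · have hz0 : z ∈ 𝒞.U i0 := hηU (subset_tsupport _ hη0)
      rw [← 𝒞.comp i j i0 z hzi hzj hz0]
      rfl
  · refine ⟨fun z => - u i0 z, ?_, ?_⟩
    · have h2 := hu1 i0 q hq
      have h3 : DifferentiableAt ℂ (u i0) q := by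
        refine differentiableAt_of_retDbar_eq_zero h2.1 ?_
        rw [h2.2, hdη0 q hqO']; simp
      exact h3.neg
    · have h4 : ∀ᶠ z in 𝓝 q, z ∈ O ∩ 𝒞.U i0 := (hO.inter (𝒞.isOpen i0)).mem_nhds ⟨hqO', hq⟩
      filter_upwards [nhdsWithin_le_nhds h4] with z hz
      rw [hO1 z hz.1, one_smul, 𝒞.self i0 z hz.2]
      simp [hSdef, sub_eq_add_neg]
  · obtain ⟨R', hR'⟩ := hηcpt.isBounded.subset_closedBall (0 : ℂ)
    refine ⟨max R R', M, fun z hz => ?_⟩
    have hz1 : z ∉ tsupport η := fun hh => by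
      have := hR' hh
      rw [mem_closedBall_zero_iff] at this
      exact absurd (lt_of_le_of_lt (le_max_right R R') hz) (not_lt.2 this)
    have hz2 : η z = 0 := image_eq_zero_of_notMem_tsupport hz1
    simp only [hz2, zero_smul, map_zero, zero_sub, norm_neg]
    exact hu3 z (lt_of_le_of_lt (le_max_left R R') hz)

end Claimed.Agent.R280
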