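import Claimed.Agent.R280.RET.ParDefs

/-! # Row 280, RET / PAR: auxiliary lemmas shared by `ParFred.lean` and `ParSolve.lean`
(supports of `∂̄ f`, regularity of `a • T` when `tsupport a` lies in the domain of `T`, basic facts on `RetCutoffs`) -/

set_option autoImplicit false

namespace Claimed.Agent.R280

open Complex MeasureTheory Topology
open scoped ContDiff

section general

variable {F : Type*} [NormedAddCommGroup F] [NormedSpace ℂ F]

theorem retDbar_const (v : F) (z : ℂ) : retDbar (fun _ => v) z = 0 := by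
  unfold retDbar
  simp

theorem retDbar_eq_zero_of_eventuallyEq_const {f : ℂ → F} {z : ℂ} {v : F}
    (h : f =ᶠ[𝓝 z] fun _ => v) : retDbar f z = 0 := by
  rw [retDbar_congr h, retDbar_const]

theorem retDbar_eq_zero_of_notMem_tsupport {f : ℂ → F} {z : ℂ} (h : z ∉ tsupport f) :
    retDbar f z = 0 :=
  retDbar_eq_zero_of_eventuallyEq_const (v := 0) (notMem_tsupport_iff_eventuallyEq.1 h)

theorem tsupport_retDbar_subset (f : ℂ → F) : tsupport (retDbar f) ⊆ tsupport f := by
  refine closure_minimal (fun z hz => ?_) (isClosed_tsupport f)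
  by_contra hcon
  exact hz (retDbar_eq_zero_of_notMem_tsupport hcon)

theorem retDbar_contDiff {f : ℂ → F} (hf : ContDiff ℝ ∞ f) : ContDiff ℝ ∞ (retDbar f) := by
  unfold retDbar
  have h1 : ContDiff ℝ ∞ (fderiv ℝ f) := hf.fderiv_right (m := ∞) (by simp)
  exact ((h1.clm_apply contDiff_const).add ((h1.clm_apply contDiff_const).const_smul I)).const_smul _

theorem retDbar_continuous {f : ℂ → F} (hf : ContDiff ℝ ∞ f) : Continuous (retDbar f) :=
  (retDbar_contDiff hf).continuous

/-- `a • T` is continuous if `T` is continuous on an open set containing `tsupport a` -/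
theorem retPar_continuous_smul {a : ℂ → ℂ} {T : ℂ → F} {U : Set ℂ} (hU : IsOpen U)
    (ha : Continuous a) (hsupp : tsupport a ⊆ U) (hT : ContinuousOn T U) :
    Continuous (fun x => a x • T x) := by
  refine continuous_iff_continuousAt.2 (fun x => ?_)
  by_cases hx : x ∈ tsupport a
  · exact ha.continuousAt.smul (hT.continuousAt (hU.mem_nhds (hsupp hx)))
  · have h0 : (fun x => a x • T x) =ᶠ[𝓝 x] fun _ => 0 := by
      filter_upwards [notMem_tsupport_iff_eventuallyEq.1 hx] with y hy
      rw [hy]; simp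
    exact continuousAt_const.congr h0.symm

/-- `a • T` is `C^n` if `T` is `C^n` on an open set containing `tsupport a` -/
theorem retPar_contDiff_smul {n : WithTop ℕ∞} {a : ℂ → ℂ} {T : ℂ → F} {U : Set ℂ} (hU : IsOpen U)
    (ha : ContDiff ℝ n a) (hsupp : tsupport a ⊆ U) (hT : ContDiffOn ℝ n T U) :
    ContDiff ℝ n (fun x => a x • T x) := by
  refine contDiff_iff_contDiffAt.2 (fun x => ?_)
  by_cases hx : x ∈ tsupport a
  · exact ha.contDiffAt.smul (hT.contDiffAt (hU.mem_nhds (hsupp hx)))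
  · have h0 : (fun x => a x • T x) =ᶠ[𝓝 x] fun _ => 0 := by
      filter_upwards [notMem_tsupport_iff_eventuallyEq.1 hx] with y hy
      rw [hy]; simp
    exact contDiffAt_const.congr_of_eventuallyEq h0

end general

variable {ι : Type} [Fintype ι] {E : Type} [NormedAddCommGroup E] [NormedSpace ℂ E]

namespace RetCutoffs

variable {𝒞 : RetCocycle ι E} {Ω : Set ℂ} (c : RetCutoffs 𝒞 Ω)

theorem dbar_near (i : ι) {z : ℂ} (hz : z ∈ tsupport (c.lam i)) :
    ∀ᶠ x in 𝓝 z, retDbar (c.χ' i) x = 0 := by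
  have h := c.χ'_one i z hz
  filter_upwards [h.eventually_nhds] with x hx
  exact retDbar_eq_zero_of_eventuallyEq_const hx

theorem dbar_cpt (i : ι) : HasCompactSupport (retDbar (c.χ' i)) := by
  by_cases hi : i = 𝒞.inf
  · subst hi
    obtain ⟨K, hK, hKs⟩ := Filter.mem_cocompact.1 c.χ'_inf
    refine HasCompactSupport.intro hK (fun x hx => ?_)
    refine retDbar_eq_zero_of_eventuallyEq_const (v := 1) ?_
    filter_upwards [hK.isClosed.isOpen_compl.mem_nhds hx] with y hy
    exact hKs hy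
  · exact (c.χ'_cpt i hi).mono' ((subset_tsupport _).trans (tsupport_retDbar_subset _))

theorem dbar_mem_U (i : ι) {x : ℂ} (hx : retDbar (c.χ' i) x ≠ 0) : x ∈ 𝒞.U i :=
  c.χ'_supp i (tsupport_retDbar_subset _ (subset_tsupport _ hx))

theorem χ_mem_U (i : ι) {x : ℂ} (hx : c.χ i x ≠ 0) : x ∈ 𝒞.U i :=
  c.χ_supp i (subset_tsupport _ hx)

theorem χ'_mem_U (i : ι) {x : ℂ} (hx : c.χ' i x ≠ 0) : x ∈ 𝒞.U i :=
  c.χ'_supp i (subset_tsupport _ hx)

/-- the coefficient `χ j * ∂̄χ' i` -/
theorem coef_contDiff (j i : ι) : ContDiff ℝ ∞ (fun x => c.χ j x * retDbar (c.χ' i) x) :=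
  (c.χ_smooth j).mul (retDbar_contDiff (c.χ'_smooth i))

theorem coef_tsupport (j i : ι) :
    tsupport (fun x => c.χ j x * retDbar (c.χ' i) x) ⊆ 𝒞.U j ∩ 𝒞.U i := by
  intro x hx
  refine ⟨c.χ_supp j (tsupport_mul_subset_left hx), ?_⟩
  exact c.χ'_supp i (tsupport_retDbar_subset _ (tsupport_mul_subset_right hx))

end RetCutoffs

end Claimed.Agent.R280
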