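import Claimed.Agent.R280.RET.ParAux

/-! # Row 280, RET / PAR-1: existence of the cut-off functions (see `ParDefs.lean`) -/

set_option autoImplicit false

namespace Claimed.Agent.R280

open Complex MeasureTheory Topology
open scoped ContDiff Manifold

/-- a smooth cut-off: `= 1` near the closed set `S`, `tsupport` inside the given neighbourhood `U` of `S` -/
theorem retPar_exists_cutoff {S U : Set ℂ} (hS : IsClosed S) (hU : IsOpen U) (hSU : S ⊆ U) :
    ∃ f : ℂ → ℂ, ContDiff ℝ ∞ f ∧ tsupport f ⊆ U ∧ ∃ O, IsOpen O ∧ S ⊆ O ∧ ∀ z ∈ O, f z = 1 := by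
  have hd : Disjoint Uᶜ S := by
    rw [Set.disjoint_left]
    intro z hz hzS
    exact hz (hSU hzS)
  obtain ⟨f, h0, h1, -⟩ := exists_contMDiffMap_zero_one_nhds_of_isClosed 𝓘(ℝ, ℂ)
    hU.isClosed_compl hS hd (n := ⊤)
  obtain ⟨N, hN, hUN, hN0⟩ := mem_nhdsSet_iff_exists.1 h0
  obtain ⟨O, hO, hSO, hO1⟩ := mem_nhdsSet_iff_exists.1 h1
  have hf : ContDiff ℝ ∞ (fun z => f z) := f.contMDiff.contDiff
  refine ⟨fun z => ((f z : ℝ) : ℂ), Complex.ofRealCLM.contDiff.comp hf, ?_, O, hO, hSO, ?_⟩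
  · have h2 : tsupport (fun z => ((f z : ℝ) : ℂ)) ⊆ Nᶜ := by
      refine closure_minimal (fun z hz hzN => hz ?_) hN.isClosed_compl
      have : f z = 0 := hN0 hzN
      simp [this]
    intro z hz
    by_contra hzU
    exact h2 hz (hUN hzU)
  · intro z hz
    have : f z = 1 := hO1 hz
    simp [this]

theorem retDbar_hasCompactSupport_of_eventually {F : Type*} [NormedAddCommGroup F] [NormedSpace ℂ F]
    {f : ℂ → F} {v : F} (h : ∀ᶠ z in Filter.cocompact ℂ, f z = v) :
    HasCompactSupport (retDbar f) := by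
  obtain ⟨K, hK, hKs⟩ := Filter.mem_cocompact.1 h
  refine HasCompactSupport.intro hK (fun x hx => ?_)
  refine retDbar_eq_zero_of_eventuallyEq_const (v := v) ?_
  filter_upwards [hK.isClosed.isOpen_compl.mem_nhds hx] with y hy
  exact hKs hy

variable {ι : Type} [Fintype ι] {E : Type} [NormedAddCommGroup E] [NormedSpace ℂ E]

theorem retPar_exists_partition (U : ι → Set ℂ) (hU : ∀ i, IsOpen (U i))
    (hcov : ∀ z, ∃ i, z ∈ U i) :
    ∃ χ : ι → ℂ → ℂ, (∀ i, ContDiff ℝ ∞ (χ i)) ∧ (∀ z, ∑ i, χ i z = 1) ∧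
      ∀ i, tsupport (χ i) ⊆ U i := by
  obtain ⟨ρ, hρ⟩ := SmoothPartitionOfUnity.exists_isSubordinate 𝓘(ℝ, ℂ) isClosed_univ U hU
    (fun z _ => Set.mem_iUnion.2 (hcov z))
  refine ⟨fun i z => ((ρ i z : ℝ) : ℂ), fun i => ?_, fun z => ?_, fun i => ?_⟩
  · have hf : ContDiff ℝ ∞ (fun z => ρ i z) := (ρ i).contMDiff.contDiff
    exact Complex.ofRealCLM.contDiff.comp hf
  · have h1 := ρ.sum_eq_one (Set.mem_univ z)
    rw [finsum_eq_sum_of_fintype] at h1
    rw [← Complex.ofReal_sum, h1, Complex.ofReal_one]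
  · have h2 : Function.support (fun z => ((ρ i z : ℝ) : ℂ)) = Function.support (ρ i) := by
      ext z; simp
    have h3 : tsupport (fun z => ((ρ i z : ℝ) : ℂ)) = tsupport (ρ i) := by
      unfold tsupport; rw [h2]
    rw [h3]
    exact hρ i

/-- PAR-1 (~400 lines): cut-offs exist (`SmoothPartitionOfUnity.exists_isSubordinate` on `ℂ` as a real manifold / normed space,
`exists_contDiff_tsupport_subset`-type bump functions, normality). -/
theorem ret_exists_cutoffs (𝒞 : RetCocycle ι E) {Ω : Set ℂ} (hΩ : IsCompact Ω) :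
    Nonempty (RetCutoffs 𝒞 Ω) := by
  obtain ⟨χ, hχs, hχsum, hχsupp⟩ := retPar_exists_partition 𝒞.U 𝒞.isOpen 𝒞.cover
  -- the second family
  have h1 : ∀ i, ∃ f : ℂ → ℂ, ContDiff ℝ ∞ f ∧ tsupport f ⊆ 𝒞.U i ∧
      ∃ O, IsOpen O ∧ tsupport (χ i) ⊆ O ∧ ∀ z ∈ O, f z = 1 := fun i =>
    retPar_exists_cutoff (isClosed_tsupport _) (𝒞.isOpen i) (hχsupp i)
  choose χ' hχ's hχ'supp O hO hχO hO1 using h1
  have hχ'cpt : ∀ i, i ≠ 𝒞.inf → HasCompactSupport (χ' i) := fun i hi =>
    Metric.isCompact_of_isClosed_isBounded (isClosed_tsupport _) ((𝒞.bdd i hi).subset (hχ'supp i))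
  have hχ'inf : ∀ᶠ z in Filter.cocompact ℂ, χ' 𝒞.inf z = 1 := by
    have h2 : ∀ᶠ z in Filter.cocompact ℂ, ∀ i, i ≠ 𝒞.inf → z ∉ 𝒞.U i := by
      rw [Filter.eventually_all]
      intro i
      by_cases hi : i = 𝒞.inf
      · exact Filter.Eventually.of_forall fun x hne => absurd hi hne
      · have := Bornology.isBounded_def.1 (𝒞.bdd i hi)
        rw [Metric.cobounded_eq_cocompact] at this
        filter_upwards [this] with z hz _ using hz
    filter_upwards [h2] with z hz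
    have h3 : χ 𝒞.inf z = 1 := by
      rw [← hχsum z, Finset.sum_eq_single 𝒞.inf]
      · intro i _ hi
        by_contra hne
        exact hz i hi (hχsupp i (subset_tsupport _ hne))
      · intro hh; exact absurd (Finset.mem_univ _) hh
    refine hO1 _ z (hχO _ (subset_tsupport _ ?_))
    rw [Function.mem_support, h3]
    exact one_ne_zero
  have hdcpt : ∀ l, HasCompactSupport (retDbar (χ' l)) := by
    intro l
    by_cases hl : l = 𝒞.inf
    · subst hl
      exact retDbar_hasCompactSupport_of_eventually hχ'inf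
    · exact (hχ'cpt l hl).mono' ((subset_tsupport _).trans (tsupport_retDbar_subset _))
  set Ω' : Set ℂ := Ω ∪ ⋃ l, tsupport (retDbar (χ' l)) with hΩ'
  have hΩ'c : IsCompact Ω' := hΩ.union (isCompact_iUnion fun l => hdcpt l)
  obtain ⟨R, hR⟩ := hΩ'c.isBounded.subset_ball (0 : ℂ)
  have h4 : ∀ i, ∃ f : ℂ → ℂ, ContDiff ℝ ∞ f ∧ tsupport f ⊆ O i ∩ Metric.ball 0 R ∧
      ∃ O', IsOpen O' ∧ tsupport (χ i) ∩ Ω' ⊆ O' ∧ ∀ z ∈ O', f z = 1 := fun i =>
    retPar_exists_cutoff ((isClosed_tsupport _).inter hΩ'c.isClosed)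
      ((hO i).inter Metric.isOpen_ball) (fun z hz => ⟨hχO i hz.1, hR hz.2⟩)
  choose lam hlams hlamsupp O' hO' hCO' hO'1 using h4
  refine ⟨{
    χ := χ
    χ' := χ'
    lam := lam
    χ_smooth := hχs
    χ'_smooth := hχ's
    lam_smooth := hlams
    χ_sum := hχsum
    χ_supp := hχsupp
    χ'_supp := hχ'supp
    χ'_cpt := hχ'cpt
    χ'_inf := hχ'inf
    χ'_one := ?_
    lam_cpt := ?_
    lam_one := ?_ }⟩
  · intro i z hz
    filter_upwards [(hO i).mem_nhds (hlamsupp i hz).1] with y hy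
    exact hO1 i y hy
  · intro i
    exact Metric.isCompact_of_isClosed_isBounded (isClosed_tsupport _)
      (Metric.isBounded_ball.subset (fun z hz => (hlamsupp i hz).2))
  · intro i z hz hor
    refine hO'1 i z (hCO' i ⟨subset_tsupport _ hz, ?_⟩)
    rcases hor with h | ⟨l, hl⟩
    · exact Or.inl h
    · exact Or.inr (Set.mem_iUnion.2 ⟨l, subset_tsupport _ hl⟩)

end Claimed.Agent.R280
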