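import Claimed.Agent.R280.RET.Cauchy
import Claimed.Agent.R280.RET.FinRank

/-!
# Row 280, package RET / PAR: meromorphic sections of a holomorphic vector bundle on `P¹` given by planar charts
(owner of the statements: helper30)

`RetCocycle ι E` : finitely many open sets `U i ⊆ ℂ` covering `ℂ`, all bounded except `U inf`, which is a neighbourhood of `∞`;
holomorphic transition operators `T i j : U i ∩ U j → End E` with the cocycle identities.
A section is a family `a i : U i → E` with `a i = T i j (a j)`.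

**`ret_par_main`**: given holomorphic "principal parts" `P n` on `U i0 \ {q}` there is a section, holomorphic off `q`, bounded near `∞`
in the chart `inf`, whose singular part at `q` (chart `i0`) is a NONTRIVIAL finite combination of the `P n`.

Proof = `∂̄`-parametrix.  Cut-offs `χ` (partition of unity), `χ'` (`= 1` near `supp lam`), `lam` (compact support, `= 1` on the part of
`supp χ` which matters).  For `h = (h i)` put `u j = ∑ i, χ' i • T j i (C (lam i • h i))`, `C` = Cauchy transform.  If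
  `h j + χ j • ∑ i, ∂̄χ' i • T j i (C (lam i • h i)) = χ j • T j i0 g`        (*)
then `lam i • h i = h i` is `C¹` with compact support and `∂̄ (u j) = T j i0 g`  (`ret_par_solve`).
The operator in (*) has a continuous compactly supported kernel (`∂̄χ' i` vanishes near `supp lam i`), so (*) is solvable for a
nontrivial combination `g = ∑ c n • ∂̄(η P n)` (`ret_par_fredholm`), `η` a cut-off at `q`.  Then `a j = T j i0 (η ∑ c n P n) - u j`.
-/

set_option autoImplicit false

namespace Claimed.Agent.R280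

open Complex MeasureTheory Topology
open scoped ContDiff

/-- a holomorphic vector bundle on `P¹` presented by finitely many planar charts -/
structure RetCocycle (ι : Type) (E : Type) [NormedAddCommGroup E] [NormedSpace ℂ E] where
  U : ι → Set ℂ
  T : ι → ι → ℂ → (E →L[ℂ] E)
  inf : ι
  isOpen : ∀ i, IsOpen (U i)
  cover : ∀ z, ∃ i, z ∈ U i
  bdd : ∀ i, i ≠ inf → Bornology.IsBounded (U i)
  bdd_inf : Bornology.IsBounded (U inf)ᶜ
  holo : ∀ i j, DifferentiableOn ℂ (T i j) (U i ∩ U j)
  self : ∀ i, ∀ z ∈ U i, T i i z = ContinuousLinearMap.id ℂ E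
  comp : ∀ i j k, ∀ z, z ∈ U i → z ∈ U j → z ∈ U k → (T i j z).comp (T j k z) = T i k z

variable {ι : Type} [Fintype ι] {E : Type} [NormedAddCommGroup E] [NormedSpace ℂ E]

/-- the cut-off functions of the parametrix; `Ω` is a compact set containing the support of the data -/
structure RetCutoffs (𝒞 : RetCocycle ι E) (Ω : Set ℂ) where
  χ : ι → ℂ → ℂ
  χ' : ι → ℂ → ℂ
  lam : ι → ℂ → ℂ
  χ_smooth : ∀ i, ContDiff ℝ ∞ (χ i)
  χ'_smooth : ∀ i, ContDiff ℝ ∞ (χ' i)
  lam_smooth : ∀ i, ContDiff ℝ ∞ (lam i)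
  χ_sum : ∀ z, ∑ i, χ i z = 1
  χ_supp : ∀ i, tsupport (χ i) ⊆ 𝒞.U i
  χ'_supp : ∀ i, tsupport (χ' i) ⊆ 𝒞.U i
  χ'_cpt : ∀ i, i ≠ 𝒞.inf → HasCompactSupport (χ' i)
  χ'_inf : ∀ᶠ z in Filter.cocompact ℂ, χ' 𝒞.inf z = 1
  χ'_one : ∀ i, ∀ z ∈ tsupport (lam i), χ' i =ᶠ[𝓝 z] fun _ => 1
  lam_cpt : ∀ i, HasCompactSupport (lam i)
  lam_one : ∀ i z, χ i z ≠ 0 → (z ∈ Ω ∨ ∃ l, retDbar (χ' l) z ≠ 0) → lam i z = 1

/-- the error operator of the parametrix -/
noncomputable def RetCutoffs.Kop {𝒞 : RetCocycle ι E} {Ω : Set ℂ} (c : RetCutoffs 𝒞 Ω)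
    (h : ι → ℂ → E) (j : ι) (x : ℂ) : E :=
  ∑ i, (c.χ j x * retDbar (c.χ' i) x) • 𝒞.T j i x (retCauchy (fun z => c.lam i z • h i z) x)

end Claimed.Agent.R280
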