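import Mathlib

/-!
# Row 280, package RETG (group theory of Layer 1): `G ≀ C₂`, induced homomorphisms, torus tuples from sphere tuples

No fields here.  `ι : Δ →* Γ` injective with image of index two (`Δ = Gal(E/XX)`, `Γ = Gal(E/KK)`).

* `Wr2 G` : the wreath product `G ≀ C₂ = (G × G) ⋊ C₂`;  `⟨a, b, true⟩ = (a,b)σ`,  `σ (c,d) σ⁻¹ = (d,c)`.
* `exists_indHom` : the homomorphism `Γ →* Wr2 G` induced from `φ : Δ →* G` (transversal `1, s`):
  `h ↦ (φ h, φ (s⁻¹ h s))`,  `s ↦ (φ (s²), 1) σ`.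
* `QuadHyp.torus` : the abstract form of "torus ⇐ sphere".  EVERYTHING IN THIS FILE IS PROVED.

Owner: helper256.
-/

set_option autoImplicit false

namespace Claimed.Agent.R280

/-- the wreath product `G ≀ C₂`; `⟨a, b, true⟩` is `(a,b)σ`. -/
@[ext] structure Wr2 (G : Type) where
  fst : G
  snd : G
  sw : Bool

namespace Wr2

variable {G : Type} [Group G]

instance : Mul (Wr2 G) :=
  ⟨fun a b => match a.sw with
    | true => ⟨a.fst * b.snd, a.snd * b.fst, !b.sw⟩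
    | false => ⟨a.fst * b.fst, a.snd * b.snd, b.sw⟩⟩

instance : One (Wr2 G) := ⟨⟨1, 1, false⟩⟩

instance : Inv (Wr2 G) :=
  ⟨fun a => match a.sw with
    | true => ⟨a.snd⁻¹, a.fst⁻¹, true⟩
    | false => ⟨a.fst⁻¹, a.snd⁻¹, false⟩⟩

theorem mk_mul_true (a b c d : G) (ε : Bool) :
    (⟨a, b, true⟩ : Wr2 G) * ⟨c, d, ε⟩ = ⟨a * d, b * c, !ε⟩ := rfl

theorem mk_mul_false (a b c d : G) (ε : Bool) :
    (⟨a, b, false⟩ : Wr2 G) * ⟨c, d, ε⟩ = ⟨a * c, b * d, ε⟩ := rfl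

theorem one_def : (1 : Wr2 G) = ⟨1, 1, false⟩ := rfl

theorem inv_true (a b : G) : (⟨a, b, true⟩ : Wr2 G)⁻¹ = ⟨b⁻¹, a⁻¹, true⟩ := rfl

theorem inv_false (a b : G) : (⟨a, b, false⟩ : Wr2 G)⁻¹ = ⟨a⁻¹, b⁻¹, false⟩ := rfl

instance : Group (Wr2 G) :=
  Group.ofLeftAxioms
    (by
      rintro ⟨a, b, _ | _⟩ ⟨c, d, _ | _⟩ ⟨e, f, _ | _⟩ <;>
        simp [mk_mul_true, mk_mul_false, mul_assoc])
    (by rintro ⟨a, b, ε⟩; simp [one_def, mk_mul_false])
    (by rintro ⟨a, b, _ | _⟩ <;> simp [inv_true, inv_false, mk_mul_true, mk_mul_false, one_def])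

instance [Finite G] : Finite (Wr2 G) :=
  Finite.of_injective (fun a : Wr2 G => (a.fst, a.snd, a.sw)) fun a b h => by
    ext <;> simp_all

/-- the swap `σ` -/
def σ : Wr2 G := ⟨1, 1, true⟩

/-- the projection `G ≀ C₂ → C₂` -/
def swHom : Wr2 G →* Multiplicative (ZMod 2) where
  toFun a := Multiplicative.ofAdd (if a.sw then 1 else 0)
  map_one' := rfl
  map_mul' := by
    rintro ⟨a, b, _ | _⟩ ⟨c, d, _ | _⟩ <;> simp [mk_mul_true, mk_mul_false] <;> rfl

end Wr2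

/-! ### sorting a family by a Boolean label -/

theorem prod_map_ite_filter {α H : Type} [Monoid H] (l : List α) (p : α → Bool) (h : α → H) :
    (l.map fun i => if p i then h i else 1).prod = ((l.filter p).map h).prod := by
  induction l with
  | nil => simp
  | cons a l ih =>
    by_cases hp : p a
    · simp [hp, ih]
    · simp [hp, ih]

/-- there is a permutation which lists the indices with label `true` first (both groups in increasing order) -/
theorem exists_sort_perm {n : ℕ} (I : Fin n → Bool) :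
    ∃ π : Equiv.Perm (Fin n), ∀ (H : Type) [Monoid H] (h : Fin n → H),
      (List.ofFn fun j => h (π j)).prod
        = (List.ofFn fun i => if I i then h i else 1).prod * (List.ofFn fun i => if I i then 1 else h i).prod := by
  classical
  set l : List (Fin n) := (List.finRange n).filter I ++ (List.finRange n).filter (fun i => !I i) with hl
  have hperm : l.Perm (List.finRange n) := List.filter_append_perm I (List.finRange n)
  have hnd : l.Nodup := hperm.nodup_iff.2 (List.nodup_finRange n)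
  have hmem : ∀ i, i ∈ l := fun i => hperm.mem_iff.2 (List.mem_finRange i)
  have hlen : l.length = n := by rw [hperm.length_eq, List.length_finRange]
  let π : Equiv.Perm (Fin n) := (finCongr hlen.symm).trans (hnd.getEquivOfForallMemList l hmem)
  refine ⟨π, fun H _ h => ?_⟩
  have h1 : (List.ofFn fun j => h (π j)) = l.map h := by
    apply List.ext_getElem
    · simp [hlen]
    · intro i h1 h2
      simp [π, List.Nodup.getEquivOfForallMemList]
  rw [h1, List.ofFn_eq_map, List.ofFn_eq_map, prod_map_ite_filter, hl, List.map_append, List.prod_append]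
  congr 1
  have := prod_map_ite_filter (List.finRange n) (fun i => !I i) h
  rw [← this]
  congr 1
  apply List.map_congr_left
  intro i _
  cases I i <;> simp

/-! ### the abstract form of "torus ⇐ sphere" -/

section Abstract

variable {Γ Δ : Type} [Group Γ] [Group Δ]

/-- The hypotheses of the abstract "torus ⇐ sphere".  `Δ ≤ Γ` of index two; `AΓ G`, `AΔ G` are the admissible homomorphisms
(open kernel, unramified outside the marked places); `s k ∉ Δ` the four inertia generators at the branch points of the double cover,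
`w i ∈ Δ` the inertia generators at the images of the marked points; `I i = true` iff `w i` sits at the conjugate of the marked
point. -/
structure QuadHyp (ι : Δ →* Γ) {n : ℕ} (s : Fin 4 → Γ) (w : Fin n → Γ) (I : Fin n → Bool)
    (AΓ : ∀ (G : Type) [Group G] [Finite G], Set (Γ →* G))
    (AΔ : ∀ (G : Type) [Group G] [Finite G], Set (Δ →* G)) : Prop where
  inj : Function.Injective ι
  index2 : ∀ g g' : Γ, g ∉ ι.range → g' ∉ ι.range → g * g' ∈ ι.range
  s_not_mem : ∀ k, s k ∉ ι.range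
  w_mem : ∀ i, w i ∈ ι.range
  /-- RET for the sphere -/
  bij : ∀ (G : Type) [Group G] [Finite G],
    Set.BijOn (fun (Φ : Γ →* G) (k : Fin (4 + n)) => Φ (Fin.append s w k)) (AΓ G)
      {g | (List.ofFn g).prod = 1}
  comp : ∀ (G H : Type) [Group G] [Finite G] [Group H] [Finite H] (f : G →* H) (Φ : Γ →* G),
    Φ ∈ AΓ G → f.comp Φ ∈ AΓ H
  /-- the quadratic character is admissible -/
  char : ∀ χ : Γ →* Multiplicative (ZMod 2), χ.ker = ι.range → χ ∈ AΓ (Multiplicative (ZMod 2))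
  /-- (K1a) induced homomorphisms are admissible -/
  ind : ∀ (G H : Type) [Group G] [Finite G] [Group H] [Finite H] (φ : Δ →* G) (Φ : Γ →* H) (t : Γ),
    φ ∈ AΔ G → (∀ d d' : Δ, ι d' = t⁻¹ * ι d * t → φ d = 1 → φ d' = 1 → Φ (ι d) = 1) → Φ ∈ AΓ H
  /-- (K1b) admissible homomorphisms of `Δ` are unramified over the branch points -/
  kill_s : ∀ (G : Type) [Group G] [Finite G] (φ : Δ →* G), φ ∈ AΔ G →
    ∀ (k : Fin 4) (g : Γ) (d : Δ), ι d = g * s k ^ 2 * g⁻¹ → φ d = 1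
  /-- (K1c) admissible homomorphisms of `Δ` are unramified at the conjugates of the marked points -/
  kill_w : ∀ (G : Type) [Group G] [Finite G] (φ : Δ →* G), φ ∈ AΔ G →
    ∀ (i : Fin n) (g : Γ) (d : Δ), (g ∈ ι.range ↔ I i = true) → ι d = g * w i * g⁻¹ → φ d = 1
  /-- (K2) a criterion for admissibility on `Δ` -/
  res : ∀ (G H : Type) [Group G] [Finite G] [Group H] [Finite H] (φ : Δ →* G) (Φ : Γ →* H),
    Φ ∈ AΓ H → (∀ d, Φ (ι d) = 1 → φ d = 1) →
    (∀ (k : Fin 4) (g : Γ) (j : ℤ) (d : Δ), Φ (ι d) = Φ g * Φ (s k) ^ j * (Φ g)⁻¹ → φ d = 1) →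
    (∀ (i : Fin n) (g : Γ) (j : ℤ) (d : Δ), (g ∈ ι.range ↔ I i = true) →
      Φ (ι d) = Φ g * Φ (w i) ^ j * (Φ g)⁻¹ → φ d = 1) → φ ∈ AΔ G

open Classical in
/-- extension by `1` of `φ` along `ι` -/
noncomputable def extOne {G : Type} [Group G] (ι : Δ →* Γ) (φ : Δ →* G) (g : Γ) : G :=
  if h : ∃ d, ι d = g then φ h.choose else 1

theorem extOne_apply {G : Type} [Group G] {ι : Δ →* Γ} (hι : Function.Injective ι) (φ : Δ →* G)
    (d : Δ) : extOne ι φ (ι d) = φ d := by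
  have h : ∃ d', ι d' = ι d := ⟨d, rfl⟩
  rw [extOne, dif_pos h, hι h.choose_spec]

theorem extOne_mul {G : Type} [Group G] {ι : Δ →* Γ} (hι : Function.Injective ι) (φ : Δ →* G)
    {a b : Γ} (ha : a ∈ ι.range) (hb : b ∈ ι.range) :
    extOne ι φ (a * b) = extOne ι φ a * extOne ι φ b := by
  obtain ⟨a, rfl⟩ := ha
  obtain ⟨b, rfl⟩ := hb
  rw [← map_mul, extOne_apply hι, extOne_apply hι, extOne_apply hι, map_mul]

theorem index2_mul_not_mem {ι : Δ →* Γ} {g g' : Γ} (hg : g ∈ ι.range) (hg' : g' ∉ ι.range) :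
    g * g' ∉ ι.range := fun h => hg' (by simpa using ι.range.mul_mem (ι.range.inv_mem hg) h)

theorem index2_mul_not_mem' {ι : Δ →* Γ} {g g' : Γ} (hg : g ∉ ι.range) (hg' : g' ∈ ι.range) :
    g * g' ∉ ι.range := fun h => hg (by simpa using ι.range.mul_mem h (ι.range.inv_mem hg'))

theorem index2_inv_not_mem {ι : Δ →* Γ} {g : Γ} (hg : g ∉ ι.range) : g⁻¹ ∉ ι.range :=
  fun h => hg (by simpa using ι.range.inv_mem h)

theorem index2_conj_mem {ι : Δ →* Γ}
    (h2 : ∀ g g' : Γ, g ∉ ι.range → g' ∉ ι.range → g * g' ∈ ι.range) (g : Γ) {a : Γ}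
    (ha : a ∈ ι.range) : g * a * g⁻¹ ∈ ι.range := by
  by_cases hg : g ∈ ι.range
  · exact ι.range.mul_mem (ι.range.mul_mem hg ha) (ι.range.inv_mem hg)
  · exact h2 _ _ (index2_mul_not_mem' hg ha) (index2_inv_not_mem hg)

/-- the homomorphism `Γ → G ≀ C₂` induced from `φ : Δ → G`, for the transversal `1, t` -/
theorem exists_indHom {G : Type} [Group G] (ι : Δ →* Γ) (hι : Function.Injective ι)
    (h2 : ∀ g g' : Γ, g ∉ ι.range → g' ∉ ι.range → g * g' ∈ ι.range) (t : Γ) (ht : t ∉ ι.range)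
    (φ : Δ →* G) :
    ∃ Φ : Γ →* Wr2 G, (∀ d d' : Δ, ι d' = t⁻¹ * ι d * t → Φ (ι d) = ⟨φ d, φ d', false⟩) ∧
      ∀ d : Δ, ι d = t ^ 2 → Φ t = ⟨φ d, 1, true⟩ := by
  classical
  have ht' : t⁻¹ ∉ ι.range := index2_inv_not_mem ht
  have hc : ∀ {a : Γ}, a ∈ ι.range → t⁻¹ * a * t ∈ ι.range := fun {a} ha => by
    simpa using index2_conj_mem h2 t⁻¹ ha
  let ψ := extOne ι φ
  have hψ : ∀ {a b : Γ}, a ∈ ι.range → b ∈ ι.range → ψ (a * b) = ψ a * ψ b :=
    fun ha hb => extOne_mul hι φ ha hb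
  let F : Γ → Wr2 G := fun g =>
    if g ∈ ι.range then ⟨ψ g, ψ (t⁻¹ * g * t), false⟩ else ⟨ψ (g * t), ψ (t⁻¹ * g), true⟩
  have hF1 : ∀ {g : Γ}, g ∈ ι.range → F g = ⟨ψ g, ψ (t⁻¹ * g * t), false⟩ := fun hg => if_pos hg
  have hF2 : ∀ {g : Γ}, g ∉ ι.range → F g = ⟨ψ (g * t), ψ (t⁻¹ * g), true⟩ := fun hg => if_neg hg
  have hmul : ∀ g g' : Γ, F (g * g') = F g * F g' := by
    intro g g'
    by_cases hg : g ∈ ι.range <;> by_cases hg' : g' ∈ ι.range
    · rw [hF1 hg, hF1 hg', hF1 (ι.range.mul_mem hg hg'), Wr2.mk_mul_false, ← hψ hg hg',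
        ← hψ (hc hg) (hc hg')]
      congr 2
      group
    · rw [hF1 hg, hF2 hg', hF2 (index2_mul_not_mem hg hg'), Wr2.mk_mul_false,
        ← hψ hg (h2 _ _ hg' ht), ← hψ (hc hg) (h2 _ _ ht' hg')]
      congr 2 <;> group
    · rw [hF2 hg, hF1 hg', hF2 (index2_mul_not_mem' hg hg'), Wr2.mk_mul_true,
        ← hψ (h2 _ _ hg ht) (hc hg'), ← hψ (h2 _ _ ht' hg) hg']
      congr 2 <;> group
    · rw [hF2 hg, hF2 hg', hF1 (h2 _ _ hg hg'), Wr2.mk_mul_true,
        ← hψ (h2 _ _ hg ht) (h2 _ _ ht' hg'), ← hψ (h2 _ _ ht' hg) (h2 _ _ hg' ht)]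
      congr 2 <;> group
  refine ⟨MonoidHom.mk' F hmul, ?_, ?_⟩
  · intro d d' hd
    show F (ι d) = _
    rw [hF1 ⟨d, rfl⟩, ← hd]
    simp only [ψ, extOne_apply hι]
  · intro d hd
    show F t = _
    have h1 : extOne ι φ 1 = 1 := by
      have := extOne_apply hι φ 1
      rwa [map_one, map_one] at this
    rw [hF2 ht, ← pow_two, ← hd, inv_mul_cancel]
    simp only [ψ, extOne_apply hι, h1]

end Abstract

namespace Wr2
variable {G : Type} [Group G]

theorem prod_ofFn_false {n : ℕ} (p q : Fin n → G) :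
    (List.ofFn fun i => (⟨p i, q i, false⟩ : Wr2 G)).prod
      = ⟨(List.ofFn p).prod, (List.ofFn q).prod, false⟩ := by
  induction n with
  | zero => simp [one_def]
  | succ n ih =>
    simp only [List.ofFn_succ, List.prod_cons, ih (fun i => p i.succ) (fun i => q i.succ),
      mk_mul_false]

end Wr2

theorem prod_ofFn_conj {G : Type} [Group G] {n : ℕ} (c : G) (I : Fin n → Bool) (u : Fin n → G) :
    (List.ofFn fun i => if I i then c * u i * c⁻¹ else 1).prod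
      = c * (List.ofFn fun i => if I i then u i else 1).prod * c⁻¹ := by
  induction n with
  | zero => simp
  | succ n ih =>
    simp only [List.ofFn_succ, List.prod_cons, ih (fun i => I i.succ) (fun i => u i.succ)]
    cases I 0 <;> simp [mul_assoc]

/-- `Φ` is in standard form on the generators -/
structure StdForm {Γ G : Type} [Group Γ] [Group G] {n : ℕ} (s : Fin 4 → Γ) (w : Fin n → Γ)
    (I : Fin n → Bool) (Φ : Γ →* Wr2 G) (a1 a2 a3 : G) (u : Fin n → G) : Prop where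
  s0 : Φ (s 0) = ⟨1, 1, true⟩
  s1 : Φ (s 1) = ⟨a1, a1⁻¹, true⟩
  s2 : Φ (s 2) = ⟨a2, a2⁻¹, true⟩
  s3 : Φ (s 3) = ⟨a3, a3⁻¹, true⟩
  w : ∀ i, Φ (w i) = ⟨if I i then 1 else u i, if I i then u i else 1, false⟩

/-- the sphere tuple in standard form -/
def stdTuple {G : Type} [Group G] {n : ℕ} (I : Fin n → Bool) (a1 a2 a3 : G) (u : Fin n → G) :
    Fin (4 + n) → Wr2 G :=
  Fin.append ![⟨1, 1, true⟩, ⟨a1, a1⁻¹, true⟩, ⟨a2, a2⁻¹, true⟩, ⟨a3, a3⁻¹, true⟩]
    (fun i => ⟨if I i then 1 else u i, if I i then u i else 1, false⟩)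

theorem stdTuple_prod {G : Type} [Group G] {n : ℕ} (I : Fin n → Bool) (a1 a2 a3 : G)
    (u : Fin n → G) :
    (List.ofFn (stdTuple I a1 a2 a3 u)).prod
      = ⟨a1⁻¹ * a2 * a3⁻¹ * (List.ofFn fun i => if I i then 1 else u i).prod,
         a1 * a2⁻¹ * a3 * (List.ofFn fun i => if I i then u i else 1).prod, false⟩ := by
  rw [stdTuple, List.ofFn_fin_append, List.prod_append, Wr2.prod_ofFn_false]
  simp [List.ofFn_succ, Wr2.mk_mul_true, Wr2.mk_mul_false, mul_assoc, Wr2.one_def]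

namespace StdForm

variable {Γ G : Type} [Group Γ] [Group G] {n : ℕ} {s : Fin 4 → Γ} {w : Fin n → Γ}
    {I : Fin n → Bool} {Φ : Γ →* Wr2 G} {a1 a2 a3 : G} {u : Fin n → G}

theorem eq_stdTuple (h : StdForm s w I Φ a1 a2 a3 u) :
    (fun k => Φ (Fin.append s w k)) = stdTuple I a1 a2 a3 u := by
  funext k
  refine Fin.addCases (fun k => ?_) (fun i => ?_) k
  · fin_cases k <;> simp [stdTuple, h.s0, h.s1, h.s2, h.s3]
  · simp [stdTuple, h.w]

theorem of_eq (h : (fun k => Φ (Fin.append s w k)) = stdTuple I a1 a2 a3 u) :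
    StdForm s w I Φ a1 a2 a3 u := by
  have h1 : ∀ k : Fin 4, Φ (s k) = stdTuple I a1 a2 a3 u (Fin.castAdd n k) := fun k => by
    have := congrFun h (Fin.castAdd n k)
    simpa using this
  have h2 : ∀ i : Fin n, Φ (w i) = stdTuple I a1 a2 a3 u (Fin.natAdd 4 i) := fun i => by
    have := congrFun h (Fin.natAdd 4 i)
    simpa using this
  refine ⟨?_, ?_, ?_, ?_, fun i => ?_⟩
  · rw [h1]; simp [stdTuple]
  · rw [h1]; simp [stdTuple]
  · rw [h1]; simp [stdTuple]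
  · rw [h1]; simp [stdTuple]
  · rw [h2]; simp [stdTuple]

theorem alpha (h : StdForm s w I Φ a1 a2 a3 u) : Φ (s 0 * s 1) = ⟨a1⁻¹, a1, false⟩ := by
  rw [map_mul, h.s0, h.s1]; simp [Wr2.mk_mul_true]

theorem beta (h : StdForm s w I Φ a1 a2 a3 u) : Φ (s 2 * s 0) = ⟨a2, a2⁻¹, false⟩ := by
  rw [map_mul, h.s0, h.s2]; simp [Wr2.mk_mul_true]

theorem conj0 (h : StdForm s w I Φ a1 a2 a3 u) :
    Φ (s 2 * s 0 * s 0 * s 1 * (s 0)⁻¹) = ⟨a2 * a1⁻¹, a2⁻¹ * a1, true⟩ := by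
  simp only [map_mul, map_inv, h.s0, h.s1, h.s2]
  simp [Wr2.mk_mul_true, Wr2.mk_mul_false, Wr2.inv_true]

end StdForm

theorem Wr2.eq_of_sq {G : Type} [Group G] {x : Wr2 G} (hsw : x.sw = true) (hsq : x * x = 1) :
    x = ⟨x.fst, x.fst⁻¹, true⟩ := by
  obtain ⟨p, q, ε⟩ := x
  simp only at hsw
  subst hsw
  rw [Wr2.mk_mul_true, Wr2.one_def] at hsq
  have h1 : p * q = 1 := congrArg Wr2.fst hsq
  simp only [Wr2.mk.injEq, true_and, and_true]
  exact eq_inv_of_mul_eq_one_right h1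

theorem torus_rel_iff {G : Type} [Group G] (a1 a2 a3 U' U'' : G) :
    (a1⁻¹ * a2 * a3⁻¹ * U' = 1 ∧ a1 * a2⁻¹ * a3 * U'' = 1) ↔
      (a3 = a2 * a1⁻¹ * U''⁻¹ ∧
        a1⁻¹ * a2 * (a1⁻¹)⁻¹ * a2⁻¹ * ((a2 * a1⁻¹) * U'' * (a2 * a1⁻¹)⁻¹ * U') = 1) := by
  constructor
  · rintro ⟨h1, h2⟩
    have h3 : a3 = a2 * a1⁻¹ * U''⁻¹ := by
      calc a3 = (a1 * a2⁻¹)⁻¹ * (a1 * a2⁻¹ * a3 * U'') * U''⁻¹ := by group
        _ = _ := by rw [h2]; group
    refine ⟨h3, ?_⟩
    rw [h3] at h1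
    calc _ = a1⁻¹ * a2 * (a2 * a1⁻¹ * U''⁻¹)⁻¹ * U' := by group
      _ = 1 := h1
  · rintro ⟨h3, h1⟩
    subst h3
    refine ⟨?_, by group⟩
    calc _ = a1⁻¹ * a2 * (a1⁻¹)⁻¹ * a2⁻¹ * ((a2 * a1⁻¹) * U'' * (a2 * a1⁻¹)⁻¹ * U') := by group
      _ = 1 := h1

section
variable {Γ Δ : Type} [Group Γ] [Group Δ]

theorem QuadHyp.exists_std {ι : Δ →* Γ} {n : ℕ} {s : Fin 4 → Γ} {w : Fin n → Γ} {I : Fin n → Bool}
    {AΓ : ∀ (G : Type) [Group G] [Finite G], Set (Γ →* G)}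
    {AΔ : ∀ (G : Type) [Group G] [Finite G], Set (Δ →* G)} (h : QuadHyp ι s w I AΓ AΔ)
    {G : Type} [Group G] [Finite G] {φ : Δ →* G} (hφ : φ ∈ AΔ G) :
    ∃ (Φ : Γ →* Wr2 G) (a1 a2 a3 : G) (u : Fin n → G), Φ ∈ AΓ (Wr2 G) ∧
      StdForm s w I Φ a1 a2 a3 u ∧ ∀ d, (Φ (ι d)).fst = φ d := by
  obtain ⟨Φ, hΦ1, hΦ2⟩ := exists_indHom ι h.inj h.index2 (s 0) (h.s_not_mem 0) φ
  have hcj : ∀ d, ∃ d', ι d' = (s 0)⁻¹ * ι d * s 0 := fun d => by
    simpa using index2_conj_mem h.index2 (s 0)⁻¹ (⟨d, rfl⟩ : ι d ∈ ι.range)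
  choose cj hcj using hcj
  have hΦ1' : ∀ d, Φ (ι d) = ⟨φ d, φ (cj d), false⟩ := fun d => hΦ1 d _ (hcj d)
  have hmem : Φ ∈ AΓ (Wr2 G) := h.ind G (Wr2 G) φ Φ (s 0) hφ fun d d' hd h1 h2 => by
    rw [hΦ1 d d' hd, h1, h2]; rfl
  have hsq : ∀ k, ∃ d, ι d = s k ^ 2 := fun k => by
    rw [pow_two]; exact h.index2 _ _ (h.s_not_mem k) (h.s_not_mem k)
  choose ds hds using hsq
  have hk1 : ∀ k, φ (ds k) = 1 := fun k => h.kill_s G φ hφ k 1 (ds k) (by simp [hds])
  have hk2 : ∀ k, φ (cj (ds k)) = 1 := fun k =>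
    h.kill_s G φ hφ k (s 0)⁻¹ (cj (ds k)) (by simp [hcj, hds])
  have hs0 : Φ (s 0) = ⟨1, 1, true⟩ := by rw [hΦ2 (ds 0) (hds 0), hk1]
  have hsw : ∀ k, (Φ (s k)).sw = true := fun k => by
    obtain ⟨d, hd⟩ := h.index2 _ _ (h.s_not_mem k) (index2_inv_not_mem (h.s_not_mem 0))
    have : s k = ι d * s 0 := by rw [hd]; group
    rw [this, map_mul, hΦ1', hs0, Wr2.mk_mul_false]
  have hsq1 : ∀ k, Φ (s k) * Φ (s k) = 1 := fun k => by
    rw [← map_mul, ← pow_two, ← hds, hΦ1', hk1, hk2]; rfl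
  have hform : ∀ k, Φ (s k) = ⟨(Φ (s k)).fst, (Φ (s k)).fst⁻¹, true⟩ := fun k =>
    Wr2.eq_of_sq (hsw k) (hsq1 k)
  choose dw hdw using h.w_mem
  refine ⟨Φ, (Φ (s 1)).fst, (Φ (s 2)).fst, (Φ (s 3)).fst,
    fun i => if I i then φ (cj (dw i)) else φ (dw i), hmem, ⟨hs0, hform 1, hform 2, hform 3, ?_⟩,
    fun d => by rw [hΦ1']⟩
  intro i
  rw [← hdw i, hΦ1']
  cases hI : I i
  · have : φ (cj (dw i)) = 1 := h.kill_w G φ hφ i (s 0)⁻¹ (cj (dw i))
      (by simp [hI, index2_inv_not_mem (h.s_not_mem 0)]) (by simp [hcj, hdw])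
    simp [this]
  · have : φ (dw i) = 1 := h.kill_w G φ hφ i 1 (dw i) (by simp [hI, one_mem]) (by simp [hdw])
    simp [this]

theorem exists_quadChar (ι : Δ →* Γ)
    (h2 : ∀ g g' : Γ, g ∉ ι.range → g' ∉ ι.range → g * g' ∈ ι.range) :
    ∃ χ : Γ →* Multiplicative (ZMod 2), χ.ker = ι.range ∧
      ∀ g, g ∉ ι.range → χ g = Multiplicative.ofAdd 1 := by
  classical
  let F : Γ → Multiplicative (ZMod 2) := fun g => if g ∈ ι.range then 1 else Multiplicative.ofAdd 1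
  have hF1 : ∀ {g : Γ}, g ∈ ι.range → F g = 1 := fun hg => if_pos hg
  have hF2 : ∀ {g : Γ}, g ∉ ι.range → F g = Multiplicative.ofAdd 1 := fun hg => if_neg hg
  have hmul : ∀ g g' : Γ, F (g * g') = F g * F g' := by
    intro g g'
    by_cases hg : g ∈ ι.range <;> by_cases hg' : g' ∈ ι.range
    · rw [hF1 hg, hF1 hg', hF1 (ι.range.mul_mem hg hg'), one_mul]
    · rw [hF1 hg, hF2 hg', hF2 (index2_mul_not_mem hg hg'), one_mul]
    · rw [hF2 hg, hF1 hg', hF2 (index2_mul_not_mem' hg hg'), mul_one]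
    · rw [hF2 hg, hF2 hg', hF1 (h2 _ _ hg hg')]; rfl
  refine ⟨MonoidHom.mk' F hmul, ?_, fun g hg => hF2 hg⟩
  ext g
  rw [MonoidHom.mem_ker]
  show F g = 1 ↔ _
  by_cases hg : g ∈ ι.range
  · simp [hF1 hg, hg]
  · rw [hF2 hg]
    simp only [hg, iff_false]
    decide

theorem Wr2.sq_std {G : Type} [Group G] (a : G) :
    (⟨a, a⁻¹, true⟩ : Wr2 G) * ⟨a, a⁻¹, true⟩ = 1 := by
  rw [Wr2.mk_mul_true, mul_inv_cancel, inv_mul_cancel]; rfl

theorem Wr2.fst_mul_of_false {G : Type} [Group G] {a b : Wr2 G} (h : a.sw = false) :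
    (a * b).fst = a.fst * b.fst := by
  obtain ⟨p, q, ε⟩ := a
  obtain ⟨p', q', ε'⟩ := b
  simp only at h
  subst h
  rfl

theorem Wr2.zpow_false {G : Type} [Group G] (p q : G) (j : ℤ) :
    (⟨p, q, false⟩ : Wr2 G) ^ j = ⟨p ^ j, q ^ j, false⟩ := by
  let f : G × G →* Wr2 G :=
    { toFun := fun x => ⟨x.1, x.2, false⟩, map_one' := rfl, map_mul' := fun _ _ => rfl }
  exact (map_zpow f (p, q) j).symm

theorem Wr2.swHom_eq_one_iff {G : Type} [Group G] (a : Wr2 G) : Wr2.swHom a = 1 ↔ a.sw = false := by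
  obtain ⟨p, q, ε⟩ := a
  cases ε
  · simp [Wr2.swHom]
  · simp only [Wr2.swHom, MonoidHom.coe_mk, OneHom.coe_mk, if_true, Bool.true_eq_false, iff_false]
    decide

/-- **Torus ⇐ sphere, abstract form.**

Choices: `π` from `exists_sort_perm I`; `ι α = s 0 * s 1`, `ι β = s 2 * s 0`; `c j = 1` if `I (π j) = false`,
`c j = s 2 * s 0 * s 0 * s 1 * (s 0)⁻¹` otherwise (a product of five elements outside `range ι`).

`MapsTo`, `InjOn`: for `φ ∈ AΔ G` let `Φ = Ind φ` (`exists_indHom`, `t = s 0`); `Φ ∈ AΓ (Wr2 G)` by `ind`.  By `kill_s`: `Φ (s 0) = σ` and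
`Φ (s k) ^ 2 = 1`, i.e. `Φ (s k) = (a_k, a_k⁻¹) σ`.  By `kill_w` (`g = 1` resp. `g = (s 0)⁻¹`): `Φ (w i) = (u_i, 1)` if `I i = false`, `(1, u_i)` if
`I i = true`.  The sphere relation `Φ (s 0) ⋯ Φ (s 3) ∏ Φ (w i) = 1` reads `(a₁⁻¹ a₂ a₃⁻¹ U', a₁ a₂⁻¹ a₃ U'') = 1`, `U' = ∏_{I i = false} u_i`,
`U'' = ∏_{I i = true} u_i`.  So `a₃ = a₂ a₁⁻¹ U''⁻¹` and, with `x = a₁⁻¹ = φ α`, `y = a₂ = φ β`:  `x y U'' x⁻¹ y⁻¹ U' = 1`, that is
`[x, y] (yx) U'' (yx)⁻¹ U' = 1`.  Moreover `Φ (c) = (a₂ a₁⁻¹, a₂⁻¹ a₁) σ` for the nontrivial `c`, so `φ (γ' j) = (yx) u (yx)⁻¹`.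
All values of `Φ` on the generators are functions of the torus tuple, whence injectivity (`bij.injOn`, `φ d = (Φ (ι d)).fst`).

`SurjOn`: from a torus tuple define `a₁, a₂, u_i, a₃` by these formulas, get `Φ ∈ AΓ (Wr2 G)` from `bij.surjOn`.  `swHom ∘ Φ` and the quadratic character
`χ` (`ker χ = range ι`; e.g. `swHom ∘ Ind 1`) are both in `AΓ C₂` (`comp`, `char`) and agree on the generators, so they are equal: `(Φ g).sw = false ↔
g ∈ range ι`.  `φ d := (Φ (ι d)).fst` is a homomorphism; it is in `AΔ G` by `res`: (h2) `Φ (s k) ^ 2 = 1` and the parity of `sw` force `j` even;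
(h3) a conjugate of `(1, u ^ j)` by an element with `sw = false`, or of `(u ^ j, 1)` by an element with `sw = true`, has `fst = 1`. -/
theorem QuadHyp.torus {ι : Δ →* Γ} {n : ℕ} {s : Fin 4 → Γ} {w : Fin n → Γ} {I : Fin n → Bool}
    {AΓ : ∀ (G : Type) [Group G] [Finite G], Set (Γ →* G)}
    {AΔ : ∀ (G : Type) [Group G] [Finite G], Set (Δ →* G)} (h : QuadHyp ι s w I AΓ AΔ) :
    ∃ (π : Equiv.Perm (Fin n)) (α β : Δ) (γ' : Fin n → Δ) (c : Fin n → Γ),
      (∀ j, c j ∈ ι.range ↔ I (π j) = false) ∧ (∀ j, ι (γ' j) = c j * w (π j) * (c j)⁻¹) ∧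
      ∀ (G : Type) [Group G] [Finite G],
        Set.BijOn (fun φ : Δ →* G => ((φ α, φ β, fun j => φ (γ' j)) : G × G × (Fin n → G))) (AΔ G)
          {t | t.1 * t.2.1 * t.1⁻¹ * t.2.1⁻¹ * (List.ofFn t.2.2).prod = 1} := by
  classical
  obtain ⟨π, hπ⟩ := exists_sort_perm I
  obtain ⟨α, hα⟩ := h.index2 _ _ (h.s_not_mem 0) (h.s_not_mem 1)
  obtain ⟨β, hβ⟩ := h.index2 _ _ (h.s_not_mem 2) (h.s_not_mem 0)
  have hc0n : s 2 * s 0 * s 0 * s 1 * (s 0)⁻¹ ∉ ι.range := by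
    have h1 : s 2 * s 0 * s 0 * s 1 ∈ ι.range := by
      have := ι.range.mul_mem (⟨β, hβ⟩ : s 2 * s 0 ∈ ι.range) (⟨α, hα⟩ : s 0 * s 1 ∈ ι.range)
      simpa [mul_assoc] using this
    exact index2_mul_not_mem h1 (index2_inv_not_mem (h.s_not_mem 0))
  let c : Fin n → Γ := fun j => if I (π j) then s 2 * s 0 * s 0 * s 1 * (s 0)⁻¹ else 1
  have hcm : ∀ j, ∃ d, ι d = c j * w (π j) * (c j)⁻¹ := fun j =>
    index2_conj_mem h.index2 _ (h.w_mem _)
  choose γ' hγ' using hcm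
  refine ⟨π, α, β, γ', c, ?_, hγ', ?_⟩
  · intro j
    cases hI : I (π j) <;> simp [c, hI, hc0n, one_mem]
  intro G _ _
  have tuple : ∀ {φ : Δ →* G} {Φ : Γ →* Wr2 G} {a1 a2 a3 : G} {u : Fin n → G},
      StdForm s w I Φ a1 a2 a3 u → (∀ d, (Φ (ι d)).fst = φ d) →
      φ α = a1⁻¹ ∧ φ β = a2 ∧ ∀ j, φ (γ' j) =
        if I (π j) then (a2 * a1⁻¹) * u (π j) * (a2 * a1⁻¹)⁻¹ else u (π j) := by
    intro φ Φ a1 a2 a3 u hs hf
    refine ⟨by rw [← hf, hα, hs.alpha], by rw [← hf, hβ, hs.beta], fun j => ?_⟩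
    rw [← hf, hγ' j, map_mul, map_mul, map_inv, hs.w]
    cases hI : I (π j)
    · simp [c, hI]
    · simp only [c, hI, if_true, hs.conj0]
      simp [Wr2.mk_mul_true, Wr2.inv_true, mul_assoc]
  have prodt : ∀ (a1 a2 : G) (u : Fin n → G),
      (List.ofFn fun j => if I (π j) then (a2 * a1⁻¹) * u (π j) * (a2 * a1⁻¹)⁻¹ else u (π j)).prod
       = (a2 * a1⁻¹) * (List.ofFn fun i => if I i then u i else 1).prod * (a2 * a1⁻¹)⁻¹ *
          (List.ofFn fun i => if I i then 1 else u i).prod := by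
    intro a1 a2 u
    have := hπ G (fun i => if I i then (a2 * a1⁻¹) * u i * (a2 * a1⁻¹)⁻¹ else u i)
    rw [this, ← prod_ofFn_conj]
    congr 3 <;> (funext i; cases I i <;> simp)
  refine ⟨?_, ?_, ?_⟩
  · -- MapsTo
    intro φ hφ
    obtain ⟨Φ, a1, a2, a3, u, hΦ, hs, hf⟩ := h.exists_std hφ
    obtain ⟨hx, hy, ht⟩ := tuple hs hf
    have hp : (List.ofFn fun k => Φ (Fin.append s w k)).prod = 1 := (h.bij (Wr2 G)).mapsTo hΦ
    rw [hs.eq_stdTuple, stdTuple_prod, Wr2.one_def] at hp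
    have h1 := congrArg Wr2.fst hp
    have h2 := congrArg Wr2.snd hp
    have := ((torus_rel_iff a1 a2 a3 _ _).1 ⟨h1, h2⟩).2
    show φ α * φ β * (φ α)⁻¹ * (φ β)⁻¹ * (List.ofFn fun j => φ (γ' j)).prod = 1
    rw [hx, hy, funext ht, prodt]
    exact this
  · -- InjOn
    intro φ hφ φ' hφ' heq
    obtain ⟨Φ, a1, a2, a3, u, hΦ, hs, hf⟩ := h.exists_std hφ
    obtain ⟨Φ', a1', a2', a3', u', hΦ', hs', hf'⟩ := h.exists_std hφ'
    obtain ⟨hx, hy, ht⟩ := tuple hs hf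
    obtain ⟨hx', hy', ht'⟩ := tuple hs' hf'
    simp only [Prod.mk.injEq] at heq
    obtain ⟨e1, e2, e3⟩ := heq
    have ea1 : a1 = a1' := by rw [hx, hx'] at e1; exact inv_injective e1
    have ea2 : a2 = a2' := by rw [hy, hy'] at e2; exact e2
    subst ea1 ea2
    have eu : u = u' := by
      funext i
      obtain ⟨j, rfl⟩ := π.surjective i
      have := congrFun e3 j
      rw [ht, ht'] at this
      cases hI : I (π j) <;> simpa [hI] using this
    subst eu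
    have ea3 : a3 = a3' := by
      have hp : (List.ofFn fun k => Φ (Fin.append s w k)).prod = 1 := (h.bij (Wr2 G)).mapsTo hΦ
      have hp' : (List.ofFn fun k => Φ' (Fin.append s w k)).prod = 1 := (h.bij (Wr2 G)).mapsTo hΦ'
      rw [hs.eq_stdTuple, stdTuple_prod, Wr2.one_def] at hp
      rw [hs'.eq_stdTuple, stdTuple_prod, Wr2.one_def] at hp'
      rw [((torus_rel_iff a1 a2 a3 _ _).1 ⟨congrArg Wr2.fst hp, congrArg Wr2.snd hp⟩).1,
        ((torus_rel_iff a1 a2 a3' _ _).1 ⟨congrArg Wr2.fst hp', congrArg Wr2.snd hp'⟩).1]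
    subst ea3
    have hΦΦ : Φ = Φ' := (h.bij (Wr2 G)).injOn hΦ hΦ' (by
      show (fun k => Φ (Fin.append s w k)) = fun k => Φ' (Fin.append s w k)
      rw [hs.eq_stdTuple, hs'.eq_stdTuple])
    ext d
    rw [← hf, ← hf', hΦΦ]
  · -- SurjOn
    rintro ⟨x, y, t⟩ ht
    change x * y * x⁻¹ * y⁻¹ * (List.ofFn t).prod = 1 at ht
    let u : Fin n → G := fun i =>
      if I i then (y * x⁻¹⁻¹)⁻¹ * t (π.symm i) * (y * x⁻¹⁻¹) else t (π.symm i)
    have htu : t = fun j => if I (π j) then (y * x⁻¹⁻¹) * u (π j) * (y * x⁻¹⁻¹)⁻¹ else u (π j) := by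
      funext j
      cases hI : I (π j) <;> simp [u, hI, mul_assoc]
    obtain ⟨Φ, hΦ, hΦt⟩ := (h.bij (Wr2 G)).surjOn (a := stdTuple I x⁻¹ y
      (y * x⁻¹⁻¹ * ((List.ofFn fun i => if I i then u i else 1).prod)⁻¹) u) (by
        show (List.ofFn _).prod = 1
        rw [stdTuple_prod]
        have := (torus_rel_iff x⁻¹ y (y * x⁻¹⁻¹ * ((List.ofFn fun i => if I i then u i else 1).prod)⁻¹)
          (List.ofFn fun i => if I i then 1 else u i).prod
          (List.ofFn fun i => if I i then u i else 1).prod).2 ⟨rfl, by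
            rw [← prodt, ← htu]
            simpa using ht⟩
        rw [this.1, this.2]; rfl)
    have hs := StdForm.of_eq hΦt
    -- the quadratic character
    obtain ⟨χ, hχk, hχ1⟩ := exists_quadChar ι h.index2
    have hχΦ : Wr2.swHom.comp Φ = χ :=
      (h.bij (Multiplicative (ZMod 2))).injOn (h.comp _ _ Wr2.swHom Φ hΦ) (h.char χ hχk) (by
        funext k
        refine Fin.addCases (fun k => ?_) (fun i => ?_) k
        · simp only [Fin.append_left, MonoidHom.comp_apply]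
          rw [hχ1 _ (h.s_not_mem k)]
          fin_cases k
          · show Wr2.swHom (Φ (s 0)) = _
            rw [hs.s0]; rfl
          · show Wr2.swHom (Φ (s 1)) = _
            rw [hs.s1]; rfl
          · show Wr2.swHom (Φ (s 2)) = _
            rw [hs.s2]; rfl
          · show Wr2.swHom (Φ (s 3)) = _
            rw [hs.s3]; rfl
        · simp only [Fin.append_right, MonoidHom.comp_apply]
          have : w i ∈ χ.ker := by rw [hχk]; exact h.w_mem i
          rw [MonoidHom.mem_ker.1 this, hs.w]; rfl)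
    have hsw : ∀ g, (Φ g).sw = false ↔ g ∈ ι.range := fun g => by
      rw [← Wr2.swHom_eq_one_iff, ← hχk, MonoidHom.mem_ker, ← hχΦ]; rfl
    let φ : Δ →* G := MonoidHom.mk' (fun d => (Φ (ι d)).fst) (fun d d' => by
      rw [map_mul, map_mul, Wr2.fst_mul_of_false ((hsw _).2 ⟨d, rfl⟩)])
    have hf : ∀ d, (Φ (ι d)).fst = φ d := fun _ => rfl
    have hφ : φ ∈ AΔ G := by
      refine h.res G (Wr2 G) φ Φ hΦ (fun d hd => ?_) (fun k g j d hd => ?_) (fun i g j d hg hd => ?_)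
      · rw [← hf, hd]; rfl
      · have hX : Φ (s k) * Φ (s k) = 1 := by
          fin_cases k
          · show Φ (s 0) * Φ (s 0) = 1
            rw [hs.s0]; simp [Wr2.mk_mul_true, Wr2.one_def]
          · show Φ (s 1) * Φ (s 1) = 1
            rw [hs.s1, Wr2.sq_std]
          · show Φ (s 2) * Φ (s 2) = 1
            rw [hs.s2, Wr2.sq_std]
          · show Φ (s 3) * Φ (s 3) = 1
            rw [hs.s3, Wr2.sq_std]
        have hXe : ∀ m : ℤ, Φ (s k) ^ (2 * m) = 1 := fun m => by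
          rw [zpow_mul, zpow_two, hX, one_zpow]
        rcases Int.even_or_odd' j with ⟨m, rfl | rfl⟩
        · rw [hXe, mul_one, mul_inv_cancel] at hd
          rw [← hf, hd]; rfl
        · exfalso
          rw [zpow_add_one, hXe, one_mul, ← map_inv, ← map_mul, ← map_mul] at hd
          have h1 : g * s k * g⁻¹ ∈ ι.range := by
            rw [← hsw, ← hd, hsw]; exact ⟨d, rfl⟩
          have h2 := index2_conj_mem h.index2 g⁻¹ h1
          apply h.s_not_mem k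
          convert h2 using 1
          group
      · rw [← hf, hd, hs.w, Wr2.zpow_false]
        have hg' := hsw g
        generalize Φ g = Y at hg'
        obtain ⟨p, q, ε⟩ := Y
        cases hI : I i
        · have : ε = true := by
            cases ε
            · exact absurd (hg.1 (hg'.1 rfl)) (by simp [hI])
            · rfl
          subst this
          simp [Wr2.mk_mul_true, Wr2.inv_true]
        · have : ε = false := hg'.2 (hg.2 hI)
          subst this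
          simp [Wr2.mk_mul_false, Wr2.inv_false]
    refine ⟨φ, hφ, ?_⟩
    obtain ⟨hx, hy, ht'⟩ := tuple hs hf
    show (φ α, φ β, fun j => φ (γ' j)) = (x, y, t)
    rw [hx, hy, funext ht', ← htu, inv_inv]

end

end Claimed.Agent.R280
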