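import Claimed.Agent.R280.RET.P1Defs
import Claimed.Agent.R280.RET.Wr2
import Claimed.Agent.R280.Gal.Res

/-!
# Row 280, package RETQ: torus datum from a sphere datum along a double cover branched at four points

`ℂ ⊆ KK ⊆ XX ⊆ E`, `[XX : KK] = 2`, `E` an algebraic closure.  `Γ = Gal(E/KK) ⊇ Δ = Gal(E/XX)`, `ι = resΓ`.

Sub-packages
* RETQ1 (~400 lines) Galois/topology of `Δ ≤ Γ`: now in `Gal/Res.lean` (`mem_range_resΓ_iff`, `range_resΓ_index2`, `isOpen_map_resΓ`,
  `isOpen_comap_resΓ`, `resΓ_smul`).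
* RETQ2 (~500 lines) places in the double cover: `mem_range_of_unram`, `above_smul_iff`, `not_mem_range_of_ram`, `isCanon_res`.
* RETQ3 (~700 lines) the fields of `QuadHyp`: `quad_char`, `quad_ind`, `quad_kill_s`, `quad_kill_w`, `quad_res`.
`quadHyp_of_datum` and `torus_datum_of_p1` are glue (proved).

## Proof sketches for RETQ3  (`P = Fin.append R A`, `s k = γ (castAdd k)` at `V (castAdd k)`, `w i = γ (natAdd i)` at `V (natAdd i)`)

General remarks.  (a) a valuation ring `V` of `E` lies above at most one place (`Place.Above` fixes `P.O`, then `Place.eq_of_O_le`).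
(b) if `V` is above the place `P'` of `KK`, `Place.exists_mid` gives the place `Q'` of `XX` below `V`, and `Q'.Over P'`.
(c) `ξ j` lies over `A j` only (`Place.existsUnique_below`), so a place `Q'` over `P'` with `P' ∉ range A` is not in `range ξ`; a place
`Q' ≠ ξ i` over `A i` is not in `range ξ` either (`A` is injective because `Fin.append R A` is).
(d) `resΓ d • V = d • V`, so `d` is in the decomposition group of `V` over `XX` iff `resΓ d` is in the one over `KK`.

* `quad_char`: `ker χ = range ι` contains the fixing subgroup of the finite layer `XX`, so it is an o p e n subgroup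
  (`isOpen_map_resΓ ⊤`); unramified outside `range P`: `mem_range_of_unram`.
* `quad_ind`: kernel: `N = ker φ`, `N' = ι⁻¹ (t ι(N) t⁻¹)` are both o p e n (`isOpen_map_resΓ`, conjugation is a homeomorphism,
  `isOpen_comap_resΓ`), `ι (N ⊓ N') ≤ ker Φ`.  Unramified at `P' ∉ range P`: `g • V = V` gives `g = ι d` (`mem_range_of_unram`), `φ d = 1` by (b), (c), (d);
  `t⁻¹ g t` fixes `t⁻¹ • V`, which is above `P'` too, so `t⁻¹ g t = ι d'` and `φ d' = 1`.
* `quad_kill_s`: `d` fixes `g • V (castAdd k)`, which is above `R k`; use (b), (c).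
* `quad_kill_w`: `d` fixes `V' = g • V (natAdd i)`, above `A i`; by `above_smul_iff` and `hg`, `ξ i` is not above `V'`; use (a), (b), (c).
* `quad_res`: kernel: `ker φ ⊇ ι⁻¹ (ker Φ)`.  Let `Q' ∉ range ξ`, `Q'` above `V'`, `d • V' = V'`, `P'` the place of `KK` below `Q'`.
  If `P' ∉ range P`: `Φ (ι d) = 1`, use `h1`.  If `P' = R k`: `V' = g • V (castAdd k)` (`Place.above_conj`), `g⁻¹ (ι d) g` fixes `V (castAdd k)`, so
  `Φ (g⁻¹ (ι d) g) ∈ zpowers (Φ (s k))` (`IsCanon.map_mem_zpowers`, `m = |H|`), use `h2`.  If `P' = A i`: the same with `w i`; the parity condition on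
  `g` follows from `above_smul_iff` because `ξ i` is not above `V'` (`Q' ≠ ξ i` and (a)); use `h3`.

Owner: helper256.
-/

set_option autoImplicit false

namespace Claimed.Agent.R280

open WithZero
open scoped Pointwise

section

variable {KK XX E : Type} [Field KK] [Field XX] [Field E] [Algebra ℂ KK] [Algebra ℂ XX]
  [Algebra KK XX] [IsScalarTower ℂ KK XX] [Algebra KK E] [Algebra XX E] [IsScalarTower KK XX E]

/-- `XX/KK` is a double cover branched exactly at the four places `R k`; the marked places `ξ i` of `XX` lie over the places `A i`. -/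
structure IsQuadCover {n : ℕ} (R : Fin 4 → Place ℂ KK) (A : Fin n → Place ℂ KK)
    (ξ : Fin n → Place ℂ XX) : Prop where
  finrank_eq : Module.finrank KK XX = 2
  ram : ∀ (k : Fin 4) (Q : Place ℂ XX), Q.Over (R k) → Q.ramIdx (R k) = 2
  unram : ∀ P : Place ℂ KK, P ∉ Set.range R → ∀ Q : Place ℂ XX, Q.Over P → Q.ramIdx P = 1
  lies_over : ∀ i, (ξ i).Over (A i)
  inj : Function.Injective (Fin.append R A)

variable [IsAlgClosure KK E] [IsAlgClosure XX E] [IsFF ℂ KK] [IsFF ℂ XX]

/-! ### RETQ2 -/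

/-- decomposition groups at places which are unramified in `XX` lie in `Δ` -/
theorem mem_range_of_unram [FiniteDimensional KK XX] {P : Place ℂ KK}
    (hP : ∀ Q : Place ℂ XX, Q.Over P → Q.ramIdx P = 1) {V : ValuationSubring E} (hV : P.Above E V)
    {g : E ≃ₐ[KK] E} (hg : g • V = V) :
    g ∈ (resΓ KK : (E ≃ₐ[XX] E) →* (E ≃ₐ[KK] E)).range := by
  obtain ⟨Q, hQ, hQP⟩ := Place.exists_mid XX hV
  exact (mem_range_resΓ_iff g).2 fun z => fixes_of_ramIdx_eq_one hV hQ (hP Q hQP) hg z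

/-- the two places over an unramified place are swapped by `Γ ∖ Δ` -/
theorem above_smul_iff (h2 : Module.finrank KK XX = 2) {P : Place ℂ KK}
    (hP : ∀ Q : Place ℂ XX, Q.Over P → Q.ramIdx P = 1) {Q : Place ℂ XX} (hQ : Q.Over P)
    {V : ValuationSubring E} (hV : P.Above E V) (g : E ≃ₐ[KK] E) :
    Q.Above E (g • V) ↔
      (Q.Above E V ↔ g ∈ (resΓ KK : (E ≃ₐ[XX] E) →* (E ≃ₐ[KK] E)).range) := by
  have hfin : FiniteDimensional KK XX := Module.finite_of_finrank_pos (by rw [h2]; norm_num)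
  have hchar : CharZero KK := charZero_of_injective_algebraMap (algebraMap ℂ KK).injective
  -- elements of `Δ` preserve "above `Q`"
  have hΔ : ∀ (d : E ≃ₐ[XX] E) (W : ValuationSubring E), Q.Above E (resΓ KK d • W) ↔ Q.Above E W := by
    intro d W
    rw [resΓ_smul]
    constructor
    · intro h
      have h' := Place.above_smul h d⁻¹
      rwa [inv_smul_smul] at h'
    · intro h
      exact Place.above_smul h d
  by_cases hg : g ∈ (resΓ KK : (E ≃ₐ[XX] E) →* (E ≃ₐ[KK] E)).range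
  · obtain ⟨d, rfl⟩ := hg
    rw [hΔ d V]
    constructor
    · intro h
      exact ⟨fun _ => ⟨d, rfl⟩, fun _ => h⟩
    · intro h
      exact h.2 ⟨d, rfl⟩
  · constructor
    · intro h
      refine ⟨fun h' => ?_, fun h' => absurd h' hg⟩
      -- `V` and `g • V` are both above `Q`: conjugate under `Δ`
      obtain ⟨d, hd⟩ := Place.above_conj h' h
      have hfix : ((resΓ KK d)⁻¹ * g) • V = V := by
        rw [mul_smul, ← hd, ← resΓ_smul (KK := KK) d V, inv_smul_smul]
      obtain ⟨d', hd'⟩ := mem_range_of_unram hP hV hfix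
      refine ⟨d * d', ?_⟩
      rw [map_mul, hd', mul_inv_cancel_left]
    · intro h
      have hnot : ¬ Q.Above E V := fun h' => hg (h.1 h')
      obtain ⟨V', hV'⟩ := Place.exists_above E Q
      have hPV' : P.Above E V' := Place.above_of_over hQ hV'
      obtain ⟨g', hg'⟩ := Place.above_conj hV hPV'
      have hg'not : g' ∉ (resΓ KK : (E ≃ₐ[XX] E) →* (E ≃ₐ[KK] E)).range := by
        rintro ⟨d, rfl⟩
        rw [← hg', hΔ d V] at hV'
        exact hnot hV'
      have hg'inv : g'⁻¹ ∉ (resΓ KK : (E ≃ₐ[XX] E) →* (E ≃ₐ[KK] E)).range := fun h' =>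
        hg'not (by simpa using Subgroup.inv_mem _ h')
      obtain ⟨d, hd⟩ := range_resΓ_index2 h2 hg hg'inv
      have e : g • V = resΓ KK d • V' := by
        rw [hd, ← hg', mul_smul, inv_smul_smul]
      rw [e, hΔ d V']
      exact hV'

/-- canonical inertia generators at ramified places are not in `Δ` -/
theorem not_mem_range_of_ram (h2 : Module.finrank KK XX = 2) {P : Place ℂ KK}
    (hP : ∀ Q : Place ℂ XX, Q.Over P → Q.ramIdx P = 2) {V : ValuationSubring E} (hV : P.Above E V)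
    {g : E ≃ₐ[KK] E} (hg : IsCanon E P V 2 (zetaC 2) g) :
    g ∉ (resΓ KK : (E ≃ₐ[XX] E) →* (E ≃ₐ[KK] E)).range := by
  have hfin : FiniteDimensional KK XX := Module.finite_of_finrank_pos (by rw [h2]; norm_num)
  have hchar : CharZero KK := charZero_of_injective_algebraMap (algebraMap ℂ KK).injective
  have hquad : Algebra.IsQuadraticExtension KK XX := ⟨h2⟩
  have hgal : IsGalois KK XX := inferInstance
  obtain ⟨Q, hQ, hQP⟩ := Place.exists_mid XX hV
  have hord := IsCanon.orderOf_restrict (Y := XX) hV hQ (zetaC_isPrimitiveRoot two_ne_zero)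
    (by rw [h2]) two_pos hg
  rw [hP Q hQP] at hord
  intro hmem
  have hfix := (mem_range_resΓ_iff g).1 hmem
  have hone : AlgEquiv.restrictNormalHom XX g = 1 := by
    ext z
    apply (algebraMap XX E).injective
    show algebraMap XX E (g.restrictNormal XX z) = algebraMap XX E z
    rw [AlgEquiv.restrictNormal_commutes, hfix z]
  rw [hone, orderOf_one] at hord
  norm_num at hord

/-- canonical generators over `KK` at places unramified in `XX` are canonical over `XX` -/
theorem isCanon_res [FiniteDimensional KK XX] {P : Place ℂ KK} {Q : Place ℂ XX}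
    (he : Q.ramIdx P = 1) {V : ValuationSubring E} (hP : P.Above E V) (hQ : Q.Above E V) {m : ℕ}
    (hm : 0 < m) {d : E ≃ₐ[XX] E} (hd : IsCanon E P V m (zetaC m) (resΓ KK d)) :
    IsCanon E Q V m (zetaC m) d := by
  have h := IsCanon.pow_tower (Y := XX) (Q := Q) (ζ := zetaC m) (g := resΓ KK d) (g' := d) hP hQ hm
    (by rw [he, mul_one]; exact zetaC_isPrimitiveRoot hm.ne')
    (by rw [he, mul_one]; exact hd)
    (by intro z; rw [he, pow_one]; rfl)
  rwa [he, pow_one] at h

/-! ### RETQ3 -/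

variable {n : ℕ} {R : Fin 4 → Place ℂ KK} {A : Fin n → Place ℂ KK} {ξ : Fin n → Place ℂ XX}

omit [IsAlgClosure KK E] [IsAlgClosure XX E] [IsFF ℂ XX] [Algebra KK E] [Algebra XX E]
  [IsScalarTower KK XX E] [Field E] in
/-- the place of `KK` below a marked place -/
theorem retq3_below_eq (hq : IsQuadCover R A ξ) {P' : Place ℂ KK} {j : Fin n} (h : (ξ j).Over P') :
    P' = A j := by
  have : FiniteDimensional KK XX := Module.finite_of_finrank_pos (by rw [hq.finrank_eq]; norm_num)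
  exact (Place.existsUnique_below (M := KK) (ξ j)).unique h (hq.lies_over j)

omit [IsAlgClosure XX E] [IsFF ℂ XX] in
/-- `φ` kills the decomposition group (over `XX`) of a valuation ring which is not above a marked place -/
theorem retq3_kill (hq : IsQuadCover R A ξ) {G : Type} [Group G] (φ : (E ≃ₐ[XX] E) →* G)
    (hφ : φ ∈ HomUnram E G (Set.range ξ)) {P' : Place ℂ KK} {V' : ValuationSubring E}
    (hV' : P'.Above E V') (hP : ∀ j, P' = A j → ¬ (ξ j).Above E V') (d : E ≃ₐ[XX] E)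
    (hd : d • V' = V') : φ d = 1 := by
  have : FiniteDimensional KK XX := Module.finite_of_finrank_pos (by rw [hq.finrank_eq]; norm_num)
  obtain ⟨Q', hQV, hQP⟩ := Place.exists_mid XX hV'
  refine hφ.2 Q' ?_ V' hQV d hd
  rintro ⟨j, rfl⟩
  exact hP j (retq3_below_eq hq hQP) hQV

omit [IsScalarTower ℂ KK XX] [IsAlgClosure KK E] [IsAlgClosure XX E] [IsFF ℂ KK] [IsFF ℂ XX] [Algebra KK E] [Algebra XX E]
  [IsScalarTower KK XX E] [Field E] [Algebra KK XX] [Algebra ℂ XX] [Field XX] in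
theorem retq3_not_mem_R {P' : Place ℂ KK} (h : P' ∉ Set.range (Fin.append R A)) :
    P' ∉ Set.range R := by
  rintro ⟨k, rfl⟩
  exact h ⟨Fin.castAdd n k, by simp⟩

omit [IsScalarTower ℂ KK XX] [IsAlgClosure KK E] [IsAlgClosure XX E] [IsFF ℂ KK] [IsFF ℂ XX] [Algebra KK E] [Algebra XX E]
  [IsScalarTower KK XX E] [Field E] [Algebra KK XX] [Algebra ℂ XX] [Field XX] in
theorem retq3_ne_A {P' : Place ℂ KK} (h : P' ∉ Set.range (Fin.append R A)) (j : Fin n) :
    P' ≠ A j := by
  rintro rfl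
  exact h ⟨Fin.natAdd 4 j, by simp⟩

omit [Algebra ℂ KK] [Algebra ℂ XX] [IsScalarTower ℂ KK XX] [IsAlgClosure KK E] [IsAlgClosure XX E] [IsFF ℂ KK] [IsFF ℂ XX]
  [Algebra KK XX] [Algebra XX E] [IsScalarTower KK XX E] [Field XX] in
/-- conjugates fix the translated valuation ring -/
theorem retq3_conj_smul {g s : E ≃ₐ[KK] E} {W : ValuationSubring E} (hs : s • W = W) :
    (g * s * g⁻¹) • (g • W) = g • W := by
  rw [smul_smul, inv_mul_cancel_right, mul_smul, hs]

theorem quad_char (hq : IsQuadCover R A ξ) (χ : (E ≃ₐ[KK] E) →* Multiplicative (ZMod 2))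
    (hχ : χ.ker = (resΓ KK : (E ≃ₐ[XX] E) →* (E ≃ₐ[KK] E)).range) :
    χ ∈ HomUnram E (Multiplicative (ZMod 2)) (Set.range (Fin.append R A)) := by
  have : FiniteDimensional KK XX := Module.finite_of_finrank_pos (by rw [hq.finrank_eq]; norm_num)
  refine ⟨?_, fun P hP W hW g hg => ?_⟩
  · rw [hχ, MonoidHom.range_eq_map]
    exact isOpen_map_resΓ ⊤ isOpen_univ
  · have h1 := mem_range_of_unram (hq.unram P (retq3_not_mem_R hP)) hW hg
    rw [← hχ] at h1
    exact h1

theorem quad_ind (hq : IsQuadCover R A ξ) {G H : Type} [Group G] [Finite G] [Group H] [Finite H]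
    (φ : (E ≃ₐ[XX] E) →* G) (Φ : (E ≃ₐ[KK] E) →* H) (t : E ≃ₐ[KK] E)
    (hφ : φ ∈ HomUnram E G (Set.range ξ))
    (hΦ : ∀ d d' : E ≃ₐ[XX] E, resΓ KK d' = t⁻¹ * resΓ KK d * t → φ d = 1 → φ d' = 1 →
      Φ (resΓ KK d) = 1) :
    Φ ∈ HomUnram E H (Set.range (Fin.append R A)) := by
  have : FiniteDimensional KK XX := Module.finite_of_finrank_pos (by rw [hq.finrank_eq]; norm_num)
  refine ⟨?_, fun P hP W hW g hg => ?_⟩
  · have ho : IsOpen ((φ.ker.map (resΓ KK) : Subgroup (E ≃ₐ[KK] E)) : Set (E ≃ₐ[KK] E)) :=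
      isOpen_map_resΓ φ.ker hφ.1
    have ho2 : IsOpen (((φ.ker.map (resΓ KK) : Subgroup (E ≃ₐ[KK] E)).comap
        (MulAut.conj t⁻¹).toMonoidHom : Subgroup (E ≃ₐ[KK] E)) : Set (E ≃ₐ[KK] E)) := by
      have hc : Continuous fun g : E ≃ₐ[KK] E => t⁻¹ * g * t⁻¹⁻¹ := by fun_prop
      exact ho.preimage hc
    refine Subgroup.isOpen_mono (H₁ := (φ.ker.map (resΓ KK) : Subgroup (E ≃ₐ[KK] E)) ⊓
      (φ.ker.map (resΓ KK) : Subgroup (E ≃ₐ[KK] E)).comap (MulAut.conj t⁻¹).toMonoidHom) ?_ ?_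
    · rintro g ⟨⟨d, hd, rfl⟩, ⟨d', hd', hdd⟩⟩
      rw [MonoidHom.mem_ker]
      refine hΦ d d' ?_ hd hd'
      rw [hdd]
      simp
    · rw [Subgroup.coe_inf]
      exact ho.inter ho2
  · have hun := hq.unram P (retq3_not_mem_R hP)
    obtain ⟨d, rfl⟩ := mem_range_of_unram hun hW hg
    have hW' : P.Above E (t⁻¹ • W) := Place.above_smul hW t⁻¹
    have hg' : (t⁻¹ * resΓ KK d * t) • (t⁻¹ • W) = t⁻¹ • W := by
      have := retq3_conj_smul (g := t⁻¹) hg
      rwa [inv_inv] at this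
    obtain ⟨d', hd'⟩ := mem_range_of_unram hun hW' hg'
    refine hΦ d d' hd' ?_ ?_
    · refine retq3_kill hq φ hφ hW (fun j hj => absurd hj (retq3_ne_A hP j)) d ?_
      rw [← resΓ_smul (KK := KK)]
      exact hg
    · refine retq3_kill hq φ hφ hW' (fun j hj => absurd hj (retq3_ne_A hP j)) d' ?_
      rw [← resΓ_smul (KK := KK), hd']
      exact hg'

variable {γ : Fin (4 + n) → (E ≃ₐ[KK] E)} {V : Fin (4 + n) → ValuationSubring E}

theorem quad_kill_s (hq : IsQuadCover R A ξ) (hd : IsP1Datum E (Fin.append R A) γ V) {G : Type}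
    [Group G] [Finite G] (φ : (E ≃ₐ[XX] E) →* G) (hφ : φ ∈ HomUnram E G (Set.range ξ)) (k : Fin 4)
    (g : E ≃ₐ[KK] E) (d : E ≃ₐ[XX] E) (hgd : resΓ KK d = g * γ (Fin.castAdd n k) ^ 2 * g⁻¹) :
    φ d = 1 := by
  have hab : (R k).Above E (V (Fin.castAdd n k)) := by simpa using hd.above (Fin.castAdd n k)
  have hfix : γ (Fin.castAdd n k) • V (Fin.castAdd n k) = V (Fin.castAdd n k) :=
    (hd.canon (Fin.castAdd n k) 1 one_pos).1
  have hfix2 : γ (Fin.castAdd n k) ^ 2 • V (Fin.castAdd n k) = V (Fin.castAdd n k) := by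
    rw [pow_two, mul_smul, hfix, hfix]
  refine retq3_kill hq φ hφ (Place.above_smul hab g) (fun j hj => ?_) d ?_
  · exfalso
    have h := @hq.inj (Fin.castAdd n k) (Fin.natAdd 4 j) (by simp [hj])
    have h' := congrArg Fin.val h
    simp at h'
    omega
  · rw [← resΓ_smul (KK := KK), hgd]
    exact retq3_conj_smul hfix2

theorem quad_kill_w (hq : IsQuadCover R A ξ) (hd : IsP1Datum E (Fin.append R A) γ V) {G : Type}
    [Group G] [Finite G] (φ : (E ≃ₐ[XX] E) →* G) (hφ : φ ∈ HomUnram E G (Set.range ξ)) (i : Fin n)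
    (g : E ≃ₐ[KK] E) (d : E ≃ₐ[XX] E)
    (hg : g ∈ (resΓ KK : (E ≃ₐ[XX] E) →* (E ≃ₐ[KK] E)).range ↔ ¬ (ξ i).Above E (V (Fin.natAdd 4 i)))
    (hgd : resΓ KK d = g * γ (Fin.natAdd 4 i) * g⁻¹) : φ d = 1 := by
  have hab : (A i).Above E (V (Fin.natAdd 4 i)) := by simpa using hd.above (Fin.natAdd 4 i)
  have hfix : γ (Fin.natAdd 4 i) • V (Fin.natAdd 4 i) = V (Fin.natAdd 4 i) :=
    (hd.canon (Fin.natAdd 4 i) 1 one_pos).1
  have hAR : A i ∉ Set.range R := by
    rintro ⟨k, hk⟩
    have h := @hq.inj (Fin.castAdd n k) (Fin.natAdd 4 i) (by simp [hk])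
    have h' := congrArg Fin.val h
    simp at h'
    omega
  refine retq3_kill hq φ hφ (Place.above_smul hab g) (fun j hj => ?_) d ?_
  · have hij : i = j := by
      have h := @hq.inj (Fin.natAdd 4 i) (Fin.natAdd 4 j) (by simp [hj])
      have h' := congrArg Fin.val h
      simp at h'
      exact Fin.ext h'
    subst hij
    rw [above_smul_iff hq.finrank_eq (hq.unram _ hAR) (hq.lies_over i) hab g]
    tauto
  · rw [← resΓ_smul (KK := KK), hgd]
    exact retq3_conj_smul hfix

theorem quad_res (hq : IsQuadCover R A ξ) (hd : IsP1Datum E (Fin.append R A) γ V) {G H : Type}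
    [Group G] [Finite G] [Group H] [Finite H] (φ : (E ≃ₐ[XX] E) →* G) (Φ : (E ≃ₐ[KK] E) →* H)
    (hΦ : Φ ∈ HomUnram E H (Set.range (Fin.append R A)))
    (h1 : ∀ d, Φ (resΓ KK d) = 1 → φ d = 1)
    (h2 : ∀ (k : Fin 4) (g : E ≃ₐ[KK] E) (j : ℤ) (d : E ≃ₐ[XX] E),
      Φ (resΓ KK d) = Φ g * Φ (γ (Fin.castAdd n k)) ^ j * (Φ g)⁻¹ → φ d = 1)
    (h3 : ∀ (i : Fin n) (g : E ≃ₐ[KK] E) (j : ℤ) (d : E ≃ₐ[XX] E),
      (g ∈ (resΓ KK : (E ≃ₐ[XX] E) →* (E ≃ₐ[KK] E)).range ↔
        ¬ (ξ i).Above E (V (Fin.natAdd 4 i))) →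
      Φ (resΓ KK d) = Φ g * Φ (γ (Fin.natAdd 4 i)) ^ j * (Φ g)⁻¹ → φ d = 1) :
    φ ∈ HomUnram E G (Set.range ξ) := by
  have : FiniteDimensional KK XX := Module.finite_of_finrank_pos (by rw [hq.finrank_eq]; norm_num)
  refine ⟨?_, fun Q' hQ' W hW d hdW => ?_⟩
  · refine Subgroup.isOpen_mono (H₁ := Φ.ker.comap (resΓ KK : (E ≃ₐ[XX] E) →* (E ≃ₐ[KK] E))) ?_
      (isOpen_comap_resΓ Φ.ker hΦ.1)
    intro d hd'
    exact h1 d hd'
  · obtain ⟨P', hP', -⟩ := Place.existsUnique_below (M := KK) Q'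
    have hPW : P'.Above E W := Place.above_of_over hP' hW
    have hfix : resΓ KK d • W = W := by rw [resΓ_smul]; exact hdW
    by_cases hmem : P' ∈ Set.range (Fin.append R A)
    swap
    · exact h1 d (hΦ.2 P' hmem W hPW _ hfix)
    obtain ⟨idx, rfl⟩ := hmem
    -- the common part: conjugate to the base valuation ring
    obtain ⟨g, hg⟩ := Place.above_conj (hd.above idx) hPW
    have hm0 : 0 < Nat.card H := Nat.card_pos
    have hfix' : (g⁻¹ * resΓ KK d * g) • V idx = V idx := by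
      have h5 := retq3_conj_smul (g := g⁻¹) hfix
      rw [inv_inv, ← hg, inv_smul_smul] at h5
      exact h5
    obtain ⟨j, hj⟩ := Subgroup.mem_zpowers_iff.1 (IsCanon.map_mem_zpowers Φ hΦ.1 (hd.above idx)
      (zetaC_isPrimitiveRoot hm0.ne') dvd_rfl hm0 (hd.canon idx _ hm0) hfix')
    have hconj : Φ (resΓ KK d) = Φ g * Φ (γ idx) ^ j * (Φ g)⁻¹ := by
      rw [hj, map_mul, map_mul, map_inv]
      group
    revert hconj hg hPW hP'
    refine Fin.addCases (fun k => ?_) (fun i => ?_) idx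
    · intro _ _ _ hconj
      exact h2 k g j d hconj
    · intro hP' hPW hg hconj
      refine h3 i g j d ?_ hconj
      have hab : (A i).Above E (V (Fin.natAdd 4 i)) := by simpa using hd.above (Fin.natAdd 4 i)
      have hAR : A i ∉ Set.range R := by
        rintro ⟨k, hk⟩
        have h := @hq.inj (Fin.castAdd n k) (Fin.natAdd 4 i) (by simp [hk])
        have h' := congrArg Fin.val h
        simp at h'
        omega
      have h6 := above_smul_iff hq.finrank_eq (hq.unram _ hAR) (hq.lies_over i) hab g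
      have h7 : ¬ (ξ i).Above E (g • V (Fin.natAdd 4 i)) := by
        rw [hg]
        intro h8
        exact hQ' ⟨i, Place.Above.unique h8 hW⟩
      tauto

/-! ### glue -/

omit [IsScalarTower ℂ KK XX] [IsAlgClosure KK E] [IsAlgClosure XX E] [IsFF ℂ KK] [IsFF ℂ XX] [Algebra KK E] [Algebra XX E]
  [IsScalarTower KK XX E] [Field E] in
theorem IsQuadCover.A_not_mem (hq : IsQuadCover R A ξ) (i : Fin n) : A i ∉ Set.range R := by
  rintro ⟨k, hk⟩
  have h := @hq.inj (Fin.castAdd n k) (Fin.natAdd 4 i) (by simp [hk])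
  have h' := congrArg Fin.val h
  simp at h'
  omega

omit [IsScalarTower ℂ KK XX] [IsAlgClosure KK E] [IsAlgClosure XX E] [IsFF ℂ KK] [IsFF ℂ XX] [Algebra KK E] [Algebra XX E]
  [IsScalarTower KK XX E] [Field E] in
theorem IsQuadCover.finite (hq : IsQuadCover R A ξ) : FiniteDimensional KK XX :=
  Module.finite_of_finrank_pos (by rw [hq.finrank_eq]; norm_num)

open Classical in
theorem quadHyp_of_datum (hq : IsQuadCover R A ξ) (hd : IsP1Datum E (Fin.append R A) γ V) :
    QuadHyp (resΓ KK : (E ≃ₐ[XX] E) →* (E ≃ₐ[KK] E)) (fun k => γ (Fin.castAdd n k))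
      (fun i => γ (Fin.natAdd 4 i)) (fun i => decide (¬ (ξ i).Above E (V (Fin.natAdd 4 i))))
      (fun G _ _ => HomUnram E G (Set.range (Fin.append R A)))
      (fun G _ _ => HomUnram E G (Set.range ξ)) := by
  have : CharZero KK := charZero_of_injective_algebraMap (algebraMap ℂ KK).injective
  have := hq.finite
  refine ⟨resΓ_injective, fun g g' hg hg' => range_resΓ_index2 hq.finrank_eq hg hg', ?_, ?_, ?_,
    fun G H _ _ _ _ f Φ hΦ => homUnram_comp f hΦ, fun χ hχ => quad_char hq χ hχ,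
    fun G H _ _ _ _ φ Φ t hφ hΦ => quad_ind hq φ Φ t hφ hΦ,
    fun G _ _ φ hφ k g d h => quad_kill_s hq hd φ hφ k g d h, ?_, ?_⟩
  · intro k
    refine not_mem_range_of_ram hq.finrank_eq (hq.ram k) (V := V (Fin.castAdd n k)) ?_ ?_
    · simpa using hd.above (Fin.castAdd n k)
    · simpa using hd.canon (Fin.castAdd n k) 2 two_pos
  · intro i
    refine mem_range_of_unram (hq.unram _ (hq.A_not_mem i)) (V := V (Fin.natAdd 4 i)) ?_ ?_
    · simpa using hd.above (Fin.natAdd 4 i)
    · exact (hd.canon (Fin.natAdd 4 i) 1 one_pos).1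
  · intro G _ _
    have h := hd.bij G
    have e : Fin.append (fun k => γ (Fin.castAdd n k)) (fun i => γ (Fin.natAdd 4 i)) = γ := by
      funext k
      refine Fin.addCases (fun k => ?_) (fun i => ?_) k <;> simp
    rw [e]
    exact h
  · intro G _ _ φ hφ i g d hg h
    exact quad_kill_w hq hd φ hφ i g d (by simpa using hg) h
  · intro G H _ _ _ _ φ Φ hΦ h1 h2 h3
    exact quad_res hq hd φ Φ hΦ h1 h2 fun i g j d hg h => h3 i g j d (by simpa using hg) h

/-- **Torus ⇐ sphere.** -/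
theorem torus_datum_of_p1 (hq : IsQuadCover R A ξ) (hd : IsP1Datum E (Fin.append R A) γ V) :
    ∃ (π : Equiv.Perm (Fin n)) (α β : E ≃ₐ[XX] E) (γ' : Fin n → (E ≃ₐ[XX] E))
      (V' : Fin n → ValuationSubring E), IsTorusDatum E (ξ ∘ π) α β γ' V' := by
  classical
  have := hq.finite
  obtain ⟨π, α, β, γ', c, hc, hγ', hbij⟩ := (quadHyp_of_datum hq hd).torus
  have hab : ∀ j, (A (π j)).Above E (V (Fin.natAdd 4 (π j))) := fun j => by
    simpa using hd.above (Fin.natAdd 4 (π j))
  have hun : ∀ j, ∀ Q : Place ℂ XX, Q.Over (A (π j)) → Q.ramIdx (A (π j)) = 1 := fun j =>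
    hq.unram _ (hq.A_not_mem (π j))
  have habove : ∀ j, (ξ (π j)).Above E (c j • V (Fin.natAdd 4 (π j))) := by
    intro j
    rw [above_smul_iff hq.finrank_eq (hun j) (hq.lies_over (π j)) (hab j), hc j]
    simp
  refine ⟨π, α, β, γ', fun j => c j • V (Fin.natAdd 4 (π j)), habove, ?_, ?_⟩
  · intro j m hm
    refine isCanon_res (hun j _ (hq.lies_over (π j))) (Place.above_smul (hab j) (c j)) (habove j) hm ?_
    rw [hγ' j]
    have := (hd.canon (Fin.natAdd 4 (π j)) m hm).conj (c j)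
    simpa using this
  · intro G _ _
    have e : Set.range (ξ ∘ π) = Set.range ξ := π.surjective.range_comp ξ
    rw [e]
    exact hbij G

end

end Claimed.Agent.R280
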