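import Claimed.Agent.R280.RET.RealDefs
import Claimed.Agent.R280.RET.GeomLemmas
import Claimed.Agent.R280.RET.HolProd

/-!
# Row 280, package RET / REAL: analytic realizations of subfields of `E`  (bridge algebra <-> analysis; owner of the statements: helper30)

INTERNAL TOOL (not visible in the statements; to be built by the owner in `RET/Hol*.lean`, ~800 lines): for `W ⊆ ℂ` open, connected, nonempty
* `Hol W` = ring of holomorphic functions on `W` (e.g. `Subalgebra ℂ (W → ℂ)`), a DOMAIN (identity theorem), `ℂ[X] → Hol W` injective;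
* `Mer W = FractionRing (Hol W)`, a field extension of `KK` (`IsFractionRing.lift`);
* `Hol W` is INTEGRALLY CLOSED in `Mer W`: `f/g` integral ⇒ locally bounded near the (isolated) zeros of `g` ⇒ removable singularities ⇒ `g ∣ f`;
* `ord_a : Mer W → ℤ ∪ {∞}` for `a ∈ W` (order of vanishing: `analyticOrderAt` / `meromorphicOrderAt`), a normalised discrete valuation trivial on `ℂ`.
A `KK`-embedding `L → Mer W` is the same as a realization of `L` on `W` (integral elements go to `Hol W`; conversely `L = Frac` of its integral elements).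

Statements:
* REAL-0 `RetIsReal.aeval`, `RetIsReal.root`.
* REAL-1 `ret_exists_real`, `ret_exists_real_of_splitting` : existence of realizations from holomorphic splitting
  (`IntermediateField.exists_algHom_of_splits`-type lemmas with target `Mer W`).
* REAL-2 `RetIsReal.eq_of_eqOn` : injectivity.
* REAL-3 `ret_real_compare` : two realizations of a NORMAL `L` on a connected set differ by an automorphism.
* REAL-4 `RetIsReal.exists_of_root` : every holomorphic root of `P` is `ev y` for a root `y` of `P`.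
* REAL-5 `RetIsReal.exists_place`, REAL-6 `RetIsReal.exists_place_inf` : the place "evaluate at `a`" (resp. at `∞`), UNRAMIFIED over `KK`.
* REAL-7 `RetIsReal.hsplits`.
-/

set_option autoImplicit false
set_option linter.unusedSectionVars false

namespace Claimed.Agent.R280

open Polynomial WithZero
open scoped Pointwise

variable {KK E : Type} [Field KK] [Field E] [Algebra ℂ KK] [Algebra ℂ[X] KK] [IsScalarTower ℂ ℂ[X] KK]
  [IsFractionRing ℂ[X] KK] [Algebra KK E] [Algebra ℂ[X] E] [IsScalarTower ℂ[X] KK E] [Algebra ℂ E]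
  [IsScalarTower ℂ KK E] [IsAlgClosure KK E]

/-- the ring of the elements of `L` which are integral over `ℂ[X]` -/
noncomputable def retIntL (L : IntermediateField KK E) : Subalgebra ℂ[X] E :=
  integralClosure ℂ[X] E ⊓ L.toSubalgebra.restrictScalars ℂ[X]

theorem mem_retIntL {L : IntermediateField KK E} {y : E} :
    y ∈ retIntL L ↔ IsIntegral ℂ[X] y ∧ y ∈ L := by
  unfold retIntL
  rw [Algebra.mem_inf]
  exact Iff.rfl

/-- evaluation at a point of `W`, as a ring homomorphism on the integral elements of `L` -/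
noncomputable def RetIsReal.evHom {L : IntermediateField KK E} {ev : E → ℂ → ℂ} {W : Set ℂ}
    (h : RetIsReal E L ev W) {z : ℂ} (hz : z ∈ W) : retIntL L →+* ℂ where
  toFun a := ev a.1 z
  map_one' := by
    have := h.poly 1 z hz
    simpa using this
  map_mul' a b := h.mul a.1 (mem_retIntL.1 a.2).2 b.1 (mem_retIntL.1 b.2).2 (mem_retIntL.1 a.2).1
    (mem_retIntL.1 b.2).1 z hz
  map_zero' := by
    have := h.poly 0 z hz
    simpa using this
  map_add' a b := h.add a.1 (mem_retIntL.1 a.2).2 b.1 (mem_retIntL.1 b.2).2 (mem_retIntL.1 a.2).1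
    (mem_retIntL.1 b.2).1 z hz

theorem RetIsReal.evHom_apply {L : IntermediateField KK E} {ev : E → ℂ → ℂ} {W : Set ℂ}
    (h : RetIsReal E L ev W) {z : ℂ} (hz : z ∈ W) (a : retIntL L) : h.evHom hz a = ev a.1 z := rfl

theorem RetIsReal.evHom_comp {L : IntermediateField KK E} {ev : E → ℂ → ℂ} {W : Set ℂ}
    (h : RetIsReal E L ev W) {z : ℂ} (hz : z ∈ W) :
    (h.evHom hz).comp (algebraMap ℂ[X] (retIntL L)) = evalRingHom z :=
  RingHom.ext fun p => h.poly p z hz

/-- REAL-0 -/
theorem RetIsReal.aeval {L : IntermediateField KK E} {ev : E → ℂ → ℂ} {W : Set ℂ}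
    (h : RetIsReal E L ev W) {y : E} (hy : y ∈ L) (hi : IsIntegral ℂ[X] y) (G : ℂ[X][X]) {z : ℂ}
    (hz : z ∈ W) : ev (Polynomial.aeval y G) z = (G.map (evalRingHom z)).eval (ev y z) := by
  set a : retIntL L := ⟨y, mem_retIntL.2 ⟨hi, hy⟩⟩ with ha
  have h1 : Polynomial.aeval y G = ((Polynomial.aeval a G : retIntL L) : E) := by
    have := Polynomial.aeval_algHom_apply (retIntL L).val a G
    exact this
  rw [h1, ← RetIsReal.evHom_apply h hz, ← h.evHom_comp hz, Polynomial.eval_map,
    Polynomial.aeval_def, Polynomial.hom_eval₂]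
  rfl

theorem RetIsReal.root {L : IntermediateField KK E} {ev : E → ℂ → ℂ} {W : Set ℂ}
    (h : RetIsReal E L ev W) {y : E} (hy : y ∈ L) (hi : IsIntegral ℂ[X] y) {G : ℂ[X][X]}
    (hG : Polynomial.aeval y G = 0) {z : ℂ} (hz : z ∈ W) :
    (G.map (evalRingHom z)).eval (ev y z) = 0 := by
  rw [← h.aeval hy hi G hz, hG]
  have := h.poly 0 z hz
  simpa using this

/-- REAL-2 -/
theorem RetIsReal.eq_of_eqOn {L : IntermediateField KK E} {ev : E → ℂ → ℂ} {W : Set ℂ}
    (h : RetIsReal E L ev W) (hW : IsOpen W) (hc : IsPreconnected W) {y y' : E} (hy : y ∈ L)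
    (hy' : y' ∈ L) (hi : IsIntegral ℂ[X] y) (hi' : IsIntegral ℂ[X] y') {W' : Set ℂ} (hW' : IsOpen W')
    (hne : W'.Nonempty) (hsub : W' ⊆ W) (heq : Set.EqOn (ev y) (ev y') W') : y = y' := by
  by_contra hyy
  have hw0 : y - y' ≠ 0 := sub_ne_zero.2 hyy
  have hwL : y - y' ∈ L := L.sub_mem hy hy'
  have hwi : IsIntegral ℂ[X] (y - y') := hi.sub hi'
  -- `ev (y - y') = 0` on `W'`
  have hev : ∀ z ∈ W', ev (y - y') z = 0 := by
    intro z hz
    have h1 := h.add (y - y') hwL y' hy' hwi hi' z (hsub hz)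
    rw [sub_add_cancel, heq hz] at h1
    linear_combination -h1
  -- the constant coefficient of the minimal polynomial
  have hm : (minpoly ℂ[X] (y - y')).coeff 0 ≠ 0 := by
    intro h0
    have h1 := minpoly.isIntegrallyClosed_eq_field_fractions' KK hwi
    have h2 : (minpoly KK (y - y')).coeff 0 = 0 := by
      rw [h1, Polynomial.coeff_map, h0, map_zero]
    exact minpoly.coeff_zero_ne_zero (hwi.tower_top) hw0 h2
  apply hm
  apply Polynomial.eq_zero_of_infinite_isRoot
  obtain ⟨z0, hz0⟩ := hne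
  refine (infinite_of_mem_nhds z0 (hW'.mem_nhds hz0)).mono ?_
  intro z hz
  have h1 := h.root hwL hwi (minpoly.aeval ℂ[X] (y - y')) (hsub hz)
  rw [hev z hz, ← Polynomial.coeff_zero_eq_eval_zero, Polynomial.coeff_map] at h1
  exact h1

/-- a multiset with `n` elements is a family indexed by `Fin n` -/
theorem ret_multiset_fin {α : Type*} (s : Multiset α) (n : ℕ) (hn : Multiset.card s = n) :
    ∃ f : Fin n → α, (Finset.univ : Finset (Fin n)).val.map f = s := by
  have hl : s.toList.length = n := by rw [Multiset.length_toList, hn]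
  subst hl
  refine ⟨s.toList.get, ?_⟩
  rw [Fin.univ_val_map, List.ofFn_get, Multiset.coe_toList]

/-- a monic polynomial all of whose roots lie in `L` splits holomorphically on `W`, the roots being the `ev` of its roots in `E` -/
theorem RetIsReal.exists_split {L : IntermediateField KK E} {ev : E → ℂ → ℂ} {W : Set ℂ}
    (h : RetIsReal E L ev W) {P : ℂ[X][X]} (hP : P.Monic)
    (hL : ∀ y : E, Polynomial.aeval y P = 0 → y ∈ L) :
    ∃ Y : Fin P.natDegree → E, (∀ i, Polynomial.aeval (Y i) P = 0) ∧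
      ∀ z ∈ W, P.map (evalRingHom z) = ∏ i, (X - C (ev (Y i) z)) := by
  have : IsAlgClosed E := IsAlgClosure.isAlgClosed KK
  set PE := P.map (algebraMap ℂ[X] E) with hPE
  have hPEm : PE.Monic := hP.map _
  have hs : PE.Splits := IsAlgClosed.splits PE
  have hcard : Multiset.card PE.roots = P.natDegree := by
    rw [← hs.natDegree_eq_card_roots, hPE, hP.natDegree_map]
  obtain ⟨Y, hY⟩ := ret_multiset_fin PE.roots P.natDegree hcard
  have hroot : ∀ i, Polynomial.aeval (Y i) P = 0 := by
    intro i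
    have h1 : Y i ∈ PE.roots := by
      rw [← hY]
      exact Multiset.mem_map_of_mem _ (Finset.mem_univ_val i)
    have h2 := (Polynomial.mem_roots hPEm.ne_zero).1 h1
    rwa [IsRoot.def, hPE, eval_map_algebraMap] at h2
  have hint : ∀ i, IsIntegral ℂ[X] (Y i) := fun i => ⟨P, hP, by rw [← aeval_def]; exact hroot i⟩
  let a : Fin P.natDegree → retIntL L := fun i => ⟨Y i, mem_retIntL.2 ⟨hint i, hL _ (hroot i)⟩⟩
  have hprodE : PE = ∏ i, (X - C (Y i)) := by
    conv_lhs => rw [hs.eq_prod_roots_of_monic hPEm, ← hY, Multiset.map_map]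
    rfl
  have hprodA : P.map (algebraMap ℂ[X] (retIntL L)) = ∏ i, (X - C (a i)) := by
    apply Polynomial.map_injective (algebraMap (retIntL L) E) Subtype.val_injective
    rw [Polynomial.map_map, Polynomial.map_prod, ← IsScalarTower.algebraMap_eq, ← hPE, hprodE]
    refine Finset.prod_congr rfl fun i _ => ?_
    rw [Polynomial.map_sub, Polynomial.map_X, Polynomial.map_C]
    rfl
  refine ⟨Y, hroot, fun z hz => ?_⟩
  rw [← h.evHom_comp hz, ← Polynomial.map_map, hprodA, Polynomial.map_prod]
  refine Finset.prod_congr rfl fun i _ => ?_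
  rw [Polynomial.map_sub, Polynomial.map_X, Polynomial.map_C]
  rfl

/-- REAL-4 -/
theorem RetIsReal.exists_of_root {L : IntermediateField KK E} {ev : E → ℂ → ℂ} {W : Set ℂ}
    (h : RetIsReal E L ev W) (hW : IsOpen W) (hc : IsPreconnected W) (hne : W.Nonempty)
    {P : ℂ[X][X]} (hP : P.Monic)
    (hL : ∀ y : E, Polynomial.aeval y P = 0 → y ∈ L) {t : ℂ → ℂ} (ht : DifferentiableOn ℂ t W)
    (hroot : ∀ z ∈ W, (P.map (evalRingHom z)).eval (t z) = 0) :
    ∃ y : E, Polynomial.aeval y P = 0 ∧ Set.EqOn (ev y) t W := by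
  obtain ⟨Y, hY1, hY2⟩ := h.exists_split hP hL
  have hint : ∀ i, IsIntegral ℂ[X] (Y i) := fun i => ⟨P, hP, by rw [← aeval_def]; exact hY1 i⟩
  obtain ⟨i, hi⟩ := ret_root_eq_of_split hW hc hne (θ := fun i => ev (Y i))
    (fun i => h.holo (Y i) (hL _ (hY1 i)) (hint i)) hY2 ht hroot
  exact ⟨Y i, hY1 i, hi.symm⟩

/-- REAL-7 -/
theorem RetIsReal.hsplits {L : IntermediateField KK E} (hL : ∀ (g : E ≃ₐ[KK] E), ∀ y ∈ L, g y ∈ L)
    {ev : E → ℂ → ℂ} {W : Set ℂ} (h : RetIsReal E L ev W) {y : E} (hy : y ∈ L)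
    (hi : IsIntegral ℂ[X] y) : RetHSplits (minpoly ℂ[X] y) W := by
  have hm : (minpoly ℂ[X] y).Monic := minpoly.monic hi
  have hroots : ∀ y' : E, Polynomial.aeval y' (minpoly ℂ[X] y) = 0 → y' ∈ L := by
    intro y' hy'
    have : Normal KK E := IsAlgClosure.normal KK E
    have h1 := minpoly.isIntegrallyClosed_eq_field_fractions' KK hi
    have h2 : Polynomial.aeval y' (minpoly KK y) = 0 := by
      rw [h1, aeval_map_algebraMap]
      exact hy'
    obtain ⟨σ, hσ⟩ := minpoly.exists_algEquiv_of_root' (hi.tower_top.isAlgebraic) h2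
    rw [← hσ]
    exact hL σ y hy
  obtain ⟨Y, hY1, hY2⟩ := h.exists_split hm hroots
  exact ⟨fun i => ev (Y i), fun i => h.holo _ (hroots _ (hY1 i))
    ⟨_, hm, by rw [← aeval_def]; exact hY1 i⟩, hY2⟩

end Claimed.Agent.R280
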