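import Claimed.Agent.R280.RET.Geom

/-!
# Row 280, package RET / SPLIT: holomorphic splitting of polynomials, local to global   (owner of the statements: helper30)

`P : ℂ[X][X]` is a polynomial in `T` with coefficients in `ℂ[x]` (MONIC in all applications).
`RetHSplits P U` : there are holomorphic `θ i` on `U` with `P(z, T) = ∏ i, (T - θ i z)` for all `z ∈ U`.

Chain (pure complex analysis; the only tool is the identity theorem = "holomorphic functions on a connected open set form a domain"):
* `RetHSplits.union` : glue along a CONNECTED intersection (on `U₁ ∩ U₂` the two multisets of roots coincide, because a split monic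
  polynomial over a domain has a unique multiset of roots; re-index and glue).
* `RetHSplits.rect` : local splitting on a closed rectangle ⇒ splitting on the open rectangle (Lebesgue number, glue small overlapping open
  rectangles first in rows, then the rows: all unions and all intersections are rectangles).
* `RetHSplits.iUnion` : increasing unions of connected open sets.
* `RetHSplits.strip` : generalized open rectangles (bounds in `EReal`, or 4 cases): vertical strips, half strips, half planes.
* `retHSplits_Dup`, `retHSplits_Ddn` : `retDup b = A 0 ∪ B 0 ∪ A 1 ∪ B 1 ∪ ⋯ ∪ A r`, `B k = {z ∈ retW b k | z.im < (b k).im}`; each new piece meets the union of the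
  previous ones in a convex set.
* `retHSplits_of_separable` (IFT): simple roots at `a` ⇒ splitting near `a`.
-/

set_option autoImplicit false

namespace Claimed.Agent.R280

open Polynomial Complex

/-- `P(z, T)` splits into linear factors with holomorphic roots on `U` -/
def RetHSplits (P : ℂ[X][X]) (U : Set ℂ) : Prop :=
  ∃ θ : Fin P.natDegree → ℂ → ℂ, (∀ i, DifferentiableOn ℂ (θ i) U) ∧
    ∀ z ∈ U, P.map (evalRingHom z) = ∏ i, (X - C (θ i z))

/-- `P` splits holomorphically near every point of `U` -/
def RetLocSplits (P : ℂ[X][X]) (U : Set ℂ) : Prop :=
  ∀ a ∈ U, ∃ ε : ℝ, 0 < ε ∧ RetHSplits P (Metric.ball a ε)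

theorem RetHSplits.mono {P : ℂ[X][X]} {U V : Set ℂ} (h : RetHSplits P V) (hUV : U ⊆ V) :
    RetHSplits P U := by
  obtain ⟨θ, h1, h2⟩ := h
  exact ⟨θ, fun i => (h1 i).mono hUV, fun z hz => h2 z (hUV hz)⟩

end Claimed.Agent.R280
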