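import Claimed.Agent.R280.RET.P1Defs
import Claimed.Agent.R280.RET.SplitDefs

/-!
# Row 280, package RET, Layer 2: definitions   (owner: helper30)

CONTEXT of Layer 2 (the instances are created once, in `Sorted.lean`, from `IsRatGen x`):
`ℂ ⊆ ℂ[X] ⊆ KK = Frac ℂ[X] ⊆ E`, `E` an algebraic closure of `KK`;  `retX = ` the image of `X` in `KK`.

* `RetIsReal L ev U` : `ev` is an ANALYTIC REALIZATION on the open set `U ⊆ ℂ` of the subfield `L ⊆ E`: it attaches to every `y ∈ L` integral over
  `ℂ[X]` a holomorphic function `ev y` on `U`, compatibly with `+`, `*` and with polynomials.  (`ev : E → ℂ → ℂ` is a total function, junk elsewhere.)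
* `retI E P` : the union of the decomposition groups at the places outside `range P`;
  `retN E P` : its fixed field = the maximal extension of `KK` in `E` unramified outside `range P`.
-/

set_option autoImplicit false

namespace Claimed.Agent.R280

open Polynomial
open scoped Pointwise

section

variable {KK : Type} (E : Type) [Field KK] [Field E] [Algebra KK E] [Algebra ℂ[X] E]

/-- analytic realization of (the integral elements of) `L` on `U` -/
structure RetIsReal (L : IntermediateField KK E) (ev : E → ℂ → ℂ) (U : Set ℂ) : Prop where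
  holo : ∀ y ∈ L, IsIntegral ℂ[X] y → DifferentiableOn ℂ (ev y) U
  add : ∀ y ∈ L, ∀ y' ∈ L, IsIntegral ℂ[X] y → IsIntegral ℂ[X] y' →
    ∀ z ∈ U, ev (y + y') z = ev y z + ev y' z
  mul : ∀ y ∈ L, ∀ y' ∈ L, IsIntegral ℂ[X] y → IsIntegral ℂ[X] y' →
    ∀ z ∈ U, ev (y * y') z = ev y z * ev y' z
  poly : ∀ (p : ℂ[X]), ∀ z ∈ U, ev (algebraMap ℂ[X] E p) z = p.eval z

variable {E}

theorem RetIsReal.mono {L : IntermediateField KK E} {ev : E → ℂ → ℂ} {U V : Set ℂ}
    (h : RetIsReal E L ev V) (hUV : U ⊆ V) : RetIsReal E L ev U :=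
  ⟨fun y hy hi => (h.holo y hy hi).mono hUV, fun y hy y' hy' hi hi' z hz => h.add y hy y' hy' hi hi' z (hUV hz),
    fun y hy y' hy' hi hi' z hz => h.mul y hy y' hy' hi hi' z (hUV hz), fun p z hz => h.poly p z (hUV hz)⟩

theorem RetIsReal.mono_left {L L' : IntermediateField KK E} {ev : E → ℂ → ℂ} {U : Set ℂ}
    (h : RetIsReal E L ev U) (hL : L' ≤ L) : RetIsReal E L' ev U :=
  ⟨fun y hy hi => h.holo y (hL hy) hi, fun y hy y' hy' hi hi' z hz => h.add y (hL hy) y' (hL hy') hi hi' z hz,
    fun y hy y' hy' hi hi' z hz => h.mul y (hL hy) y' (hL hy') hi hi' z hz, h.poly⟩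

end

section

variable {KK : Type} (E : Type) [Field KK] [Field E] [Algebra ℂ KK] [Algebra KK E]

/-- the union of the decomposition groups at the places outside `S` -/
def retI (S : Set (Place ℂ KK)) : Set (E ≃ₐ[KK] E) :=
  {g | ∃ Q : Place ℂ KK, Q ∉ S ∧ ∃ V : ValuationSubring E, Q.Above E V ∧ g • V = V}

/-- the maximal extension of `KK` inside `E` which is unramified outside `S` -/
def retN (S : Set (Place ℂ KK)) : IntermediateField KK E :=
  IntermediateField.fixedField (Subgroup.closure (retI E S))

variable {E}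

theorem mem_retN_iff {S : Set (Place ℂ KK)} {y : E} : y ∈ retN E S ↔ ∀ g ∈ retI E S, g y = y := by
  constructor
  · intro h g hg
    exact h ⟨g, Subgroup.subset_closure hg⟩
  · intro h g
    obtain ⟨g, hg⟩ := g
    induction hg using Subgroup.closure_induction with
    | mem g hg => exact h g hg
    | one => rfl
    | mul a c _ _ ha hc => 
      change a (c y) = y
      have hc' : c y = y := hc
      have ha' : a y = y := ha
      rw [hc', ha']
    | inv a _ ha => 
      have ha' : a y = y := ha
      change a⁻¹ y = y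
      calc a⁻¹ y = a⁻¹ (a y) := by rw [ha']
        _ = y := by simp [AlgEquiv.aut_inv]

end

/-- the generator `x` of `KK = ℂ(x)` -/
noncomputable def retX (KK : Type) [Field KK] [Algebra ℂ[X] KK] : KK := algebraMap ℂ[X] KK X

end Claimed.Agent.R280
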