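import Claimed.Agent.R280.RET.RealEmbAux

/-!
# Row 280, RET / REAL-1, REAL-1', REAL-3 (~600 lines)  (overview: header of `RealBasic.lean`; tools: `Hol.lean`, `RealEmbAux.lean`)

* REAL-1, 1': `minpoly KK y = (minpoly ℂ[X] y).map` for integral `y` (`minpoly.isIntegrallyClosed_eq_field_fractions`), EMB-c, `IntermediateField.splits_of_mem_adjoin` (every element of `L` is an integral element divided by a
  polynomial), `IntermediateField.exists_algHom_of_splits` / `exists_algHom_adjoin_of_splits`, then EMB-a.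
* REAL-3: EMB-b twice; `ρ₂ y` is a root of `minpoly KK y`, which splits in `L` (normal), so `ρ₂ y ∈ ρ₁ L`; `ρ₁⁻¹ ∘ ρ₂` is an algebra endomorphism of the algebraic extension `L`, hence bijective; lift it to `E`.
-/

set_option autoImplicit false

namespace Claimed.Agent.R280

open Polynomial WithZero
open scoped Pointwise

variable {KK E : Type} [Field KK] [Field E] [Algebra ℂ KK] [Algebra ℂ[X] KK] [IsScalarTower ℂ ℂ[X] KK]
  [IsFractionRing ℂ[X] KK] [Algebra KK E] [Algebra ℂ[X] E] [IsScalarTower ℂ[X] KK E] [Algebra ℂ E]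
  [IsScalarTower ℂ KK E] [IsAlgClosure KK E]

/-- REAL-1 -/
theorem ret_exists_real (L : IntermediateField KK E) {W : Set ℂ} (hW : IsOpen W)
    (hc : IsPreconnected W) (hne : W.Nonempty)
    (h : ∀ y ∈ L, IsIntegral ℂ[X] y → RetHSplits (minpoly ℂ[X] y) W) :
    ∃ ev : E → ℂ → ℂ, RetIsReal E L ev W := by
  obtain ⟨Wd, hWd⟩ : ∃ Wd : RetDom, Wd.carrier = W := ⟨⟨W, hW, hc, hne⟩, rfl⟩
  subst hWd
  have halg : Algebra.IsAlgebraic KK E := IsAlgClosure.isAlgebraic
  -- integral elements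
  have h1 : ∀ y ∈ L, IsIntegral ℂ[X] y →
      ((minpoly KK y).map (algebraMap KK (RetMer Wd))).Splits := by
    intro y hy hi
    rw [minpoly.isIntegrallyClosed_eq_field_fractions' KK hi]
    exact ret_splits_of_hsplits KK (h y hy hi)
  have h2 : ∀ s : L, IsIntegral KK s ∧ ((minpoly KK s).map (algebraMap KK (RetMer Wd))).Splits := by
    intro s
    have hs : IsIntegral KK (s : E) := (halg.isAlgebraic _).isIntegral
    refine ⟨(IntermediateField.isIntegral_iff).2 hs, ?_⟩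
    rw [IntermediateField.minpoly_eq]
    obtain ⟨m, hm⟩ := IsIntegral.exists_multiple_integral_of_isLocalization (nonZeroDivisors ℂ[X])
      (s : E) hs
    have hm0 : algebraMap ℂ[X] KK (m : ℂ[X]) ≠ 0 :=
      IsFractionRing.to_map_ne_zero_of_mem_nonZeroDivisors m.2
    have e1 : m • (s : E) = algebraMap KK E (algebraMap ℂ[X] KK (m : ℂ[X])) * (s : E) := by
      rw [Submonoid.smul_def, Algebra.smul_def, IsScalarTower.algebraMap_apply ℂ[X] KK E]
    have hyL : m • (s : E) ∈ L := by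
      rw [e1]
      exact L.mul_mem (L.algebraMap_mem _) s.2
    have hmem : (s : E) ∈ IntermediateField.adjoin KK {m • (s : E)} := by
      have e2 : (s : E) = algebraMap KK E (algebraMap ℂ[X] KK (m : ℂ[X]))⁻¹ * (m • (s : E)) := by
        rw [e1, ← mul_assoc, ← map_mul, inv_mul_cancel₀ hm0, map_one, one_mul]
      have h3 : algebraMap KK E (algebraMap ℂ[X] KK (m : ℂ[X]))⁻¹ * (m • (s : E))
          ∈ IntermediateField.adjoin KK {m • (s : E)} :=
        (IntermediateField.adjoin KK _).mul_mem ((IntermediateField.adjoin KK _).algebraMap_mem _)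
          (IntermediateField.mem_adjoin_simple_self KK _)
      rwa [← e2] at h3
    refine IntermediateField.splits_of_mem_adjoin KK E (S := {m • (s : E)}) ?_ hmem
    intro x hx
    rw [Set.mem_singleton_iff] at hx
    subst hx
    exact ⟨hm.tower_top, h1 _ hyL hm⟩
  obtain ⟨ρ⟩ := IntermediateField.nonempty_algHom_of_splits h2
  obtain ⟨ev, hev, -⟩ := ret_real_of_algHom L Wd ρ
  exact ⟨ev, hev⟩

/-- REAL-1' : realization of the splitting field of `P` -/
theorem ret_exists_real_of_splitting {P : ℂ[X][X]} (hP : P.Monic) {W : Set ℂ} (hW : IsOpen W)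
    (hc : IsPreconnected W) (hne : W.Nonempty) (h : RetHSplits P W) :
    ∃ ev : E → ℂ → ℂ,
      RetIsReal E (IntermediateField.adjoin KK {y : E | Polynomial.aeval y P = 0}) ev W := by
  obtain ⟨Wd, hWd⟩ : ∃ Wd : RetDom, Wd.carrier = W := ⟨⟨W, hW, hc, hne⟩, rfl⟩
  subst hWd
  have hsp := ret_splits_of_hsplits KK h
  have h1 : ∀ s ∈ {y : E | Polynomial.aeval y P = 0},
      IsIntegral KK s ∧ ((minpoly KK s).map (algebraMap KK (RetMer Wd))).Splits := by
    intro s hs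
    have hs' : Polynomial.aeval s P = 0 := hs
    have hi : IsIntegral ℂ[X] s := ⟨P, hP, hs'⟩
    refine ⟨hi.tower_top, ?_⟩
    have hd : minpoly KK s ∣ P.map (algebraMap ℂ[X] KK) :=
      minpoly.dvd KK s (by rw [Polynomial.aeval_map_algebraMap]; exact hs')
    exact Splits.of_dvd hsp ((hP.map _).map _).ne_zero (Polynomial.map_dvd _ hd)
  obtain ⟨ρ⟩ := IntermediateField.nonempty_algHom_adjoin_of_splits h1
  obtain ⟨ev, hev, -⟩ := ret_real_of_algHom _ Wd ρ
  exact ⟨ev, hev⟩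

/-- two embeddings of a normal extension have the same image -/
theorem ret_exists_endo_of_normal {F L M : Type} [Field F] [Field L] [Field M] [Algebra F L] [Algebra F M]
    [Normal F L] (ρ₁ ρ₂ : L →ₐ[F] M) : ∃ σ : L ≃ₐ[F] L, ∀ y, ρ₁ (σ y) = ρ₂ y := by
  let e₁ : L ≃ₐ[F] ρ₁.fieldRange := AlgEquiv.ofInjectiveField ρ₁
  have : Normal F ρ₁.fieldRange := Normal.of_algEquiv e₁
  have hr : (ρ₂.comp e₁.symm.toAlgHom).fieldRange = ρ₁.fieldRange := AlgHom.fieldRange_of_normal _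
  have hmem : ∀ y : L, ρ₂ y ∈ ρ₁.fieldRange := by
    intro y
    rw [← hr]
    exact ⟨e₁ y, by simp⟩
  let σ : L →ₐ[F] L := e₁.symm.toAlgHom.comp (ρ₂.codRestrict ρ₁.fieldRange.toSubalgebra hmem)
  have hσ : ∀ y, ρ₁ (σ y) = ρ₂ y := by
    intro y
    have h1 : ∀ w : ρ₁.fieldRange, ρ₁ (e₁.symm w) = w := by
      intro w
      have : e₁ (e₁.symm w) = w := e₁.apply_symm_apply w
      exact congrArg Subtype.val this
    exact h1 _
  have : Algebra.IsAlgebraic F L := inferInstance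
  refine ⟨AlgEquiv.ofBijective σ (Algebra.IsAlgebraic.algHom_bijective σ), hσ⟩

/-- REAL-3 -/
theorem ret_real_compare {L : IntermediateField KK E} (hL : ∀ (g : E ≃ₐ[KK] E), ∀ y ∈ L, g y ∈ L)
    {ev₁ ev₂ : E → ℂ → ℂ} {W : Set ℂ} (hW : IsOpen W) (hc : IsPreconnected W) (hne : W.Nonempty)
    (h₁ : RetIsReal E L ev₁ W) (h₂ : RetIsReal E L ev₂ W) :
    ∃ g : E ≃ₐ[KK] E, ∀ y ∈ L, IsIntegral ℂ[X] y → Set.EqOn (ev₂ y) (ev₁ (g y)) W := by
  obtain ⟨Wd, hWd⟩ : ∃ Wd : RetDom, Wd.carrier = W := ⟨⟨W, hW, hc, hne⟩, rfl⟩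
  subst hWd
  obtain ⟨ρ₁, hρ₁⟩ := ret_algHom_of_real h₁
  obtain ⟨ρ₂, hρ₂⟩ := ret_algHom_of_real h₂
  have : Normal KK E := IsAlgClosure.normal KK E
  have hN : Normal KK L := by
    rw [IntermediateField.normal_iff_forall_map_le']
    intro σ y hy
    obtain ⟨y', hy', rfl⟩ := (IntermediateField.mem_map _).1 hy
    exact hL σ y' hy'
  obtain ⟨σ, hσ⟩ := ret_exists_endo_of_normal ρ₁ ρ₂
  refine ⟨σ.liftNormal E, fun y hy hi z hz => ?_⟩
  have hg : σ.liftNormal E y = (σ ⟨y, hy⟩ : E) := σ.liftNormal_commutes E ⟨y, hy⟩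
  have hi' : IsIntegral ℂ[X] ((σ ⟨y, hy⟩ : L) : E) := by
    rw [← hg]
    exact hi.map (σ.liftNormal E)
  obtain ⟨f₁, hf₁, hev₁⟩ := hρ₁ (σ ⟨y, hy⟩) hi'
  obtain ⟨f₂, hf₂, hev₂⟩ := hρ₂ ⟨y, hy⟩ hi
  have hff : f₁ = f₂ := by
    apply IsFractionRing.injective (RetHol Wd) (RetMer Wd)
    rw [← hf₁, ← hf₂, hσ]
  rw [hg, hev₁ z hz, hff]
  exact hev₂ z hz

end Claimed.Agent.R280
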