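import Claimed.Agent.R280.RET.Hol
import Claimed.Agent.R280.RET.RealBasic

/-!
# Row 280, RET / EMB (~900 lines): realizations of `L` on `W`  =  `KK`-embeddings `L → RetMer W`   (owner of the statements: helper30)

* EMB-a `ret_real_of_algHom` (~250 lines): integral elements go to elements of `RetMer W` integral over `RetHol W`, hence into `RetHol W` (`IsIntegrallyClosed`); `ev y := retFn` of that element (choice).
* EMB-b `ret_algHom_of_real` (~400 lines): `A = integralClosure ℂ[X] L → RetHol W`, `y ↦ retHolMk (ev y)`, is an injective ring homomorphism over `ℂ[X]` (`RetIsReal.eq_of_eqOn`), `L = Frac A`; `IsFractionRing.lift`.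
* EMB-c `ret_splits_of_hsplits` (~250 lines).
-/

set_option autoImplicit false
set_option linter.unusedSectionVars false

namespace Claimed.Agent.R280

open Polynomial WithZero
open scoped Pointwise

variable {KK E : Type} [Field KK] [Field E] [Algebra ℂ KK] [Algebra ℂ[X] KK] [IsScalarTower ℂ ℂ[X] KK]
  [IsFractionRing ℂ[X] KK] [Algebra KK E] [Algebra ℂ[X] E] [IsScalarTower ℂ[X] KK E] [Algebra ℂ E]
  [IsScalarTower ℂ KK E] [IsAlgClosure KK E]

/-- the image of an integral element lies in `RetHol W` -/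
theorem ret_algHom_integral (L : IntermediateField KK E) (W : RetDom) (ρ : L →ₐ[KK] RetMer W)
    (y : L) (hy : IsIntegral ℂ[X] (y : E)) :
    ∃ f : RetHol W, algebraMap (RetHol W) (RetMer W) f = ρ y := by
  obtain ⟨p, hp, hr⟩ := hy
  have h1 : Polynomial.aeval (y : E) (p.map (algebraMap ℂ[X] KK)) = 0 := by
    rw [Polynomial.aeval_def, Polynomial.eval₂_map, ← IsScalarTower.algebraMap_eq]
    exact hr
  have h2 : Polynomial.aeval y (p.map (algebraMap ℂ[X] KK)) = 0 := by
    apply Subtype.val_injective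
    have := Polynomial.aeval_algHom_apply L.val y (p.map (algebraMap ℂ[X] KK))
    change L.val (Polynomial.aeval y (p.map (algebraMap ℂ[X] KK))) = 0
    rw [← this]
    exact h1
  have h3 : Polynomial.aeval (ρ y) (p.map (algebraMap ℂ[X] KK)) = 0 := by
    rw [Polynomial.aeval_algHom_apply, h2, map_zero]
  have h4 : IsIntegral (RetHol W) (ρ y) := by
    refine ⟨p.map (algebraMap ℂ[X] (RetHol W)), hp.map _, ?_⟩
    rw [Polynomial.eval₂_map, ← IsScalarTower.algebraMap_eq ℂ[X] (RetHol W) (RetMer W),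
      IsScalarTower.algebraMap_eq ℂ[X] KK (RetMer W), ← Polynomial.eval₂_map]
    exact h3
  exact IsIntegrallyClosed.isIntegral_iff.mp h4

/-- EMB-a -/
theorem ret_real_of_algHom (L : IntermediateField KK E) (W : RetDom) (ρ : L →ₐ[KK] RetMer W) :
    ∃ ev : E → ℂ → ℂ, RetIsReal E L ev W.carrier ∧
      ∀ y : L, IsIntegral ℂ[X] (y : E) → ∃ f : RetHol W,
        ρ y = algebraMap (RetHol W) (RetMer W) f ∧ ∀ z ∈ W.carrier, ev (y : E) z = retFn f z := by
  classical
  have hinj : Function.Injective (algebraMap (RetHol W) (RetMer W)) :=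
    IsFractionRing.injective (RetHol W) (RetMer W)
  -- the choice
  obtain ⟨F, hF⟩ : ∃ F : E → RetHol W, ∀ (y : L), IsIntegral ℂ[X] (y : E) →
      algebraMap (RetHol W) (RetMer W) (F (y : E)) = ρ y := by
    refine ⟨fun y => if h : y ∈ L ∧ IsIntegral ℂ[X] y then
      (ret_algHom_integral L W ρ ⟨y, h.1⟩ h.2).choose else 0, fun y hy => ?_⟩
    have h : (y : E) ∈ L ∧ IsIntegral ℂ[X] (y : E) := ⟨y.2, hy⟩
    simp only [h, and_self, dif_pos]
    exact (ret_algHom_integral L W ρ ⟨y, h.1⟩ h.2).choose_spec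
  refine ⟨fun y => retFn (F y), ⟨?_, ?_, ?_, ?_⟩, fun y hy => ⟨F y, (hF y hy).symm, fun _ _ => rfl⟩⟩
  · intro y _ _
    exact retFn_differentiableOn _
  · intro y hy y' hy' hi hi' z hz
    have : F (y + y') = F y + F y' := by
      apply hinj
      rw [map_add, hF ⟨y, hy⟩ hi, hF ⟨y', hy'⟩ hi', ← map_add]
      exact hF (⟨y, hy⟩ + ⟨y', hy'⟩) (hi.add hi')
    change retFn (F (y + y')) z = _
    rw [this, retFn_add _ _ hz]
  · intro y hy y' hy' hi hi' z hz
    have : F (y * y') = F y * F y' := by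
      apply hinj
      rw [map_mul, hF ⟨y, hy⟩ hi, hF ⟨y', hy'⟩ hi', ← map_mul]
      exact hF (⟨y, hy⟩ * ⟨y', hy'⟩) (hi.mul hi')
    change retFn (F (y * y')) z = _
    rw [this, retFn_mul _ _ hz]
  · intro p z hz
    have : F (algebraMap ℂ[X] E p) = algebraMap ℂ[X] (RetHol W) p := by
      apply hinj
      have e : algebraMap ℂ[X] E p = ((algebraMap KK L (algebraMap ℂ[X] KK p) : L) : E) := by
        rw [IsScalarTower.algebraMap_apply ℂ[X] KK E]
        rfl
      rw [e, hF _ (by rw [← e]; exact isIntegral_algebraMap), AlgHom.commutes,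
        ← IsScalarTower.algebraMap_apply, ← IsScalarTower.algebraMap_apply]
    change retFn (F (algebraMap ℂ[X] E p)) z = _
    rw [this, retFn_algebraMap p hz]

theorem ret_isIntegral_coe {L : IntermediateField KK E} (y : L) :
    IsIntegral ℂ[X] (y : E) ↔ IsIntegral ℂ[X] y := by
  have hst : IsScalarTower ℂ[X] L E := IsScalarTower.of_algebraMap_eq fun p => rfl
  have : (y : E) = algebraMap L E y := rfl
  rw [this]
  exact isIntegral_algebraMap_iff (algebraMap L E).injective

/-- the ring homomorphism from the integral elements of `L` to `RetHol W` -/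
noncomputable def retRealHom {L : IntermediateField KK E} {W : RetDom} {ev : E → ℂ → ℂ}
    (h : RetIsReal E L ev W.carrier) : integralClosure ℂ[X] L →+* RetHol W where
  toFun y := retHolMk (ev ((y : L) : E)) (h.holo _ (y : L).2 ((ret_isIntegral_coe _).2 y.2))
  map_one' := by
    refine retHol_ext fun z hz => ?_
    rw [retFn_mk _ _ hz, retFn_one hz]
    have := h.poly 1 z hz
    simpa using this
  map_zero' := by
    refine retHol_ext fun z hz => ?_
    rw [retFn_mk _ _ hz, retFn_zero hz]
    have := h.poly 0 z hz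
    simpa using this
  map_add' y y' := by
    refine retHol_ext fun z hz => ?_
    rw [retFn_add _ _ hz, retFn_mk _ _ hz, retFn_mk _ _ hz, retFn_mk _ _ hz]
    exact h.add _ (y : L).2 _ (y' : L).2 ((ret_isIntegral_coe _).2 y.2)
      ((ret_isIntegral_coe _).2 y'.2) z hz
  map_mul' y y' := by
    refine retHol_ext fun z hz => ?_
    rw [retFn_mul _ _ hz, retFn_mk _ _ hz, retFn_mk _ _ hz, retFn_mk _ _ hz]
    exact h.mul _ (y : L).2 _ (y' : L).2 ((ret_isIntegral_coe _).2 y.2)
      ((ret_isIntegral_coe _).2 y'.2) z hz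

theorem retRealHom_fn {L : IntermediateField KK E} {W : RetDom} {ev : E → ℂ → ℂ}
    (h : RetIsReal E L ev W.carrier) (y : integralClosure ℂ[X] L) {z : ℂ} (hz : z ∈ W.carrier) :
    retFn (retRealHom h y) z = ev ((y : L) : E) z :=
  retFn_mk _ (h.holo _ (y : L).2 ((ret_isIntegral_coe _).2 y.2)) hz

theorem retRealHom_injective {L : IntermediateField KK E} {W : RetDom} {ev : E → ℂ → ℂ}
    (h : RetIsReal E L ev W.carrier) : Function.Injective (retRealHom h) := by
  intro y y' hyy
  apply Subtype.val_injective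
  apply Subtype.val_injective
  refine h.eq_of_eqOn W.isOpen' W.isPreconnected' (y : L).2 (y' : L).2
    ((ret_isIntegral_coe _).2 y.2) ((ret_isIntegral_coe _).2 y'.2) W.isOpen' W.nonempty'
    subset_rfl fun z hz => ?_
  rw [← retRealHom_fn h y hz, ← retRealHom_fn h y' hz, hyy]

theorem retRealHom_algebraMap {L : IntermediateField KK E} {W : RetDom} {ev : E → ℂ → ℂ}
    (h : RetIsReal E L ev W.carrier) (p : ℂ[X]) :
    retRealHom h (algebraMap ℂ[X] (integralClosure ℂ[X] L) p) = algebraMap ℂ[X] (RetHol W) p := by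
  refine retHol_ext fun z hz => ?_
  rw [retRealHom_fn h _ hz, retFn_algebraMap p hz, ← h.poly p z hz]
  rfl

/-- EMB-b -/
theorem ret_algHom_of_real {L : IntermediateField KK E} {W : RetDom} {ev : E → ℂ → ℂ}
    (h : RetIsReal E L ev W.carrier) :
    ∃ ρ : L →ₐ[KK] RetMer W, ∀ y : L, IsIntegral ℂ[X] (y : E) → ∃ f : RetHol W,
        ρ y = algebraMap (RetHol W) (RetMer W) f ∧ ∀ z ∈ W.carrier, ev (y : E) z = retFn f z := by
  have halgE : Algebra.IsAlgebraic KK E := IsAlgClosure.isAlgebraic
  have halgL : Algebra.IsAlgebraic KK L := inferInstance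
  have halg : Algebra.IsAlgebraic ℂ[X] L := IsFractionRing.comap_isAlgebraic_iff.mpr halgL
  have hfr : IsFractionRing (integralClosure ℂ[X] L) L :=
    integralClosure.isFractionRing_of_algebraic (A := ℂ[X]) (L := L) fun p hp => by
      rw [IsScalarTower.algebraMap_apply ℂ[X] KK L] at hp
      exact IsFractionRing.to_map_eq_zero_iff.mp ((map_eq_zero (algebraMap KK L)).mp hp)
  have hinj : Function.Injective ((algebraMap (RetHol W) (RetMer W)).comp (retRealHom h)) :=
    (IsFractionRing.injective (RetHol W) (RetMer W)).comp (retRealHom_injective h)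
  let ρ₀ : L →+* RetMer W := IsFractionRing.lift hinj
  have hρ₀ : ∀ y : integralClosure ℂ[X] L, ρ₀ (y : L) =
      algebraMap (RetHol W) (RetMer W) (retRealHom h y) := fun y =>
    IsFractionRing.lift_algebraMap hinj y
  have hcomm : ρ₀.comp (algebraMap KK L) = algebraMap KK (RetMer W) := by
    refine IsLocalization.ringHom_ext (nonZeroDivisors ℂ[X]) (RingHom.ext fun p => ?_)
    have e1 : algebraMap KK L (algebraMap ℂ[X] KK p) =
        ((algebraMap ℂ[X] (integralClosure ℂ[X] L) p : integralClosure ℂ[X] L) : L) := by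
      rw [← IsScalarTower.algebraMap_apply ℂ[X] KK L]
      rfl
    simp only [RingHom.comp_apply]
    rw [e1, hρ₀, retRealHom_algebraMap, ← IsScalarTower.algebraMap_apply,
      ← IsScalarTower.algebraMap_apply]
  refine ⟨{ ρ₀ with commutes' := fun k => RingHom.congr_fun hcomm k }, fun y hy => ?_⟩
  refine ⟨retRealHom h ⟨y, (ret_isIntegral_coe y).1 hy⟩, hρ₀ ⟨y, (ret_isIntegral_coe y).1 hy⟩,
    fun z hz => ?_⟩
  rw [retRealHom_fn h _ hz]

/-- two polynomials over `RetHol W` agree if they agree after evaluation at every point -/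
theorem retHol_poly_ext {W : RetDom} {p q : (RetHol W)[X]}
    (h : ∀ z : W.carrier, p.map (retEv z).toRingHom = q.map (retEv z).toRingHom) : p = q := by
  refine Polynomial.ext fun n => ?_
  refine retHol_ext fun z hz => ?_
  have h1 := congrArg (fun r => r.coeff n) (h ⟨z, hz⟩)
  simp only [Polynomial.coeff_map] at h1
  have e1 : (retEv (⟨z, hz⟩ : W.carrier)).toRingHom (p.coeff n) = retFn (p.coeff n) z :=
    retEv_apply ⟨z, hz⟩ _
  have e2 : (retEv (⟨z, hz⟩ : W.carrier)).toRingHom (q.coeff n) = retFn (q.coeff n) z :=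
    retEv_apply ⟨z, hz⟩ _
  rw [← e1, ← e2]
  exact h1

theorem retEv_comp_algebraMap {W : RetDom} (z : W.carrier) :
    (retEv z).toRingHom.comp (algebraMap ℂ[X] (RetHol W)) = evalRingHom (z : ℂ) := by
  refine RingHom.ext fun p => ?_
  have : (retEv z).toRingHom (algebraMap ℂ[X] (RetHol W) p) = p.eval (z : ℂ) := by
    rw [← retFn_algebraMap (W := W) p z.2]
    exact retEv_apply z _
  simpa using this

/-- EMB-c, over `RetHol W` -/
theorem ret_hol_factor {P : ℂ[X][X]} {W : RetDom} {θ : Fin P.natDegree → ℂ → ℂ}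
    (h1 : ∀ i, DifferentiableOn ℂ (θ i) W.carrier)
    (h2 : ∀ z ∈ W.carrier, P.map (evalRingHom z) = ∏ i, (X - C (θ i z))) :
    P.map (algebraMap ℂ[X] (RetHol W)) = ∏ i, (X - C (retHolMk (θ i) (h1 i) : RetHol W)) := by
  refine retHol_poly_ext fun z => ?_
  rw [Polynomial.map_map, retEv_comp_algebraMap, h2 z z.2, Polynomial.map_prod]
  refine Finset.prod_congr rfl fun i _ => ?_
  rw [Polynomial.map_sub, Polynomial.map_X, Polynomial.map_C]
  have : (retEv z).toRingHom (retHolMk (θ i) (h1 i) : RetHol W) = retFn (retHolMk (θ i) (h1 i) : RetHol W) z :=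
    retEv_apply z _
  rw [this, retFn_mk _ _ z.2]

/-- EMB-c -/
theorem ret_splits_of_hsplits (KK : Type) [Field KK] [Algebra ℂ[X] KK] [IsFractionRing ℂ[X] KK]
    {P : ℂ[X][X]} {W : RetDom} (h : RetHSplits P W.carrier) :
    ((P.map (algebraMap ℂ[X] KK)).map (algebraMap KK (RetMer W))).Splits := by
  obtain ⟨θ, h1, h2⟩ := h
  rw [Polynomial.map_map, ← IsScalarTower.algebraMap_eq ℂ[X] KK (RetMer W),
    IsScalarTower.algebraMap_eq ℂ[X] (RetHol W) (RetMer W), ← Polynomial.map_map,
    ret_hol_factor h1 h2]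
  refine Splits.map ?_ _
  exact Splits.prod fun i _ => Splits.X_sub_C _

end Claimed.Agent.R280
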