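import Claimed.Agent.R280.RET.RealBasic

/-!
# Row 280, RET / REAL-5, REAL-6 (~800 lines): the places "evaluate at `a`", "evaluate at `∞`"  (overview: header of `RealBasic.lean`)

PLAN (no `Mer W` needed).  `A = integralClosure ℂ[X] L`, `L = Frac A` (`integralClosure.isFractionRing_of_algebraic`).  On `A` put `v y = exp (-(analyticOrderAt (ev y) a))` (`0` if `y = 0`;
the order is finite for `y ≠ 0` by `RetIsReal.eq_of_eqOn` + identity theorem): multiplicative, ultrametric; extend to `L` by `Valuation.extendToLocalization`.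
At `∞`: `ev y` has polynomial growth on `retExt R` (Cauchy's root bound), so `w ↦ ev y (1/w)` is meromorphic at `0`; use `meromorphicOrderAt`.
-/

set_option autoImplicit false
set_option linter.unusedSectionVars false

namespace Claimed.Agent.R280

open Polynomial WithZero Filter Topology
open scoped Pointwise NNReal

/-! ### from orders to values -/

/-- `n ↦ exp (-n)`, `⊤ ↦ 0` -/
noncomputable def rpPsi : WithTop ℤ → ℤᵐ⁰
  | ⊤ => 0
  | (n : ℤ) => exp (-n)

theorem rpPsi_top : rpPsi ⊤ = 0 := rfl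

theorem rpPsi_coe (n : ℤ) : rpPsi (n : WithTop ℤ) = exp (-n) := rfl

theorem rpPsi_zero : rpPsi 0 = 1 := by
  have : rpPsi ((0 : ℤ) : WithTop ℤ) = exp (-0) := rfl
  simpa using this

theorem rpPsi_add (a b : WithTop ℤ) : rpPsi (a + b) = rpPsi a * rpPsi b := by
  induction a using WithTop.recTopCoe with
  | top => simp [rpPsi_top]
  | coe a =>
    induction b using WithTop.recTopCoe with
    | top => simp [rpPsi_top]
    | coe b =>
      rw [← WithTop.coe_add, rpPsi_coe, rpPsi_coe, rpPsi_coe, neg_add, exp_add]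

theorem rpPsi_anti {a b : WithTop ℤ} (h : a ≤ b) : rpPsi b ≤ rpPsi a := by
  induction b using WithTop.recTopCoe with
  | top => simp [rpPsi_top]
  | coe b =>
    induction a using WithTop.recTopCoe with
    | top => simp at h
    | coe a =>
      rw [rpPsi_coe, rpPsi_coe, exp_le_exp]
      have : a ≤ b := by exact_mod_cast h
      omega

theorem rpPsi_eq_zero {a : WithTop ℤ} : rpPsi a = 0 ↔ a = ⊤ := by
  induction a using WithTop.recTopCoe with
  | top => simp [rpPsi_top]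
  | coe a => simp [rpPsi_coe]

theorem rpPsi_lt_one {a : WithTop ℤ} : rpPsi a < 1 ↔ 0 < a := by
  induction a using WithTop.recTopCoe with
  | top => simp [rpPsi_top]
  | coe a =>
    rw [rpPsi_coe, ← exp_zero, exp_lt_exp]
    constructor
    · intro h
      have : 0 < a := by omega
      exact_mod_cast this
    · intro h
      have : 0 < a := by exact_mod_cast h
      omega

/-! ### the valuation "order at `c`" on a ring of germs of meromorphic functions -/

/-- the valuation "order at `c`" -/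
noncomputable def rpVal {A : Type*} [CommRing A] (F : A → ℂ → ℂ) (c : ℂ)
    (hm : ∀ y, MeromorphicAt (F y) c) (h0 : F 0 =ᶠ[𝓝[≠] c] 0) (h1 : F 1 =ᶠ[𝓝[≠] c] 1)
    (hadd : ∀ y y', F (y + y') =ᶠ[𝓝[≠] c] F y + F y')
    (hmul : ∀ y y', F (y * y') =ᶠ[𝓝[≠] c] F y * F y') : Valuation A ℤᵐ⁰ where
  toFun y := rpPsi (meromorphicOrderAt (F y) c)
  map_zero' := by
    rw [rpPsi_eq_zero, meromorphicOrderAt_eq_top_iff]
    exact h0
  map_one' := by
    rw [meromorphicOrderAt_congr h1]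
    have : meromorphicOrderAt (1 : ℂ → ℂ) c = 0 := by
      simp
    rw [this, rpPsi_zero]
  map_mul' y y' := by
    rw [meromorphicOrderAt_congr (hmul y y'), meromorphicOrderAt_mul (hm y) (hm y'), rpPsi_add]
  map_add_le_max' y y' := by
    rw [meromorphicOrderAt_congr (hadd y y')]
    have h := meromorphicOrderAt_add (hm y) (hm y')
    rcases le_total (meromorphicOrderAt (F y) c) (meromorphicOrderAt (F y') c) with h2 | h2
    · rw [min_eq_left h2] at h
      exact le_max_of_le_left (rpPsi_anti h)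
    · rw [min_eq_right h2] at h
      exact le_max_of_le_right (rpPsi_anti h)

variable {KK E : Type} [Field KK] [Field E] [Algebra ℂ KK] [Algebra ℂ[X] KK] [IsScalarTower ℂ ℂ[X] KK]
  [IsFractionRing ℂ[X] KK] [Algebra KK E] [Algebra ℂ[X] E] [IsScalarTower ℂ[X] KK E] [Algebra ℂ E]
  [IsScalarTower ℂ KK E] [IsAlgClosure KK E]

/-- A chart `φ` at `c` in which all integral elements are meromorphic gives a valuation of `L`. -/
theorem rp_exists_val {L : IntermediateField KK E} {ev : E → ℂ → ℂ} {W : Set ℂ}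
    (h : RetIsReal E L ev W) (φ : ℂ → ℂ) (c : ℂ) (hφ : ∀ᶠ w in 𝓝[≠] c, φ w ∈ W)
    (hm : ∀ y ∈ L, IsIntegral ℂ[X] y → MeromorphicAt (fun w => ev y (φ w)) c)
    (hinj : ∀ y ∈ L, IsIntegral ℂ[X] y → (∀ᶠ w in 𝓝[≠] c, ev y (φ w) = 0) → y = 0) :
    ∃ v : Valuation L ℤᵐ⁰, ∀ y : L, IsIntegral ℂ[X] (y : E) →
      v y = rpPsi (meromorphicOrderAt (fun w => ev (y : E) (φ w)) c) := by
  have htow : IsScalarTower ℂ[X] L E := IsScalarTower.of_algebraMap_eq fun _ => rfl
  have hint : ∀ y : integralClosure ℂ[X] L, IsIntegral ℂ[X] (((y : L) : E)) := fun y =>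
    IsIntegral.algebraMap (B := E) y.2
  let F : integralClosure ℂ[X] L → ℂ → ℂ := fun y w => ev ((y : L) : E) (φ w)
  have h0 : F 0 =ᶠ[𝓝[≠] c] 0 := by
    filter_upwards [hφ] with w hw
    have := h.poly 0 (φ w) hw
    simpa [F] using this
  have h1 : F 1 =ᶠ[𝓝[≠] c] 1 := by
    filter_upwards [hφ] with w hw
    have := h.poly 1 (φ w) hw
    simpa [F] using this
  have hadd : ∀ y y', F (y + y') =ᶠ[𝓝[≠] c] F y + F y' := by
    intro y y'
    filter_upwards [hφ] with w hw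
    exact h.add _ (y : L).2 _ (y' : L).2 (hint y) (hint y') (φ w) hw
  have hmul : ∀ y y', F (y * y') =ᶠ[𝓝[≠] c] F y * F y' := by
    intro y y'
    filter_upwards [hφ] with w hw
    exact h.mul _ (y : L).2 _ (y' : L).2 (hint y) (hint y') (φ w) hw
  let v0 : Valuation (integralClosure ℂ[X] L) ℤᵐ⁰ :=
    rpVal F c (fun y => hm _ (y : L).2 (hint y)) h0 h1 hadd hmul
  have halg0 : Algebra.IsAlgebraic KK E := IsAlgClosure.isAlgebraic
  have halg1 : Algebra.IsAlgebraic KK L := inferInstance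
  have halg : Algebra.IsAlgebraic ℂ[X] L := (IsFractionRing.comap_isAlgebraic_iff (K := KK)).2 halg1
  have hinjX : ∀ x : ℂ[X], algebraMap ℂ[X] L x = 0 → x = 0 := by
    intro x hx
    have h2 : algebraMap ℂ[X] L x = algebraMap KK L (algebraMap ℂ[X] KK x) :=
      IsScalarTower.algebraMap_apply ℂ[X] KK L x
    rw [h2, map_eq_zero] at hx
    exact (IsFractionRing.injective ℂ[X] KK) (by rw [hx, map_zero])
  have hfr : IsFractionRing (integralClosure ℂ[X] L) L := integralClosure.isFractionRing_of_algebraic hinjX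
  have hS : nonZeroDivisors (integralClosure ℂ[X] L) ≤ v0.supp.primeCompl := by
    intro s hs hs'
    have h3 : v0 s = 0 := hs'
    have h4 : rpPsi (meromorphicOrderAt (F s) c) = 0 := h3
    rw [rpPsi_eq_zero, meromorphicOrderAt_eq_top_iff] at h4
    have h5 := hinj _ (s : L).2 (hint s) h4
    have h6 : s = 0 := by
      apply Subtype.ext
      apply Subtype.ext
      exact h5
    exact (nonZeroDivisors.ne_zero hs) h6
  refine ⟨v0.extendToLocalization hS L, fun y hy => ?_⟩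
  have hy' : IsIntegral ℂ[X] y := (isIntegral_algebraMap_iff (B := E) (algebraMap L E).injective).1 hy
  have e : y = algebraMap (integralClosure ℂ[X] L) L ⟨y, hy'⟩ := rfl
  rw [e, Valuation.extendToLocalization_apply_map_apply]
  rfl

/-- a valuation which is trivial on the constants and has a uniformizer is a place -/
theorem rp_place_of_val {M : Type*} [Field M] [Algebra ℂ M] (v : Valuation M ℤᵐ⁰)
    (htriv : ∀ a : ℂ, a ≠ 0 → v (algebraMap ℂ M a) = 1) {π : M} {e : ℤ} (he : e * e = 1)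
    (hπ : v π = exp e) : ∃ Q : Place ℂ M, Q.v = v := by
  refine ⟨⟨v, ?_, htriv⟩, rfl⟩
  intro γ
  induction γ using WithZero.expRecOn with
  | zero => exact ⟨0, map_zero v⟩
  | exp n =>
    refine ⟨π ^ (e * n), ?_⟩
    rw [map_zpow₀, hπ, ← exp_zsmul, smul_eq_mul, mul_comm e n, mul_assoc, he, mul_one]

theorem rp_algebraMap_C (L : IntermediateField KK E) (a : ℂ) :
    algebraMap ℂ L a = algebraMap ℂ[X] L (C a) := by
  apply Subtype.ext
  show algebraMap ℂ E a = algebraMap ℂ[X] E (C a)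
  rw [IsScalarTower.algebraMap_apply ℂ KK E, IsScalarTower.algebraMap_apply ℂ[X] KK E,
    IsScalarTower.algebraMap_apply ℂ ℂ[X] KK]
  rfl

theorem rp_algebraMap_KK (L : IntermediateField KK E) (p : ℂ[X]) :
    algebraMap KK L (algebraMap ℂ[X] KK p) = algebraMap ℂ[X] L p :=
  (IsScalarTower.algebraMap_apply ℂ[X] KK L p).symm

/-- the value of a polynomial -/
theorem rp_val_poly {L : IntermediateField KK E} {ev : E → ℂ → ℂ} {W : Set ℂ}
    (h : RetIsReal E L ev W) {φ : ℂ → ℂ} {c : ℂ} (hφ : ∀ᶠ w in 𝓝[≠] c, φ w ∈ W)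
    {v : Valuation L ℤᵐ⁰} (hv : ∀ y : L, IsIntegral ℂ[X] (y : E) →
      v y = rpPsi (meromorphicOrderAt (fun w => ev (y : E) (φ w)) c)) (p : ℂ[X]) :
    v (algebraMap ℂ[X] L p) = rpPsi (meromorphicOrderAt (fun w => p.eval (φ w)) c) := by
  have h1 : ((algebraMap ℂ[X] L p : L) : E) = algebraMap ℂ[X] E p := rfl
  rw [hv _ (by rw [h1]; exact isIntegral_algebraMap), h1]
  congr 1
  refine meromorphicOrderAt_congr ?_
  filter_upwards [hφ] with w hw
  exact h.poly p (φ w) hw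

/-- the constants have value one -/
theorem rp_val_const {L : IntermediateField KK E} {ev : E → ℂ → ℂ} {W : Set ℂ}
    (h : RetIsReal E L ev W) {φ : ℂ → ℂ} {c : ℂ} (hφ : ∀ᶠ w in 𝓝[≠] c, φ w ∈ W)
    {v : Valuation L ℤᵐ⁰} (hv : ∀ y : L, IsIntegral ℂ[X] (y : E) →
      v y = rpPsi (meromorphicOrderAt (fun w => ev (y : E) (φ w)) c)) (a : ℂ) (ha : a ≠ 0) :
    v (algebraMap ℂ L a) = 1 := by
  classical
  rw [rp_algebraMap_C, rp_val_poly h hφ hv]
  simp only [eval_C]
  rw [meromorphicOrderAt_const, if_neg ha, rpPsi_zero]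

/-- REAL-5 -/
theorem RetIsReal.exists_place {L : IntermediateField KK E} {ev : E → ℂ → ℂ} {W : Set ℂ}
    (h : RetIsReal E L ev W) (hW : IsOpen W) (hc : IsPreconnected W) {a : ℂ} (ha : a ∈ W) :
    ∃ Q : Place ℂ L, Q.v (algebraMap KK L (retX KK - algebraMap ℂ KK a)) = exp (-1) ∧
      ∀ y : L, IsIntegral ℂ[X] (y : E) → Q.v y ≤ 1 ∧ (Q.v y < 1 ↔ ev (y : E) a = 0) := by
  have hWa : W ∈ 𝓝 a := hW.mem_nhds ha
  have hφ : ∀ᶠ w in 𝓝[≠] a, id w ∈ W := eventually_nhdsWithin_of_eventually_nhds hWa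
  have han : ∀ y ∈ L, IsIntegral ℂ[X] y → AnalyticAt ℂ (fun w => ev y (id w)) a := fun y hy hi =>
    (h.holo y hy hi).analyticAt hWa
  have hinj : ∀ y ∈ L, IsIntegral ℂ[X] y → (∀ᶠ w in 𝓝[≠] a, ev y (id w) = 0) → y = 0 := by
    intro y hy hi h0
    obtain ⟨U, hU, haU, hsub⟩ := mem_nhdsWithin.1 (h0.and hφ)
    have hmem : U ∩ {a}ᶜ ∈ 𝓝[≠] a := mem_nhdsWithin.2 ⟨U, hU, haU, subset_rfl⟩
    refine h.eq_of_eqOn hW hc hy (zero_mem L) hi isIntegral_zero (hU.inter isOpen_compl_singleton)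
      (Filter.nonempty_of_mem hmem) (fun w hw => (hsub hw).2) ?_
    intro w hw
    have h2 := h.poly 0 w (hsub hw).2
    rw [map_zero, eval_zero] at h2
    rw [h2]
    exact (hsub hw).1
  obtain ⟨v, hv⟩ := rp_exists_val h id a hφ (fun y hy hi => (han y hy hi).meromorphicAt) hinj
  have hπ0 : algebraMap KK L (retX KK - algebraMap ℂ KK a) = algebraMap ℂ[X] L (X - C a) := by
    rw [← rp_algebraMap_KK, map_sub (algebraMap ℂ[X] KK), IsScalarTower.algebraMap_apply ℂ ℂ[X] KK]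
    rfl
  have hπ : v (algebraMap KK L (retX KK - algebraMap ℂ KK a)) = exp (-1) := by
    rw [hπ0, rp_val_poly h hφ hv]
    simp only [eval_sub, eval_X, eval_C, id]
    rw [meromorphicOrderAt_id_sub_const]
    rfl
  obtain ⟨Q, hQ⟩ := rp_place_of_val v (rp_val_const h hφ hv) (e := -1) (by norm_num) hπ
  refine ⟨Q, by rw [hQ]; exact hπ, fun y hy => ?_⟩
  rw [hQ, hv y hy]
  have ha' := han (y : E) y.2 hy
  refine ⟨?_, ?_⟩
  · rw [← rpPsi_zero]
    exact rpPsi_anti ha'.meromorphicOrderAt_nonneg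
  · rw [rpPsi_lt_one, ← tendsto_zero_iff_meromorphicOrderAt_pos ha'.meromorphicAt]
    have hcont : Tendsto (fun w => ev (y : E) (id w)) (𝓝[≠] a) (𝓝 (ev (y : E) a)) :=
      ha'.continuousAt.tendsto.mono_left nhdsWithin_le_nhds
    constructor
    · intro h0
      exact tendsto_nhds_unique hcont h0
    · intro h0
      rw [h0] at hcont
      exact hcont

/-! ### growth at infinity -/

theorem rp_poly_growth (p : ℂ[X]) :
    ∃ C : ℝ, 0 ≤ C ∧ ∃ N : ℕ, ∀ z : ℂ, 1 ≤ ‖z‖ → ‖p.eval z‖ ≤ C * ‖z‖ ^ N := by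
  refine ⟨∑ j ∈ Finset.range (p.natDegree + 1), ‖p.coeff j‖, Finset.sum_nonneg fun _ _ => norm_nonneg _,
    p.natDegree, fun z hz => ?_⟩
  rw [eval_eq_sum_range, Finset.sum_mul]
  refine (norm_sum_le _ _).trans (Finset.sum_le_sum fun j hj => ?_)
  rw [norm_mul, norm_pow]
  refine mul_le_mul_of_nonneg_left ?_ (norm_nonneg _)
  exact pow_le_pow_right₀ hz (Nat.lt_succ_iff.1 (Finset.mem_range.1 hj))

theorem rp_cauchy {P : ℂ[X]} (hP : P.Monic) {M : ℝ} (hM : 0 ≤ M)
    (hc : ∀ i < P.natDegree, ‖P.coeff i‖ ≤ M) {t : ℂ} (ht : P.eval t = 0) : ‖t‖ ≤ M + 1 := by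
  have h1 := IsRoot.norm_lt_cauchyBound hP.ne_zero (a := t) ht
  lift M to ℝ≥0 using hM
  have h2 : cauchyBound P ≤ M + 1 := by
    unfold cauchyBound
    rw [hP.leadingCoeff, nnnorm_one, div_one]
    refine add_le_add_left ?_ 1
    exact Finset.sup_le fun i hi => hc i (Finset.mem_range.1 hi)
  have h3 : ((‖t‖₊ : ℝ≥0) : ℝ) < ((M + 1 : ℝ≥0) : ℝ) := by
    exact_mod_cast lt_of_lt_of_le h1 h2
  simpa using h3.le

/-- the roots of a monic polynomial over `ℂ[X]` have polynomial growth -/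
theorem rp_root_growth {G : ℂ[X][X]} (hG : G.Monic) :
    ∃ C : ℝ, ∃ N : ℕ, ∀ z t : ℂ, 1 ≤ ‖z‖ → (G.map (evalRingHom z)).eval t = 0 →
      ‖t‖ ≤ C * ‖z‖ ^ N := by
  choose C hC N hN using fun i : ℕ => rp_poly_growth (G.coeff i)
  refine ⟨∑ i ∈ Finset.range G.natDegree, C i + 1, ∑ i ∈ Finset.range G.natDegree, N i,
    fun z t hz ht => ?_⟩
  have hpow : (1 : ℝ) ≤ ‖z‖ ^ (∑ i ∈ Finset.range G.natDegree, N i) := one_le_pow₀ hz
  have hsum : 0 ≤ ∑ i ∈ Finset.range G.natDegree, C i := Finset.sum_nonneg fun i _ => hC i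
  have h1 := rp_cauchy (hG.map (evalRingHom z))
    (M := (∑ i ∈ Finset.range G.natDegree, C i) * ‖z‖ ^ (∑ i ∈ Finset.range G.natDegree, N i))
    (by positivity) ?_ ht
  · refine h1.trans ?_
    rw [add_mul, one_mul]
    exact add_le_add_right hpow _
  · intro i hi
    rw [hG.natDegree_map] at hi
    rw [coeff_map]
    refine (hN i z hz).trans ?_
    have hi' := Finset.mem_range.2 hi
    refine mul_le_mul (Finset.single_le_sum (f := C) (fun j _ => hC j) hi') ?_ (by positivity) hsum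
    exact pow_le_pow_right₀ hz (Finset.single_le_sum (f := N) (fun j _ => Nat.zero_le _) hi')

/-- polynomial growth of `g (1/w)` gives meromorphy at `0` -/
theorem rp_meromorphic_inf {g : ℂ → ℂ} {C : ℝ} {N : ℕ}
    (hd : ∀ᶠ w in 𝓝[≠] (0 : ℂ), DifferentiableAt ℂ g w)
    (hb : ∀ᶠ w in 𝓝[≠] (0 : ℂ), ‖g w‖ ≤ C * ‖w⁻¹‖ ^ N) : MeromorphicAt g 0 := by
  have hd' : ∀ᶠ w in 𝓝[≠] (0 : ℂ), DifferentiableAt ℂ (fun w => w ^ (N + 1) * g w) w := by
    filter_upwards [hd] with w hw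
    exact (differentiableAt_id.pow _).mul hw
  have hbd : ∀ᶠ w in 𝓝 (0 : ℂ), ‖w ^ (N + 1) * g w‖ ≤ C * ‖w‖ := by
    filter_upwards [eventually_nhdsWithin_iff.1 hb] with w hw
    by_cases h0 : w = 0
    · subst h0
      simp
    · have h1 := hw h0
      have hn : 0 < ‖w‖ := norm_pos_iff.2 h0
      rw [norm_mul, norm_pow]
      calc ‖w‖ ^ (N + 1) * ‖g w‖ ≤ ‖w‖ ^ (N + 1) * (C * ‖w⁻¹‖ ^ N) :=
            mul_le_mul_of_nonneg_left h1 (by positivity)
        _ = C * ‖w‖ := by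
            rw [norm_inv, inv_pow, pow_succ]
            field_simp
  have hc : ContinuousAt (fun w : ℂ => w ^ (N + 1) * g w) 0 := by
    unfold ContinuousAt
    have e0 : (fun w : ℂ => w ^ (N + 1) * g w) 0 = 0 := by simp
    rw [e0]
    refine squeeze_zero_norm' hbd ?_
    have : Tendsto (fun w : ℂ => C * ‖w‖) (𝓝 0) (𝓝 (C * ‖(0 : ℂ)‖)) :=
      (continuous_const.mul continuous_norm).tendsto 0
    simpa using this
  have han := Complex.analyticAt_of_differentiable_on_punctured_nhds_of_continuousAt hd' hc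
  refine ⟨N + 1, ?_⟩
  simpa [sub_zero, smul_eq_mul] using han

theorem rp_retExt_mem_cobounded (R : ℝ) : retExt R ∈ Bornology.cobounded ℂ := by
  show Bornology.IsCobounded (retExt R)
  rw [← Bornology.isBounded_compl_iff, isBounded_iff_forall_norm_le]
  refine ⟨2 * R, fun z hz => ?_⟩
  have h1 : ¬ (R < |z.re| ∨ R < |z.im|) := hz
  rw [not_or, not_lt, not_lt] at h1
  have := Complex.norm_le_abs_re_add_abs_im z
  linarith [h1.1, h1.2]

/-- REAL-6 -/
theorem RetIsReal.exists_place_inf {L : IntermediateField KK E} {ev : E → ℂ → ℂ} {R : ℝ} (hR : 0 ≤ R)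
    (h : RetIsReal E L ev (retExt R)) :
    ∃ Q : Place ℂ L, Q.v (algebraMap KK L (retX KK)) = exp 1 := by
  have hφ : ∀ᶠ w in 𝓝[≠] (0 : ℂ), w⁻¹ ∈ retExt R :=
    Filter.tendsto_inv₀_nhdsNE_zero.eventually (rp_retExt_mem_cobounded R)
  have hbig : ∀ᶠ w in 𝓝[≠] (0 : ℂ), 1 ≤ ‖w⁻¹‖ := by
    have h1 : {z : ℂ | 1 ≤ ‖z‖} ∈ Bornology.cobounded ℂ := by
      show Bornology.IsCobounded {z : ℂ | 1 ≤ ‖z‖}
      rw [← Bornology.isBounded_compl_iff, isBounded_iff_forall_norm_le]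
      refine ⟨1, fun z hz => ?_⟩
      have h2 : ¬ (1 ≤ ‖z‖) := hz
      exact (not_le.1 h2).le
    exact Filter.tendsto_inv₀_nhdsNE_zero.eventually h1
  have hne : ∀ᶠ w in 𝓝[≠] (0 : ℂ), w ≠ 0 := eventually_mem_nhdsWithin
  have hm : ∀ y ∈ L, IsIntegral ℂ[X] y → MeromorphicAt (fun w => ev y (w⁻¹)) 0 := by
    intro y hy hi
    obtain ⟨G, hG, hG0⟩ := id hi
    obtain ⟨C, N, hCN⟩ := rp_root_growth hG
    refine rp_meromorphic_inf (C := C) (N := N) ?_ ?_
    · filter_upwards [hφ, hne] with w hw hw0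
      have h1 : DifferentiableAt ℂ (ev y) (w⁻¹) :=
        (h.holo y hy hi).differentiableAt ((retExt_isOpen R).mem_nhds hw)
      exact h1.comp w (differentiableAt_inv hw0)
    · filter_upwards [hφ, hbig] with w hw hw1
      exact hCN _ _ hw1 (h.root hy hi (G := G) hG0 hw)
  have hinj : ∀ y ∈ L, IsIntegral ℂ[X] y → (∀ᶠ w in 𝓝[≠] (0 : ℂ), ev y (w⁻¹) = 0) → y = 0 := by
    intro y hy hi h0
    obtain ⟨U, hU, h0U, hsub⟩ := mem_nhdsWithin.1 (h0.and hφ)
    have hmem : U ∩ {0}ᶜ ∈ 𝓝[≠] (0 : ℂ) := mem_nhdsWithin.2 ⟨U, hU, h0U, subset_rfl⟩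
    obtain ⟨w0, hw0⟩ := Filter.nonempty_of_mem hmem
    have hopen : IsOpen (({0}ᶜ : Set ℂ) ∩ Inv.inv ⁻¹' U) :=
      continuousOn_inv₀.isOpen_inter_preimage isOpen_compl_singleton hU
    have hkey : ∀ z ∈ (({0}ᶜ : Set ℂ) ∩ Inv.inv ⁻¹' U), ev y z = 0 ∧ z ∈ retExt R := by
      intro z hz
      have h1 : z⁻¹ ∈ U ∩ {0}ᶜ := ⟨hz.2, inv_ne_zero hz.1⟩
      have h2 := hsub h1
      simp only [Set.mem_ofPred_eq, inv_inv] at h2
      exact h2
    refine h.eq_of_eqOn (retExt_isOpen R) (retExt_isPreconnected hR) hy (zero_mem L) hi isIntegral_zero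
      hopen ⟨w0⁻¹, inv_ne_zero hw0.2, by simpa using hw0.1⟩ (fun z hz => (hkey z hz).2) ?_
    intro z hz
    have h2 := h.poly 0 z (hkey z hz).2
    rw [map_zero, eval_zero] at h2
    rw [h2]
    exact (hkey z hz).1
  obtain ⟨v, hv⟩ := rp_exists_val h (fun w => w⁻¹) 0 hφ hm hinj
  have hπ : v (algebraMap KK L (retX KK)) = exp 1 := by
    have e1 : algebraMap KK L (retX KK) = algebraMap ℂ[X] L X := rp_algebraMap_KK L X
    rw [e1, rp_val_poly h hφ hv]
    simp only [eval_X]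
    have e2 : (fun w : ℂ => w⁻¹) = (id : ℂ → ℂ)⁻¹ := rfl
    rw [e2, meromorphicOrderAt_inv, meromorphicOrderAt_id]
    rfl
  obtain ⟨Q, hQ⟩ := rp_place_of_val v (rp_val_const h hφ hv) (e := 1) (by norm_num) hπ
  exact ⟨Q, by rw [hQ]; exact hπ⟩

end Claimed.Agent.R280
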