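import Claimed.Agent.R280.RET.Model

/-! # Row 280, RET / TOP-1 (overview: `Sorted.lean`) -/

set_option autoImplicit false
set_option linter.style.haveILetI false

namespace Claimed.Agent.R280

open Polynomial WithZero
open scoped Pointwise

section Aux

variable {KK E : Type} [Field KK] [Field E] [Algebra KK E]

/-- an open subgroup whose fixed field is the base field is everything -/
theorem ret_open_eq_top [IsGalois KK E] (T : Subgroup (E ≃ₐ[KK] E)) (hT : IsOpen (T : Set (E ≃ₐ[KK] E)))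
    (hfix : ∀ y : E, (∀ σ ∈ T, σ y = y) → y ∈ Set.range (algebraMap KK E)) : T = ⊤ := by
  have hcl : IsClosed (T : Set (E ≃ₐ[KK] E)) := T.isClosed_of_isOpen hT
  have h1 := InfiniteGalois.fixingSubgroup_fixedField (⟨T, hcl⟩ : ClosedSubgroup (E ≃ₐ[KK] E))
  have h2 : IntermediateField.fixedField T = ⊥ := by
    rw [eq_bot_iff]
    intro y hy
    rw [IntermediateField.mem_fixedField_iff] at hy
    obtain ⟨a, rfl⟩ := hfix y hy
    exact IntermediateField.algebraMap_mem _ a
  change (IntermediateField.fixedField T).fixingSubgroup = T at h1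
  rw [h2, IntermediateField.fixingSubgroup_bot] at h1
  exact h1.symm

/-- an open subgroup containing `H` contains the fixing subgroup of the fixed field of `H` -/
theorem ret_fixing_le [IsGalois KK E] (H T : Subgroup (E ≃ₐ[KK] E)) (hT : IsOpen (T : Set (E ≃ₐ[KK] E))) (hHT : H ≤ T) :
    (IntermediateField.fixedField H).fixingSubgroup ≤ T := by
  have hcl : IsClosed (T : Set (E ≃ₐ[KK] E)) := T.isClosed_of_isOpen hT
  have h1 := InfiniteGalois.fixingSubgroup_fixedField (⟨T, hcl⟩ : ClosedSubgroup (E ≃ₐ[KK] E))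
  change (IntermediateField.fixedField T).fixingSubgroup = T at h1
  calc (IntermediateField.fixedField H).fixingSubgroup
      ≤ (IntermediateField.fixedField T).fixingSubgroup :=
        IntermediateField.fixingSubgroup_le (IntermediateField.fixedField_le hHT)
    _ = T := h1

/-- products of automorphisms which agree on a stable set agree on it -/
theorem ret_list_prod_agree {ι : Type} (N : Set E) (γ γ' : ι → (E ≃ₐ[KK] E))
    (hN : ∀ k, ∀ y ∈ N, γ k y ∈ N) (h : ∀ k, ∀ y ∈ N, γ' k y = γ k y) (L : List ι) :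
    ∀ y ∈ N, (L.map γ').prod y = (L.map γ).prod y ∧ (L.map γ).prod y ∈ N := by
  induction L with
  | nil => intro y hy; exact ⟨rfl, hy⟩
  | cons a L ih =>
    intro y hy
    obtain ⟨h1, h2⟩ := ih y hy
    simp only [List.map_cons, List.prod_cons, AlgEquiv.mul_apply]
    rw [h1]
    exact ⟨h a _ h2, hN a _ h2⟩

end Aux

/-- TOP-1.  `m : RetModel E b P` (M4), `N = retN E (range P)`.  For each `k` take `V k`, `γ' k` from M9 (`γ' k • V k = V k`, `γ' k = m.γ k` on `N`).
* `canon`: `π = (x - b k)/(x - b l)`, `l ≠ k`; `(P k).v π = exp (-1)` (`v_sub_eq`, and `(P k).v (x - b l) = 1` since `x - b l = (x - b k) + (b k - b l)`); `τ` from M8.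
* every `φ ∈ HomUnram E G (range P)` kills `Gal(E/N)`: `ker φ` is closed and contains `retI`, hence the closure of the subgroup generated by it, which is `Gal(E/N)`
  (`InfiniteGalois.fixingSubgroup_fixedField`).
* `MapsTo`: `∏ γ' k` acts on `N` as `∏ m.γ k = α 0 (α r)⁻¹ = 1` (M7).
* `InjOn`: `φ, φ'` agree on the `γ' k`; `K₀ = ker φ ∩ ker φ'` is open; the subgroup generated by `K₀` and the `γ' k` is open, its fixed field is inside `N` (it is fixed by `K₀ ⊇ Gal(E/N)`) and fixed by
  all `m.γ k`, so it is `KK` (M6) and the subgroup is everything.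
* `SurjOn`: M10; elements of `retI` fix `N` pointwise. -/
theorem ret_sorted_core {KK E : Type} [Field KK] [Field E] [Algebra ℂ KK] [Algebra ℂ[X] KK]
    [IsScalarTower ℂ ℂ[X] KK] [IsFractionRing ℂ[X] KK] [Algebra KK E] [Algebra ℂ[X] E]
    [IsScalarTower ℂ[X] KK E] [Algebra ℂ E] [IsScalarTower ℂ KK E] [IsAlgClosure KK E]
    {r : ℕ} (hr : 2 ≤ r) (b : Fin r → ℂ) (hb : StrictMono fun k => (b k).re)
    (P : Fin r → Place ℂ KK) (hP : ∀ k, (P k).IsAt (retX KK) (b k)) :
    ∃ γ V, IsP1Datum E P γ V := by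
  haveI : CharZero KK := charZero_of_injective_algebraMap (algebraMap ℂ KK).injective
  haveI : IsGalois KK E := IsAlgClosure.isGalois KK E
  obtain ⟨m⟩ := ret_exists_model (E := E) hb hP
  set N := retN E (Set.range P) with hNdef
  have hN : ∀ (g : E ≃ₐ[KK] E), ∀ y ∈ N, g y ∈ N := fun g y hy => retN_normal _ g hy
  have hx := retX_isRatGen KK
  choose V hV γ' hγV hγN using fun k => m.exists_decomp hb hP hr k
  -- (A) homomorphisms in `HomUnram` kill `Gal(E/N)`
  have hA : ∀ (G : Type) [Group G] (φ : (E ≃ₐ[KK] E) →* G), φ ∈ HomUnram E G (Set.range P) →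
      ∀ σ : E ≃ₐ[KK] E, (∀ y ∈ N, σ y = y) → φ σ = 1 := by
    intro G _ φ hφ σ hσ
    have h1 : Subgroup.closure (retI E (Set.range P)) ≤ φ.ker := by
      rw [Subgroup.closure_le]
      rintro g ⟨Q, hQ, W, hW, hg⟩
      exact hφ.2 Q hQ W hW g hg
    have h2 := ret_fixing_le _ _ hφ.1 h1
    exact h2 ((IntermediateField.mem_fixingSubgroup_iff _ _).2 hσ)
  -- (B) density
  have hB : ∀ K₀ : Subgroup (E ≃ₐ[KK] E), IsOpen (K₀ : Set (E ≃ₐ[KK] E)) →
      (∀ σ : E ≃ₐ[KK] E, (∀ y ∈ N, σ y = y) → σ ∈ K₀) →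
      ∀ T : Subgroup (E ≃ₐ[KK] E), K₀ ≤ T → (∀ k, γ' k ∈ T) → T = ⊤ := by
    intro K₀ hK₀ hK₀N T hKT hγT
    refine ret_open_eq_top T (Subgroup.isOpen_mono hKT hK₀) fun y hy => ?_
    have hyN : y ∈ N := by
      have : y ∈ IntermediateField.fixedField N.fixingSubgroup := by
        rw [IntermediateField.mem_fixedField_iff]
        intro σ hσ
        exact hy σ (hKT (hK₀N σ ((IntermediateField.mem_fixingSubgroup_iff _ _).1 hσ)))
      rwa [InfiniteGalois.fixedField_fixingSubgroup] at this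
    exact m.fixed hb hP hyN fun k => by rw [← hγN k y hyN]; exact hy _ (hγT k)
  refine ⟨γ', V, hV, ?_, ?_⟩
  · -- canonical
    intro k n hn
    obtain ⟨l, hl⟩ : ∃ l : Fin r, k ≠ l := by
      by_cases hk : k.val = 0
      · exact ⟨⟨1, by omega⟩, fun h => by have := congrArg Fin.val h; simp at this; omega⟩
      · exact ⟨⟨0, by omega⟩, fun h => by have := congrArg Fin.val h; simp at this; omega⟩
    obtain ⟨τ, hτN, hτ, hγτ⟩ := m.exists_root hb hP hl hn
    refine ⟨hγV k, _, τ, ?_, hτ, ?_⟩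
    · have h1 : (P k).v (retX KK - algebraMap ℂ KK (b k)) = exp (-1) := hx.v_sub_eq (hP k)
      have hne : b k - b l ≠ 0 := sub_ne_zero.2 fun h => hl (hb.injective (congrArg Complex.re h))
      have h2 : (P k).v (algebraMap ℂ KK (b k - b l)) = 1 := (P k).triv _ hne
      have h3 : (P k).v (retX KK - algebraMap ℂ KK (b l)) = 1 := by
        have : retX KK - algebraMap ℂ KK (b l)
            = (retX KK - algebraMap ℂ KK (b k)) + algebraMap ℂ KK (b k - b l) := by
          rw [map_sub]; ring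
        rw [this, Valuation.map_add_eq_of_lt_right, h2]
        rw [h2]; exact hP k
      rw [map_div₀, h1, h3, div_one]
    · rw [hγN k τ hτN, hγτ]
  · intro G _ _
    refine ⟨?_, ?_, ?_⟩
    · -- MapsTo
      intro φ hφ
      change (List.ofFn fun k => φ (γ' k)).prod = 1
      have h1 : (List.ofFn fun k => φ (γ' k)) = ((List.finRange r).map γ').map φ := by
        rw [List.map_map, List.ofFn_eq_map]; rfl
      rw [h1, ← map_list_prod]
      refine hA G φ hφ _ fun y hy => ?_
      have h2 := (ret_list_prod_agree (N : Set E) m.γ γ' (fun k y hy => hN _ y hy) hγN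
        (List.finRange r) y hy).1
      rw [h2, ← List.ofFn_eq_map, m.prod_gamma, AlgEquiv.mul_apply]
      have h3 : (m.α r)⁻¹ y ∈ N := hN _ y hy
      rw [m.alpha_zero_eq hb hP h3]
      change (m.α r * (m.α r)⁻¹) y = y
      simp
    · -- InjOn
      intro φ hφ φ' hφ' heq
      have hk : ∀ k, φ (γ' k) = φ' (γ' k) := fun k => congrFun heq k
      have hopen : IsOpen ((φ.ker ⊓ φ'.ker : Subgroup (E ≃ₐ[KK] E)) : Set (E ≃ₐ[KK] E)) := by
        rw [Subgroup.coe_inf]; exact hφ.1.inter hφ'.1
      have htop := hB (φ.ker ⊓ φ'.ker) hopen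
        (fun σ hσ => ⟨hA G φ hφ σ hσ, hA G φ' hφ' σ hσ⟩) (φ.eqLocus φ')
        (fun σ hσ => by
          change φ σ = φ' σ
          rw [MonoidHom.mem_ker.1 hσ.1, MonoidHom.mem_ker.1 hσ.2]) hk
      ext σ
      have : σ ∈ φ.eqLocus φ' := by rw [htop]; trivial
      exact this
    · -- SurjOn
      intro g hg
      obtain ⟨φ, hφo, hφN, hφγ⟩ := m.exists_hom hb hP (by omega) g hg
      refine ⟨φ, ⟨hφo, ?_⟩, ?_⟩
      · intro Q hQ W hW σ hσ
        refine hφN σ fun y hy => ?_
        exact (mem_retN_iff.1 hy) σ ⟨Q, hQ, W, hW, hσ⟩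
      · funext k
        change φ (γ' k) = g k
        rw [← hφγ k]
        have : φ ((m.γ k)⁻¹ * γ' k) = 1 := by
          refine hφN _ fun y hy => ?_
          rw [AlgEquiv.mul_apply, hγN k y hy]
          change ((m.γ k)⁻¹ * m.γ k) y = y
          simp
        rw [map_mul, map_inv, inv_mul_eq_one] at this
        exact this.symm

end Claimed.Agent.R280
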