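import Claimed.Agent.R280.RET.SplitStrip
import Claimed.Agent.R280.RET.GeomLemmas

/-! # Row 280, RET / SPLIT-5: the cut planes (plan: header of `SplitDefs.lean`) -/

set_option autoImplicit false

namespace Claimed.Agent.R280

open Polynomial Complex

theorem retD_sup_lt {ι : Type} (s : Finset ι) (f : ι → ℝ) (x : ℝ) :
    s.sup (fun k => (f k : EReal)) < (x : EReal) ↔ ∀ k ∈ s, f k < x := by
  rw [Finset.sup_lt_iff (EReal.bot_lt_coe x)]
  simp only [EReal.coe_lt_coe_iff]

theorem retD_lt_inf {ι : Type} (s : Finset ι) (f : ι → ℝ) (x : ℝ) :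
    (x : EReal) < s.inf (fun k => (f k : EReal)) ↔ ∀ k ∈ s, x < f k := by
  rw [Finset.lt_inf_iff (EReal.coe_lt_top x)]
  simp only [EReal.coe_lt_coe_iff]

/-- the vertical strips `retA b j` are generalized rectangles -/
theorem retD_splits_A {r : ℕ} (b : Fin r → ℂ) {P : ℂ[X][X]} (j : ℕ)
    (h : RetLocSplits P (retA b j)) : RetHSplits P (retA b j) := by
  have e : retA b j = {z : ℂ |
      (Finset.univ.filter (fun k : Fin r => k.val < j)).sup (fun k => ((b k).re : EReal))
        < (z.re : EReal) ∧
      (z.re : EReal)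
        < (Finset.univ.filter (fun k : Fin r => j ≤ k.val)).inf (fun k => ((b k).re : EReal)) ∧
      (⊥ : EReal) < (z.im : EReal) ∧ (z.im : EReal) < ⊤} := by
    ext z
    simp only [retA, Set.mem_ofPred_eq, retD_sup_lt, retD_lt_inf, Finset.mem_filter,
      Finset.mem_univ, true_and, EReal.bot_lt_coe, EReal.coe_lt_top, and_true]
    exact forall_and
  rw [e] at h ⊢
  exact RetHSplits.strip h

/-- the lower half of `retW b k` is a generalized rectangle -/
theorem retD_splits_Wdn {r : ℕ} (b : Fin r → ℂ) {P : ℂ[X][X]} (k : Fin r) (c : ℝ)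
    (h : RetLocSplits P (retW b k ∩ {z | z.im < c})) :
    RetHSplits P (retW b k ∩ {z | z.im < c}) := by
  have e : retW b k ∩ {z | z.im < c} = {z : ℂ |
      (Finset.univ.filter (fun l : Fin r => l < k)).sup (fun k => ((b k).re : EReal))
        < (z.re : EReal) ∧
      (z.re : EReal)
        < (Finset.univ.filter (fun l : Fin r => k < l)).inf (fun k => ((b k).re : EReal)) ∧
      (⊥ : EReal) < (z.im : EReal) ∧ (z.im : EReal) < (c : EReal)} := by
    ext z
    simp only [retW, Set.mem_inter_iff, Set.mem_ofPred_eq, retD_sup_lt, retD_lt_inf,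
      Finset.mem_filter, Finset.mem_univ, true_and, EReal.bot_lt_coe, EReal.coe_lt_coe_iff]
    rw [forall_and, and_assoc]
  rw [e] at h ⊢
  exact RetHSplits.strip h

/-- the upper half of `retW b k` is a generalized rectangle -/
theorem retD_splits_Wup {r : ℕ} (b : Fin r → ℂ) {P : ℂ[X][X]} (k : Fin r) (c : ℝ)
    (h : RetLocSplits P (retW b k ∩ {z | c < z.im})) :
    RetHSplits P (retW b k ∩ {z | c < z.im}) := by
  have e : retW b k ∩ {z | c < z.im} = {z : ℂ |
      (Finset.univ.filter (fun l : Fin r => l < k)).sup (fun k => ((b k).re : EReal))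
        < (z.re : EReal) ∧
      (z.re : EReal)
        < (Finset.univ.filter (fun l : Fin r => k < l)).inf (fun k => ((b k).re : EReal)) ∧
      (c : EReal) < (z.im : EReal) ∧ (z.im : EReal) < ⊤} := by
    ext z
    simp only [retW, Set.mem_inter_iff, Set.mem_ofPred_eq, retD_sup_lt, retD_lt_inf,
      Finset.mem_filter, Finset.mem_univ, true_and, EReal.coe_lt_top, and_true,
      EReal.coe_lt_coe_iff]
    rw [forall_and, and_assoc]
  rw [e] at h ⊢
  exact RetHSplits.strip h

/-- the chain `A 0, B 0, A 1, B 1, ..., A r`, for both systems of cuts at once: `H k` is the half plane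
below resp. above `b k`. -/
theorem retD_chain {r : ℕ} (b : Fin r → ℂ) (hb : StrictMono fun k => (b k).re) {P : ℂ[X][X]}
    (H : Fin r → Set ℂ) (hHo : ∀ k, IsOpen (H k)) (hHc : ∀ k, Convex ℝ (H k))
    (hB : ∀ k, RetHSplits P (retW b k ∩ H k)) (hA : ∀ j, RetHSplits P (retA b j)) :
    RetHSplits P {z | ∀ k, z.re = (b k).re → z ∈ H k} := by
  set V : ℕ → Set ℂ := fun j =>
    {z | (∀ k, z.re = (b k).re → z ∈ H k) ∧ ∀ k : Fin r, j ≤ k.val → z.re < (b k).re} with hV
  have hmono : ∀ {l k : Fin r}, l < k → (b l).re < (b k).re := fun h => hb h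
  have key : ∀ j, j ≤ r → IsOpen (V j) ∧ RetHSplits P (V j) := by
    intro j
    induction j with
    | zero =>
      intro _
      have e : V 0 = retA b 0 := by
        ext z
        simp only [hV, retA, Set.mem_ofPred_eq]
        constructor
        · rintro ⟨_, h2⟩ k
          exact ⟨fun h => absurd h (Nat.not_lt_zero _), h2 k⟩
        · intro h
          exact ⟨fun k hk => absurd hk (ne_of_lt ((h k).2 (Nat.zero_le _))),
            fun k hk => (h k).2 hk⟩
      rw [e]
      exact ⟨retA_isOpen b 0, hA 0⟩
    | succ j ih =>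
      intro hj
      obtain ⟨o1, s1⟩ := ih (by omega)
      set k : Fin r := ⟨j, by omega⟩ with hk
      have hkv : k.val = j := rfl
      -- `B k ⊆ V (j+1)`
      have hBV : ∀ z, z ∈ retW b k ∩ H k →
          (∀ l, z.re = (b l).re → z ∈ H l) ∧ ∀ l : Fin r, j + 1 ≤ l.val → z.re < (b l).re := by
        rintro z ⟨hzW, hzH⟩
        refine ⟨fun l hl => ?_, fun l hl => (hzW l).2 (by rw [Fin.lt_def, hkv]; omega)⟩
        rcases lt_trichotomy l k with h | h | h
        · exact absurd hl (ne_of_gt ((hzW l).1 h))
        · rw [h]; exact hzH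
        · exact absurd hl (ne_of_lt ((hzW l).2 h))
      have e : V (j + 1) = (V j ∪ (retW b k ∩ H k)) ∪ retA b (j + 1) := by
        ext z
        constructor
        · rintro ⟨h1, h2⟩
          rcases lt_trichotomy z.re (b k).re with h | h | h
          · refine Or.inl (Or.inl ⟨h1, fun l hl => ?_⟩)
            rcases Nat.eq_or_lt_of_le hl with h' | h'
            · have : l = k := Fin.ext h'.symm
              rw [this]; exact h
            · exact h2 l h'
          · refine Or.inl (Or.inr ⟨fun l => ⟨fun hl => ?_, fun hl => ?_⟩, h1 k h⟩)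
            · rw [h]; exact hmono hl
            · exact h2 l (by rw [Fin.lt_def, hkv] at hl; omega)
          · refine Or.inr fun l => ⟨fun hl => ?_, fun hl => h2 l hl⟩
            have : l ≤ k := by rw [Fin.le_def, hkv]; omega
            exact lt_of_le_of_lt (hb.monotone this) h
        · rintro ((⟨h1, h2⟩ | h) | h)
          · exact ⟨h1, fun l hl => h2 l (by omega)⟩
          · exact hBV z h
          · refine ⟨fun l hl => ?_, fun l hl => (h l).2 hl⟩
            rcases Nat.lt_or_ge l.val (j + 1) with h' | h'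
            · exact absurd hl (ne_of_gt ((h l).1 h'))
            · exact absurd hl (ne_of_lt ((h l).2 h'))
      have i1 : V j ∩ (retW b k ∩ H k) = (retW b k ∩ H k) ∩ {z | z.re < (b k).re} := by
        ext z
        constructor
        · rintro ⟨⟨_, h2⟩, h3⟩
          exact ⟨h3, h2 k (le_of_eq hkv.symm)⟩
        · rintro ⟨h3, h4⟩
          refine ⟨⟨(hBV z h3).1, fun l hl => ?_⟩, h3⟩
          rcases Nat.eq_or_lt_of_le hl with h' | h'
          · have : l = k := Fin.ext h'.symm
            rw [this]; exact h4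
          · exact (hBV z h3).2 l h'
      have i2 : (V j ∪ (retW b k ∩ H k)) ∩ retA b (j + 1) = retA b (j + 1) ∩ H k := by
        ext z
        constructor
        · rintro ⟨⟨_, h2⟩ | h3, h4⟩
          · exact absurd (h2 k (le_of_eq hkv.symm))
              (not_lt.2 (le_of_lt ((h4 k).1 (by rw [hkv]; omega))))
          · exact ⟨h4, h3.2⟩
        · rintro ⟨h4, h5⟩
          exact ⟨Or.inr ⟨retA_succ_subset_W hb k h4, h5⟩, h4⟩
      have oB : IsOpen (retW b k ∩ H k) := (retW_isOpen b k).inter (hHo k)
      have s2 : RetHSplits P (V j ∪ (retW b k ∩ H k)) := by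
        refine s1.union (hB k) o1 oB ?_
        rw [i1]
        exact (((retW_convex b k).inter (hHc k)).inter
          (convex_halfSpace_re_lt _)).isPreconnected
      have s3 : RetHSplits P ((V j ∪ (retW b k ∩ H k)) ∪ retA b (j + 1)) := by
        refine s2.union (hA (j + 1)) (o1.union oB) (retA_isOpen b (j + 1)) ?_
        rw [i2]
        exact ((retA_convex b (j + 1)).inter (hHc k)).isPreconnected
      rw [e]
      exact ⟨(o1.union oB).union (retA_isOpen b _), s3⟩
  have e : {z | ∀ k, z.re = (b k).re → z ∈ H k} = V r := by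
    ext z
    simp only [hV, Set.mem_ofPred_eq]
    exact ⟨fun h => ⟨h, fun k hk => absurd k.isLt (not_lt.2 hk)⟩, fun h => h.1⟩
  rw [e]
  exact (key r le_rfl).2

/-- SPLIT-5 (~500 lines) -/
theorem retHSplits_Dup {r : ℕ} (b : Fin r → ℂ) (hb : StrictMono fun k => (b k).re) {P : ℂ[X][X]}
    (h : RetLocSplits P (retDup b)) : RetHSplits P (retDup b) := by
  refine retD_chain b hb (fun k => {z | z.im < (b k).im})
    (fun k => isOpen_lt Complex.continuous_im continuous_const)
    (fun k => convex_halfSpace_im_lt _) (fun k => ?_) (fun j => ?_)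
  · refine retD_splits_Wdn b k _ fun a ha => h a ?_
    exact (retW_mem_Dup_iff hb k ha.1).2 fun _ => ha.2
  · exact retD_splits_A b j fun a ha => h a (retA_subset_Dup b j ha)

theorem retHSplits_Ddn {r : ℕ} (b : Fin r → ℂ) (hb : StrictMono fun k => (b k).re) {P : ℂ[X][X]}
    (h : RetLocSplits P (retDdn b)) : RetHSplits P (retDdn b) := by
  refine retD_chain b hb (fun k => {z | (b k).im < z.im})
    (fun k => isOpen_lt continuous_const Complex.continuous_im)
    (fun k => convex_halfSpace_im_gt _) (fun k => ?_) (fun j => ?_)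
  · refine retD_splits_Wup b k _ fun a ha => h a ?_
    exact (retW_mem_Ddn_iff hb k ha.1).2 fun _ => ha.2
  · exact retD_splits_A b j fun a ha => h a (retA_subset_Ddn b j ha)

end Claimed.Agent.R280
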