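import Claimed.Agent.R280.RET.SplitDefs

/-! # Row 280, RET / SPLIT-2: increasing unions (plan: header of `SplitDefs.lean`)   (proofs: helper20) -/

set_option autoImplicit false

namespace Claimed.Agent.R280

open Polynomial Complex

/-- equal split polynomials over `ℂ`: the roots differ by a permutation -/
theorem retIU_perm_of_prod_eq {n : ℕ} (a b : Fin n → ℂ)
    (h : ∏ i, (X - C (a i)) = ∏ i, (X - C (b i))) :
    ∃ σ : Equiv.Perm (Fin n), ∀ i, a i = b (σ i) := by
  classical
  have hroots : ∀ a : Fin n → ℂ, (∏ i, (X - C (a i))).roots = Finset.univ.val.map a := by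
    intro a
    have : ∏ i, (X - C (a i)) = ((Finset.univ.val.map a).map fun x => X - C x).prod := by
      rw [Multiset.map_map]
      rfl
    rw [this, Polynomial.roots_multiset_prod_X_sub_C]
  have hm : (Finset.univ.val.map a) = (Finset.univ.val.map b) := by
    rw [← hroots a, h, hroots b]
  have hcard : ∀ c, Fintype.card {i // a i = c} = Fintype.card {i // b i = c} := by
    intro c
    have h1 := congrArg (Multiset.count c) hm
    rw [Multiset.count_map, Multiset.count_map] at h1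
    rw [Fintype.card_subtype, Fintype.card_subtype]
    have e : ∀ f : Fin n → ℂ, (Finset.univ.filter fun i => f i = c).card
        = Multiset.card (Multiset.filter (fun i => c = f i) Finset.univ.val) := by
      intro f
      rw [Finset.card_def, Finset.filter_val]
      congr 1
      exact Multiset.filter_congr fun i _ => eq_comm
    rw [e a, e b, h1]
  let e : ∀ c, {i // a i = c} ≃ {i // b i = c} := fun c => Fintype.equivOfCardEq (hcard c)
  exact ⟨Equiv.ofFiberEquiv e, fun i => (Equiv.ofFiberEquiv_map e i).symm⟩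

open Filter Topology in
/-- two holomorphic splittings on a connected open set differ by a permutation -/
theorem retIU_reindex {V : Set ℂ} (hV : IsOpen V) (hc : IsPreconnected V) (hne : V.Nonempty) {n : ℕ}
    {θ θ' : Fin n → ℂ → ℂ} (hθ : ∀ i, DifferentiableOn ℂ (θ i) V)
    (hθ' : ∀ i, DifferentiableOn ℂ (θ' i) V)
    (h : ∀ z ∈ V, ∏ i, (X - C (θ i z)) = ∏ i, (X - C (θ' i z))) :
    ∃ σ : Equiv.Perm (Fin n), ∀ i, Set.EqOn (θ i) (θ' (σ i)) V := by
  obtain ⟨z0, hz0⟩ := hne
  obtain ⟨ε, hε, hball⟩ := Metric.isOpen_iff.1 hV z0 hz0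
  set w : ℕ → ℂ := fun k => z0 + ((ε / ((k : ℝ) + 2) : ℝ) : ℂ) with hw
  have hpos : ∀ k : ℕ, 0 < ε / ((k : ℝ) + 2) := fun k => by positivity
  have hwV : ∀ k, w k ∈ V := by
    intro k
    apply hball
    rw [Metric.mem_ball, dist_eq_norm]
    simp only [hw, add_sub_cancel_left, Complex.norm_real, Real.norm_eq_abs]
    rw [abs_of_pos (hpos k), div_lt_iff₀ (by positivity)]
    have : (0 : ℝ) ≤ k := Nat.cast_nonneg k
    nlinarith
  have hwne : ∀ k, w k ≠ z0 := by
    intro k hk
    simp only [hw, add_eq_left, Complex.ofReal_eq_zero] at hk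
    exact (hpos k).ne' hk
  have hwlim : Tendsto w atTop (𝓝 z0) := by
    have h1 : Tendsto (fun k : ℕ => ε / ((k : ℝ) + 2)) atTop (𝓝 0) :=
      Tendsto.div_atTop tendsto_const_nhds
        (tendsto_atTop_add_const_right _ _ tendsto_natCast_atTop_atTop)
    have h2 : Tendsto (fun k : ℕ => ((ε / ((k : ℝ) + 2) : ℝ) : ℂ)) atTop (𝓝 ((0 : ℝ) : ℂ)) :=
      (Complex.continuous_ofReal.tendsto 0).comp h1
    have h3 := (tendsto_const_nhds (x := z0)).add h2
    rw [Complex.ofReal_zero, add_zero] at h3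
    exact h3
  choose σ hσ using fun k => retIU_perm_of_prod_eq _ _ (h (w k) (hwV k))
  obtain ⟨τ, hτ⟩ := Finite.exists_infinite_fiber σ
  refine ⟨τ, fun i => ?_⟩
  apply ((hθ i).analyticOnNhd hV).eqOn_of_preconnected_of_frequently_eq
    ((hθ' (τ i)).analyticOnNhd hV) hc hz0
  have hfreq : ∃ᶠ k in atTop, σ k = τ := by
    rw [Nat.frequently_atTop_iff_infinite]
    exact Set.infinite_coe_iff.1 hτ
  have htend : Tendsto w atTop (𝓝[≠] z0) :=
    tendsto_nhdsWithin_iff.2 ⟨hwlim, Eventually.of_forall hwne⟩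
  exact htend.frequently (hfreq.mono fun k hk => by rw [← hk]; exact hσ k i)

/-- SPLIT-2 (~350 lines) -/
theorem RetHSplits.iUnion {P : ℂ[X][X]} {U : ℕ → Set ℂ} (h : ∀ n, RetHSplits P (U n))
    (o : ∀ n, IsOpen (U n)) (hc : ∀ n, IsPreconnected (U n)) (hne : (U 0).Nonempty)
    (hm : Monotone U) : RetHSplits P (⋃ n, U n) := by
  classical
  -- the type of splittings on `U n`
  let S : ℕ → Type := fun n => {θ : Fin P.natDegree → ℂ → ℂ // (∀ i, DifferentiableOn ℂ (θ i) (U n)) ∧
    ∀ z ∈ U n, P.map (evalRingHom z) = ∏ i, (X - C (θ i z))}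
  have hstep : ∀ n (θ : S n), ∃ θ' : S (n + 1), ∀ i, Set.EqOn (θ.1 i) (θ'.1 i) (U n) := by
    intro n θ
    obtain ⟨φ, hφ1, hφ2⟩ := h (n + 1)
    have hsub : U n ⊆ U (n + 1) := hm (Nat.le_succ n)
    have hneN : (U n).Nonempty := hne.mono (hm (Nat.zero_le n))
    obtain ⟨σ, hσ⟩ := retIU_reindex (o n) (hc n) hneN θ.2.1 (fun i => (hφ1 i).mono hsub)
      (fun z hz => by rw [← θ.2.2 z hz, hφ2 z (hsub hz)])
    refine ⟨⟨fun i => φ (σ i), fun i => hφ1 (σ i), fun z hz => ?_⟩, hσ⟩
    rw [hφ2 z hz]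
    exact (Equiv.prod_comp σ fun i => (X - C (φ i z))).symm
  let F : (n : ℕ) → S n := fun n =>
    Nat.rec (motive := S) ⟨(h 0).choose, (h 0).choose_spec⟩ (fun n θ => (hstep n θ).choose) n
  have hF : ∀ n i, Set.EqOn ((F n).1 i) ((F (n + 1)).1 i) (U n) := fun n =>
    (hstep n (F n)).choose_spec
  have hFle : ∀ n m, n ≤ m → ∀ i, Set.EqOn ((F n).1 i) ((F m).1 i) (U n) := by
    intro n m hnm
    induction m, hnm using Nat.le_induction with
    | base => exact fun i z _ => rfl
    | succ m hnm ih =>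
      intro i z hz
      rw [ih i hz]
      exact hF m i (hm hnm hz)
  let Θ : Fin P.natDegree → ℂ → ℂ := fun i z =>
    if hz : ∃ n, z ∈ U n then (F (Nat.find hz)).1 i z else 0
  have hΘ : ∀ n i, Set.EqOn (Θ i) ((F n).1 i) (U n) := by
    intro n i z hz
    have hex : ∃ n, z ∈ U n := ⟨n, hz⟩
    simp only [Θ, dif_pos hex]
    exact hFle _ _ (Nat.find_min' hex hz) i (Nat.find_spec hex)
  refine ⟨Θ, fun i z hz => ?_, fun z hz => ?_⟩
  · obtain ⟨n, hn⟩ := Set.mem_iUnion.1 hz
    have h1 : DifferentiableAt ℂ ((F n).1 i) z := ((F n).2.1 i).differentiableAt ((o n).mem_nhds hn)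
    have h2 : Θ i =ᶠ[nhds z] (F n).1 i := Filter.eventually_of_mem ((o n).mem_nhds hn) (hΘ n i)
    exact (h2.differentiableAt_iff.2 h1).differentiableWithinAt
  · obtain ⟨n, hn⟩ := Set.mem_iUnion.1 hz
    rw [(F n).2.2 z hn]
    refine Finset.prod_congr rfl fun i _ => ?_
    rw [hΘ n i hn]

end Claimed.Agent.R280
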