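import Claimed.Agent.R280.RET.SplitUnion

/-! # Row 280, RET / SPLIT-3: rectangles (plan: header of `SplitDefs.lean`)

Proof: Lebesgue number `δ` of the cover of the closed rectangle by the balls of local splitting; then two
one dimensional inductions (`retHSplits_chain`) with step `s = δ / 2`: first along `re` (thin rows), then along
`im`. -/

set_option autoImplicit false

namespace Claimed.Agent.R280

open Polynomial Complex

theorem retHSplits_empty (P : ℂ[X][X]) : RetHSplits P ∅ :=
  ⟨fun _ _ => 0, fun _ => differentiableOn_empty, fun _ hz => hz.elim⟩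

/-- one dimensional induction: `f` a real linear form, `B` convex and open; if `P` splits on all slabs
`B ∩ {x - s < f < x + s}`, `x ∈ [u, v]`, then `P` splits on `B ∩ {u < f < v}`. -/
theorem retHSplits_chain {P : ℂ[X][X]} (f : ℂ →L[ℝ] ℝ) {B : Set ℂ} (hBo : IsOpen B)
    (hBc : Convex ℝ B) {u v s : ℝ} (hs : 0 < s)
    (hloc : ∀ x ∈ Set.Icc u v, RetHSplits P (B ∩ {z | x - s < f z ∧ f z < x + s})) :
    RetHSplits P (B ∩ {z | u < f z ∧ f z < v}) := by
  have hopen : ∀ p q : ℝ, IsOpen (B ∩ {z | p < f z ∧ f z < q}) := fun p q =>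
    hBo.inter ((isOpen_lt continuous_const f.continuous).inter
      (isOpen_lt f.continuous continuous_const))
  have hconv : ∀ p q : ℝ, Convex ℝ (B ∩ {z | p < f z ∧ f z < q}) := fun p q =>
    hBc.inter ((convex_halfSpace_gt f.isLinear p).inter (convex_halfSpace_lt f.isLinear q))
  have key : ∀ k : ℕ, RetHSplits P (B ∩ {z | u < f z ∧ f z < min (u + k * s) v}) := by
    intro k
    induction k with
    | zero =>
      have : B ∩ {z | u < f z ∧ f z < min (u + ((0 : ℕ) : ℝ) * s) v} = ∅ := by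
        ext z
        simp only [Set.mem_inter_iff, Set.mem_ofPred_eq, Set.mem_empty_iff_false, iff_false,
          Nat.cast_zero, zero_mul, add_zero, not_and, not_lt]
        intro _ h
        exact (min_le_left _ _).trans h.le
      rw [this]
      exact retHSplits_empty P
    | succ k ih =>
      set x : ℝ := u + k * s with hx
      have hx' : u + ((k + 1 : ℕ) : ℝ) * s = x + s := by
        rw [hx]; push_cast; ring
      rw [hx']
      by_cases hxv : x ≤ v
      · have hxu : u ≤ x := by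
          rw [hx]
          have : 0 ≤ (k : ℝ) * s := by positivity
          linarith
        have h2 : RetHSplits P (B ∩ {z | max (x - s) u < f z ∧ f z < min (x + s) v}) := by
          refine (hloc x ⟨hxu, hxv⟩).mono ?_
          rintro z ⟨hzB, h1, h2⟩
          exact ⟨hzB, (le_max_left _ _).trans_lt h1, h2.trans_le (min_le_left _ _)⟩
        have h3 := ih.union h2 (hopen _ _) (hopen _ _)
          (((hconv _ _).inter (hconv _ _)).isPreconnected)
        refine h3.mono ?_
        rintro z ⟨hzB, h1, h2⟩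
        by_cases hz : f z < x
        · exact Or.inl ⟨hzB, h1, lt_min hz (h2.trans_le (min_le_right _ _))⟩
        · refine Or.inr ⟨hzB, max_lt ?_ h1, h2⟩
          rw [not_lt] at hz
          linarith
      · rw [not_le] at hxv
        have e1 : min (x + s) v = v := min_eq_right (by linarith)
        have e2 : min x v = v := min_eq_right hxv.le
        rw [e1]
        rw [e2] at ih
        exact ih
  obtain ⟨k, hk⟩ := exists_nat_gt ((v - u) / s)
  have hk' : v ≤ u + k * s := by
    rw [div_lt_iff₀ hs] at hk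
    linarith
  have := key k
  rwa [min_eq_right hk'] at this

/-- uniform radius of local splitting on a compact set -/
theorem retLocSplits_uniform {P : ℂ[X][X]} {K : Set ℂ} (hK : IsCompact K) (h : RetLocSplits P K) :
    ∃ δ : ℝ, 0 < δ ∧ ∀ a ∈ K, RetHSplits P (Metric.ball a δ) := by
  choose ε hε hsp using h
  obtain ⟨δ, hδ, hL⟩ := lebesgue_number_lemma_of_metric (s := K) (ι := K)
    (c := fun a => Metric.ball (a : ℂ) (ε a a.2)) hK (fun _ => Metric.isOpen_ball)
    (fun a ha => Set.mem_iUnion.2 ⟨⟨a, ha⟩, Metric.mem_ball_self (hε a ha)⟩)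
  refine ⟨δ, hδ, fun a ha => ?_⟩
  obtain ⟨i, hi⟩ := hL a ha
  exact (hsp i i.2).mono hi

/-- SPLIT-3 (~500 lines) -/
theorem RetHSplits.rect {P : ℂ[X][X]} {a₁ a₂ c₁ c₂ : ℝ}
    (h : RetLocSplits P {z | a₁ ≤ z.re ∧ z.re ≤ a₂ ∧ c₁ ≤ z.im ∧ z.im ≤ c₂}) :
    RetHSplits P {z | a₁ < z.re ∧ z.re < a₂ ∧ c₁ < z.im ∧ z.im < c₂} := by
  have hK : IsCompact {z : ℂ | a₁ ≤ z.re ∧ z.re ≤ a₂ ∧ c₁ ≤ z.im ∧ z.im ≤ c₂} := by
    have e : {z : ℂ | a₁ ≤ z.re ∧ z.re ≤ a₂ ∧ c₁ ≤ z.im ∧ z.im ≤ c₂}
        = Set.Icc a₁ a₂ ×ℂ Set.Icc c₁ c₂ := by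
      ext z
      simp only [Set.mem_ofPred_eq, Complex.mem_reProdIm, Set.mem_Icc]
      tauto
    rw [e]
    exact isCompact_Icc.reProdIm isCompact_Icc
  obtain ⟨δ, hδ, hu⟩ := retLocSplits_uniform hK h
  set s : ℝ := δ / 2 with hs
  have hs0 : 0 < s := by positivity
  -- squares
  have hsq : ∀ x ∈ Set.Icc a₁ a₂, ∀ y ∈ Set.Icc c₁ c₂,
      RetHSplits P ({z : ℂ | y - s < imCLM z ∧ imCLM z < y + s}
        ∩ {z : ℂ | x - s < reCLM z ∧ reCLM z < x + s}) := by
    intro x hx y hy
    refine (hu (⟨x, y⟩ : ℂ) ⟨hx.1, hx.2, hy.1, hy.2⟩).mono ?_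
    rintro z ⟨⟨h1, h2⟩, h3, h4⟩
    simp only [reCLM_apply, imCLM_apply] at h1 h2 h3 h4
    rw [Metric.mem_ball, dist_eq_norm]
    have h5 := Complex.norm_le_abs_re_add_abs_im (z - (⟨x, y⟩ : ℂ))
    simp only [sub_re, sub_im] at h5
    have h6 : |z.re - x| < s := abs_lt.2 ⟨by linarith, by linarith⟩
    have h7 : |z.im - y| < s := abs_lt.2 ⟨by linarith, by linarith⟩
    have : s + s = δ := by rw [hs]; ring
    linarith
  -- rows
  have hrow : ∀ y ∈ Set.Icc c₁ c₂,
      RetHSplits P ({z : ℂ | a₁ < reCLM z ∧ reCLM z < a₂}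
        ∩ {z : ℂ | y - s < imCLM z ∧ imCLM z < y + s}) := by
    intro y hy
    have := retHSplits_chain (P := P) reCLM (B := {z : ℂ | y - s < imCLM z ∧ imCLM z < y + s})
      ((isOpen_lt continuous_const imCLM.continuous).inter
        (isOpen_lt imCLM.continuous continuous_const))
      ((convex_halfSpace_gt imCLM.isLinear _).inter (convex_halfSpace_lt imCLM.isLinear _))
      hs0 (u := a₁) (v := a₂) (fun x hx => hsq x hx y hy)
    rwa [Set.inter_comm] at this
  have hall := retHSplits_chain (P := P) imCLM (B := {z : ℂ | a₁ < reCLM z ∧ reCLM z < a₂})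
      ((isOpen_lt continuous_const reCLM.continuous).inter
        (isOpen_lt reCLM.continuous continuous_const))
      ((convex_halfSpace_gt reCLM.isLinear _).inter (convex_halfSpace_lt reCLM.isLinear _))
      hs0 (u := c₁) (v := c₂) hrow
  refine hall.mono ?_
  rintro z ⟨h1, h2, h3, h4⟩
  exact ⟨⟨h1, h2⟩, h3, h4⟩

end Claimed.Agent.R280
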