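import Claimed.Agent.R280.RET.SplitRect
import Claimed.Agent.R280.RET.SplitIUnion

/-! # Row 280, RET / SPLIT-4: generalized rectangles (plan: header of `SplitDefs.lean`)
Proved (helper87): exhaust the generalized rectangle by an increasing sequence of bounded rectangles whose closures lie inside
(`exists_seq_strictAnti_tendsto'` / `exists_seq_strictMono_tendsto'` in `EReal`), then `RetHSplits.rect` + `RetHSplits.iUnion`. -/

set_option autoImplicit false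

namespace Claimed.Agent.R280

open Polynomial Complex

/-- real numbers decreasing to an extended real lower bound -/
lemma retStrip_seq_lower (a : EReal) (x₀ : ℝ) (h : a < (x₀ : EReal)) :
    ∃ α : ℕ → ℝ, Antitone α ∧ (∀ n, a < (α n : EReal) ∧ α n < x₀) ∧
      ∀ t : ℝ, a < (t : EReal) → ∀ᶠ n in Filter.atTop, α n < t := by
  obtain ⟨u, hu1, hu2, hu3⟩ := exists_seq_strictAnti_tendsto' h
  have hcoe : ∀ n, ((u n).toReal : EReal) = u n := fun n =>
    EReal.coe_toReal (ne_top_of_lt (hu2 n).2) (ne_bot_of_gt (hu2 n).1)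
  refine ⟨fun n => (u n).toReal, ?_, fun n => ⟨?_, ?_⟩, fun t ht => ?_⟩
  · intro m n hmn
    have := hu1.antitone hmn
    rw [← hcoe m, ← hcoe n] at this
    exact EReal.coe_le_coe_iff.1 this
  · rw [hcoe]
    exact (hu2 n).1
  · have := (hu2 n).2
    rw [← hcoe n] at this
    exact EReal.coe_lt_coe_iff.1 this
  · filter_upwards [hu3.eventually_lt_const ht] with n hn
    rw [← hcoe n] at hn
    exact EReal.coe_lt_coe_iff.1 hn

/-- real numbers increasing to an extended real upper bound -/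
lemma retStrip_seq_upper (a : EReal) (x₀ : ℝ) (h : (x₀ : EReal) < a) :
    ∃ α : ℕ → ℝ, Monotone α ∧ (∀ n, (α n : EReal) < a ∧ x₀ < α n) ∧
      ∀ t : ℝ, (t : EReal) < a → ∀ᶠ n in Filter.atTop, t < α n := by
  obtain ⟨u, hu1, hu2, hu3⟩ := exists_seq_strictMono_tendsto' h
  have hcoe : ∀ n, ((u n).toReal : EReal) = u n := fun n =>
    EReal.coe_toReal (ne_top_of_lt (hu2 n).2) (ne_bot_of_gt (hu2 n).1)
  refine ⟨fun n => (u n).toReal, ?_, fun n => ⟨?_, ?_⟩, fun t ht => ?_⟩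
  · intro m n hmn
    have := hu1.monotone hmn
    rw [← hcoe m, ← hcoe n] at this
    exact EReal.coe_le_coe_iff.1 this
  · rw [hcoe]
    exact (hu2 n).2
  · have := (hu2 n).1
    rw [← hcoe n] at this
    exact EReal.coe_lt_coe_iff.1 this
  · filter_upwards [hu3.eventually_const_lt ht] with n hn
    rw [← hcoe n] at hn
    exact EReal.coe_lt_coe_iff.1 hn

lemma retStrip_rect_isOpen (a₁ a₂ c₁ c₂ : ℝ) :
    IsOpen {z : ℂ | a₁ < z.re ∧ z.re < a₂ ∧ c₁ < z.im ∧ z.im < c₂} := by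
  have h1 : IsOpen {z : ℂ | a₁ < z.re} := isOpen_lt continuous_const Complex.continuous_re
  have h2 : IsOpen {z : ℂ | z.re < a₂} := isOpen_lt Complex.continuous_re continuous_const
  have h3 : IsOpen {z : ℂ | c₁ < z.im} := isOpen_lt continuous_const Complex.continuous_im
  have h4 : IsOpen {z : ℂ | z.im < c₂} := isOpen_lt Complex.continuous_im continuous_const
  exact h1.inter (h2.inter (h3.inter h4))

lemma retStrip_rect_convex (a₁ a₂ c₁ c₂ : ℝ) :
    Convex ℝ {z : ℂ | a₁ < z.re ∧ z.re < a₂ ∧ c₁ < z.im ∧ z.im < c₂} := by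
  have h1 : Convex ℝ {z : ℂ | a₁ < z.re} := convex_halfSpace_re_gt a₁
  have h2 : Convex ℝ {z : ℂ | z.re < a₂} := convex_halfSpace_re_lt a₂
  have h3 : Convex ℝ {z : ℂ | c₁ < z.im} := convex_halfSpace_im_gt c₁
  have h4 : Convex ℝ {z : ℂ | z.im < c₂} := convex_halfSpace_im_lt c₂
  exact h1.inter (h2.inter (h3.inter h4))

/-- SPLIT-4 (~300 lines): generalized open rectangles -/
theorem RetHSplits.strip {P : ℂ[X][X]} {a₁ a₂ c₁ c₂ : EReal}
    (h : RetLocSplits P {z | a₁ < (z.re : EReal) ∧ (z.re : EReal) < a₂ ∧ c₁ < (z.im : EReal) ∧ (z.im : EReal) < c₂}) :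
    RetHSplits P {z | a₁ < (z.re : EReal) ∧ (z.re : EReal) < a₂ ∧ c₁ < (z.im : EReal) ∧ (z.im : EReal) < c₂} := by
  rcases Set.eq_empty_or_nonempty {z : ℂ | a₁ < (z.re : EReal) ∧ (z.re : EReal) < a₂ ∧
      c₁ < (z.im : EReal) ∧ (z.im : EReal) < c₂} with he | ⟨z₀, hz₀⟩
  · rw [he]
    exact ⟨fun _ _ => 0, fun _ => differentiableOn_empty, fun z hz => absurd hz (Set.notMem_empty z)⟩
  obtain ⟨α₁, m1, b1, e1⟩ := retStrip_seq_lower a₁ z₀.re hz₀.1
  obtain ⟨α₂, m2, b2, e2⟩ := retStrip_seq_upper a₂ z₀.re hz₀.2.1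
  obtain ⟨γ₁, m3, b3, e3⟩ := retStrip_seq_lower c₁ z₀.im hz₀.2.2.1
  obtain ⟨γ₂, m4, b4, e4⟩ := retStrip_seq_upper c₂ z₀.im hz₀.2.2.2
  have hU : {z : ℂ | a₁ < (z.re : EReal) ∧ (z.re : EReal) < a₂ ∧ c₁ < (z.im : EReal) ∧
      (z.im : EReal) < c₂} = ⋃ n, {z : ℂ | α₁ n < z.re ∧ z.re < α₂ n ∧ γ₁ n < z.im ∧ z.im < γ₂ n} := by
    ext z
    rw [Set.mem_iUnion]
    constructor
    · rintro ⟨h1, h2, h3, h4⟩
      exact ((e1 _ h1).and ((e2 _ h2).and ((e3 _ h3).and (e4 _ h4)))).exists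
    · rintro ⟨n, h1, h2, h3, h4⟩
      exact ⟨(b1 n).1.trans (EReal.coe_lt_coe_iff.2 h1), (EReal.coe_lt_coe_iff.2 h2).trans (b2 n).1,
        (b3 n).1.trans (EReal.coe_lt_coe_iff.2 h3), (EReal.coe_lt_coe_iff.2 h4).trans (b4 n).1⟩
  rw [hU]
  refine RetHSplits.iUnion (fun n => RetHSplits.rect fun a ha => h a ?_)
    (fun n => retStrip_rect_isOpen _ _ _ _) (fun n => (retStrip_rect_convex _ _ _ _).isPreconnected)
    ⟨z₀, (b1 0).2, (b2 0).2, (b3 0).2, (b4 0).2⟩ ?_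
  · obtain ⟨h1, h2, h3, h4⟩ := ha
    exact ⟨(b1 n).1.trans_le (EReal.coe_le_coe_iff.2 h1), (EReal.coe_le_coe_iff.2 h2).trans_lt (b2 n).1,
      (b3 n).1.trans_le (EReal.coe_le_coe_iff.2 h3), (EReal.coe_le_coe_iff.2 h4).trans_lt (b4 n).1⟩
  · intro m n hmn z hz
    obtain ⟨h1, h2, h3, h4⟩ := hz
    exact ⟨(m1 hmn).trans_lt h1, h2.trans_le (m2 hmn), (m3 hmn).trans_lt h3, h4.trans_le (m4 hmn)⟩

end Claimed.Agent.R280
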