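import Claimed.Agent.R280.RET.SplitDefs

/-! # Row 280, RET / SPLIT-1: gluing along a connected intersection (plan: header of `SplitDefs.lean`).
Proved by helper151: at a generic point of the intersection the two root systems are matched by a
permutation; by the identity theorem the matched roots agree on the whole intersection. -/

set_option autoImplicit false

namespace Claimed.Agent.R280

open Polynomial Complex Filter Topology

/-- two families with the same multiset of values differ by a permutation -/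
theorem retSplit_exists_perm {ι : Type} [Fintype ι] (a b : ι → ℂ)
    (h : Finset.univ.val.map a = Finset.univ.val.map b) :
    ∃ σ : Equiv.Perm ι, ∀ i, a i = b (σ i) := by
  classical
  have hc : ∀ c, Fintype.card {i // a i = c} = Fintype.card {j // b j = c} := by
    intro c
    have := congrArg (Multiset.count c) h
    rw [Multiset.count_map, Multiset.count_map] at this
    rw [Fintype.card_subtype, Fintype.card_subtype]
    simpa [Finset.card, eq_comm] using this
  exact ⟨Equiv.ofFiberEquiv (fun c => Fintype.equivOfCardEq (hc c)),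
    fun i => (Equiv.ofFiberEquiv_map _ i).symm⟩

/-- the roots of a split product -/
theorem retSplit_roots {ι : Type} [Fintype ι] (a : ι → ℂ) :
    (∏ i, (X - C (a i))).roots = Finset.univ.val.map a := by
  have : ∏ i, (X - C (a i)) = ((Finset.univ.val.map a).map fun x => X - C x).prod := by
    rw [Multiset.map_map]; rfl
  rw [this, roots_multiset_prod_X_sub_C]

/-- matching of two holomorphic root systems on a connected open set -/
theorem retSplit_match {n : ℕ} {W : Set ℂ} (hW : IsOpen W) (hc : IsPreconnected W)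
    (f g : Fin n → ℂ → ℂ) (hf : ∀ i, DifferentiableOn ℂ (f i) W)
    (hg : ∀ i, DifferentiableOn ℂ (g i) W)
    (h : ∀ z ∈ W, ∏ i, (X - C (f i z)) = ∏ i, (X - C (g i z))) :
    ∃ σ : Equiv.Perm (Fin n), ∀ i, Set.EqOn (f i) (g (σ i)) W := by
  rcases W.eq_empty_or_nonempty with rfl | ⟨z₁, hz₁⟩
  · exact ⟨Equiv.refl _, fun i z hz => absurd hz (Set.notMem_empty z)⟩
  have key : ∀ᶠ z in 𝓝[≠] z₁, ∀ i j, f i z = g j z → Set.EqOn (f i) (g j) W := by
    rw [eventually_all]; intro i
    rw [eventually_all]; intro j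
    by_cases hfr : ∃ᶠ z in 𝓝[≠] z₁, f i z = g j z
    · exact Eventually.of_forall fun z _ =>
        ((hf i).analyticOnNhd hW).eqOn_of_preconnected_of_frequently_eq
          ((hg j).analyticOnNhd hW) hc hz₁ hfr
    · exact (not_frequently.1 hfr).mono fun z hz h => absurd h hz
  have hmem : ∀ᶠ z in 𝓝[≠] z₁, z ∈ W := mem_nhdsWithin_of_mem_nhds (hW.mem_nhds hz₁)
  obtain ⟨z₀, hz₀, hz₀W⟩ := (key.and hmem).exists
  have hroots := congrArg Polynomial.roots (h z₀ hz₀W)
  rw [retSplit_roots, retSplit_roots] at hroots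
  obtain ⟨σ, hσ⟩ := retSplit_exists_perm (fun i => f i z₀) (fun i => g i z₀) hroots
  exact ⟨σ, fun i => hz₀ i (σ i) (hσ i)⟩

/-- SPLIT-1 -/
theorem RetHSplits.union {P : ℂ[X][X]} {U₁ U₂ : Set ℂ} (h₁ : RetHSplits P U₁) (h₂ : RetHSplits P U₂)
    (o₁ : IsOpen U₁) (o₂ : IsOpen U₂) (hc : IsPreconnected (U₁ ∩ U₂)) : RetHSplits P (U₁ ∪ U₂) := by
  classical
  obtain ⟨θ₁, d₁, e₁⟩ := h₁
  obtain ⟨θ₂, d₂, e₂⟩ := h₂
  obtain ⟨σ, hσ⟩ := retSplit_match (o₁.inter o₂) hc θ₁ θ₂
    (fun i => (d₁ i).mono Set.inter_subset_left) (fun i => (d₂ i).mono Set.inter_subset_right)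
    (fun z hz => (e₁ z hz.1).symm.trans (e₂ z hz.2))
  have hθ₂ : ∀ i, ∀ z ∈ U₂, (if z ∈ U₁ then θ₁ i z else θ₂ (σ i) z) = θ₂ (σ i) z := by
    intro i z hz
    split_ifs with h
    · exact hσ i ⟨h, hz⟩
    · rfl
  refine ⟨fun i z => if z ∈ U₁ then θ₁ i z else θ₂ (σ i) z, fun i z hz => ?_, fun z hz => ?_⟩
  · refine DifferentiableAt.differentiableWithinAt ?_
    rcases hz with hz | hz
    · refine ((d₁ i).differentiableAt (o₁.mem_nhds hz)).congr_of_eventuallyEq ?_
      filter_upwards [o₁.mem_nhds hz] with w hw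
      simp [hw]
    · refine ((d₂ (σ i)).differentiableAt (o₂.mem_nhds hz)).congr_of_eventuallyEq ?_
      filter_upwards [o₂.mem_nhds hz] with w hw
      exact hθ₂ i w hw
  · by_cases h : z ∈ U₁
    · simp only [h, if_true]
      exact e₁ z h
    · have hz₂ : z ∈ U₂ := hz.resolve_left h
      simp only [h, if_false]
      rw [e₂ z hz₂]
      exact (Equiv.prod_comp σ fun j => (X - C (θ₂ j z))).symm

end Claimed.Agent.R280
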