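import Claimed.Agent.R280.RET.Weier
import Claimed.Agent.R280.RET.Count
import Claimed.Agent.R280.RET.Base

/-!
# Row 280, package RET: final glue  `StRetSorted → ret_torus`

Chain:  `StRetSorted` (analysis, helper30)  →  `StRetP1` (`Rat`, `Braid`)  →  torus datum (`Weier`, `Quad`, `Wr2`)  →  count (`Count`)
→  arbitrary `Om ≅ ℂ` (`Base`).

Owner: helper256.
-/

set_option autoImplicit false

namespace Claimed.Agent.R280

open WithZero

theorem isRatGen_gen {XX : Type} [Field XX] [Algebra ℂ XX] {x : XX} (hx : Transcendental ℂ x) :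
    IsRatGen (IntermediateField.AdjoinSimple.gen ℂ x) := by
  constructor
  · rw [← _root_.transcendental_algebraMap_iff (A := XX)
      (algebraMap (IntermediateField.adjoin ℂ {x}) XX).injective,
      IntermediateField.AdjoinSimple.algebraMap_gen]
    exact hx
  · apply IntermediateField.map_injective (IntermediateField.adjoin ℂ {x}).val
    rw [IntermediateField.adjoin_map, Set.image_singleton]
    have : (IntermediateField.adjoin ℂ {x}).val (IntermediateField.AdjoinSimple.gen ℂ x) = x := rfl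
    rw [this]
    ext z
    simp [IntermediateField.mem_map]

/-- RET for the punctured torus over `ℂ`, with an abstract copy `KK` of `ℂ(x)` -/
theorem ret_torus_aux (hret : StRetP1) {KK XX E : Type} [Field KK] [Field XX] [Field E] [Algebra ℂ KK]
    [Algebra ℂ XX] [Algebra KK XX] [IsScalarTower ℂ KK XX] [Algebra XX E]
    [IsAlgClosure XX E] (W : WeierstrassCurve ℂ) (hΔ : W.Δ ≠ 0) {x₀ : KK} (hx₀ : IsRatGen x₀) (y : XX)
    (hxy : (W.baseChange XX).toAffine.Equation (algebraMap KK XX x₀) y)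
    (hgen : IntermediateField.adjoin ℂ {algebraMap KK XX x₀, y} = ⊤) {n : ℕ} (a b : Fin n → ℂ)
    (ξ : Fin n → Place ℂ XX)
    (hξ : ∀ i, (ξ i).v (algebraMap KK XX x₀ - algebraMap ℂ XX (a i)) < 1 ∧
      (ξ i).v (y - algebraMap ℂ XX (b i)) < 1)
    (ha : Function.Injective a) (hb : ∀ i, 2 * b i + W.a₁ * a i + W.a₃ ≠ 0)
    (J : Type) [Group J] [Finite J] (C : Multiset (ConjClasses J)) :
    Nat.card (Sur E J ξ (zetaC (Nat.card J)) C) = Nat.card (Tup J n C) := by
  let _ : Algebra KK E := ((algebraMap XX E).comp (algebraMap KK XX)).toAlgebra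
  have : IsScalarTower KK XX E := IsScalarTower.of_algebraMap_eq fun _ => rfl
  have := hx₀.isFF
  obtain ⟨R, A, hq⟩ := weier_isQuadCover W hΔ hx₀ hxy hgen a b ξ hξ ha hb
  have := hq.finite
  have : IsFF ℂ XX := isFF_of_finite ℂ KK XX
  have : IsAlgClosure KK E := IsAlgClosure.ofAlgebraic KK XX E
  obtain ⟨γ, V, hd⟩ := hret KK E x₀ hx₀ (4 + n) (Fin.append R A) hq.inj
  obtain ⟨π, α, β, γ', V', ht⟩ := torus_datum_of_p1 hq hd
  rw [← sur_comp_perm E J ξ π, ht.card_sur J C]

/-- RET for the punctured torus over `ℂ` -/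
theorem ret_torus_C (hret : StRetP1) {XX E : Type} [Field XX] [Field E] [Algebra ℂ XX] [Algebra XX E]
    [IsAlgClosure XX E] (W : WeierstrassCurve ℂ) (hΔ : W.Δ ≠ 0) (x y : XX)
    (hxy : (W.baseChange XX).toAffine.Equation x y) (hx : Transcendental ℂ x)
    (hgen : IntermediateField.adjoin ℂ {x, y} = ⊤) {n : ℕ} (a b : Fin n → ℂ)
    (ξ : Fin n → Place ℂ XX)
    (hξ : ∀ i, (ξ i).v (x - algebraMap ℂ XX (a i)) < 1 ∧ (ξ i).v (y - algebraMap ℂ XX (b i)) < 1)
    (ha : Function.Injective a) (hb : ∀ i, 2 * b i + W.a₁ * a i + W.a₃ ≠ 0)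
    (J : Type) [Group J] [Finite J] (C : Multiset (ConjClasses J)) :
    Nat.card (Sur E J ξ (zetaC (Nat.card J)) C) = Nat.card (Tup J n C) :=
  ret_torus_aux hret (KK := IntermediateField.adjoin ℂ {x}) W hΔ (isRatGen_gen hx) y hxy hgen a b ξ hξ
    ha hb J C

/-- the statement of `ret_torus` (RET/Main.lean) from the output of the analysis -/
theorem ret_torus_of_sorted (hret : StRetSorted) {Om XOm E : Type} [Field Om] [Field XOm] [Field E]
    [Algebra Om XOm] [Algebra XOm E]
    [IsAlgClosure XOm E] (e : ℂ ≃+* Om) (W : WeierstrassCurve Om) (hΔ : W.Δ ≠ 0) (x y : XOm)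
    (hxy : (W.baseChange XOm).toAffine.Equation x y) (hx : Transcendental Om x)
    (hgen : IntermediateField.adjoin Om {x, y} = ⊤) {n : ℕ} (a b : Fin n → Om)
    (ξ : Fin n → Place Om XOm)
    (hξ : ∀ i, (ξ i).v (x - algebraMap Om XOm (a i)) < 1 ∧ (ξ i).v (y - algebraMap Om XOm (b i)) < 1)
    (ha : Function.Injective a) (hb : ∀ i, 2 * b i + W.a₁ * a i + W.a₃ ≠ 0)
    (J : Type) [Group J] [Finite J] (C : Multiset (ConjClasses J)) :
    Nat.card (Sur E J ξ (e (Complex.exp (2 * Real.pi * Complex.I / (Nat.card J : ℂ)))) C)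
      = Nat.card (Tup J n C) := by
  let _ : Algebra ℂ XOm := ((algebraMap Om XOm).comp e.toRingHom).toAlgebra
  have he : ∀ c : ℂ, algebraMap ℂ XOm c = algebraMap Om XOm (e c) := fun _ => rfl
  have h := ret_torus_C (stRetP1_of_sorted hret) (XX := XOm) (E := E) (W.map e.symm.toRingHom)
    (by rw [WeierstrassCurve.map_Δ]; simpa using hΔ) x y
    (by rw [weier_reBase e he]; exact hxy) (transcendental_reBase e he hx) (adjoin_reBase e he hgen)
    (fun i => e.symm (a i)) (fun i => e.symm (b i)) (fun i => (ξ i).reBase e he)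
    (fun i => by simpa [he, Place.reBase] using hξ i)
    (fun i j hij => ha (e.symm.injective hij))
    (fun i => by
      have := hb i
      intro h0
      apply this
      apply e.symm.injective
      simpa [map_ofNat] using h0) J C
  rw [sur_reBase e he] at h
  exact h

end Claimed.Agent.R280
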