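import Claimed.Agent.R280.RET.Quad
import Claimed.Agent.R280.RET.Rat

/-!
# Row 280, package RETW (~1200 lines): a Weierstrass function field is a double cover of the line branched at four points

`KK = ℂ(x₀) ⊆ XX = ℂ(x, y)`, `x = x₀`.  `z = 2y + a₁x + a₃`, `z² = 4x³ + b₂x² + 2b₄x + b₆ = 4 ∏ (x - e k)`, `e k` pairwise distinct
(`WeierstrassCurve.twoTorsionPolynomial_discr`, `Cubic.discr_ne_zero_iff_roots_nodup`).

Sub-packages
* RETW1 (~400 lines) Kummer theory in degree two for function fields over `ℂ`: `quad_ramIdx_of_odd`, `quad_ramIdx_of_unit`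
  (fundamental equality `sum_ramIdx_mul_deg`; for the unit case: if `e = 2` there is one place `Q` above, it is fixed by the nontrivial
  automorphism `τ`, `z ≡ c`, `τ z = -z ≡ c` mod `Q`, so `2c ≡ 0`, but `c² = f(P) ≠ 0`).
* RETW2 (~400 lines) `weier_square`, `weier_finrank`, `weier_on_curve`.  PROVED (helper255).
* RETW3 (~400 lines) `weier_isQuadCover`.

Owner: helper256.
-/

set_option autoImplicit false

namespace Claimed.Agent.R280

open WithZero

section Kummer

variable {KK XX : Type} [Field KK] [Field XX] [Algebra ℂ KK] [Algebra ℂ XX] [Algebra KK XX]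
  [IsScalarTower ℂ KK XX] [IsFF ℂ KK]

theorem rw1_ramIdx_le (h2 : Module.finrank KK XX = 2) (Q : Place ℂ XX) (P : Place ℂ KK) :
    Q.ramIdx P ≤ 2 := by
  have : FiniteDimensional KK XX := Module.finite_of_finrank_pos (by omega)
  exact h2 ▸ Place.ramIdx_le_finrank Q P

theorem rw1_sq_ne_exp (x : ℤᵐ⁰) {m : ℤ} (hm : Odd m) : x ^ 2 ≠ exp m := by
  intro h
  by_cases hx : x = 0
  · subst hx
    rw [zero_pow two_ne_zero] at h
    exact exp_ne_zero h.symm
  · rw [← exp_log hx, ← exp_nsmul, exp_inj] at h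
    obtain ⟨j, hj⟩ := hm
    rw [nsmul_eq_mul] at h
    push_cast at h
    omega

omit [Algebra ℂ KK] [Algebra ℂ XX] [IsScalarTower ℂ KK XX] [IsFF ℂ KK] in
theorem rw1_repr (h2 : Module.finrank KK XX = 2) {z : XX}
    (hz' : z ∉ Set.range (algebraMap KK XX)) (t : XX) :
    ∃ a b : KK, t = algebraMap KK XX a + algebraMap KK XX b * z := by
  have hli : LinearIndependent KK ![(1 : XX), z] := by
    rw [LinearIndependent.pair_iff]
    intro s r hsr
    have hr : r = 0 := by
      by_contra hr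
      apply hz'
      refine ⟨-s / r, ?_⟩
      have h1 : algebraMap KK XX r ≠ 0 := by simpa using hr
      rw [Algebra.smul_def, Algebra.smul_def, mul_one] at hsr
      rw [map_div₀, map_neg, div_eq_iff h1]
      linear_combination -hsr
    subst hr
    rw [zero_smul, add_zero, Algebra.smul_def, mul_one] at hsr
    exact ⟨by simpa using hsr, rfl⟩
  let B := basisOfLinearIndependentOfCardEqFinrank hli (by simp [h2])
  have h := B.sum_repr t
  rw [Fin.sum_univ_two] at h
  simp only [B, coe_basisOfLinearIndependentOfCardEqFinrank, Matrix.cons_val_zero,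
    Matrix.cons_val_one] at h
  refine ⟨B.repr t 0, B.repr t 1, ?_⟩
  rw [Algebra.smul_def, Algebra.smul_def, mul_one] at h
  exact h.symm

theorem quad_ramIdx_of_odd (h2 : Module.finrank KK XX = 2) {z : XX} {f : KK}
    (hz : z ^ 2 = algebraMap KK XX f) {P : Place ℂ KK} (hodd : Odd (P.ord f)) {Q : Place ℂ XX}
    (hQ : Q.Over P) : Q.ramIdx P = 2 := by
  have hle := rw1_ramIdx_le h2 Q P
  have hpos := hQ.ramIdx_pos
  have h1 : Q.ord (algebraMap KK XX f) = Q.ramIdx P * P.ord f := hQ.ord_algebraMap f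
  rw [← hz, Q.ord_pow] at h1
  by_contra hne
  have he : Q.ramIdx P = 1 := by omega
  rw [he] at h1
  obtain ⟨m, hm⟩ := hodd
  push_cast at h1
  omega

theorem quad_ramIdx_of_unit (h2 : Module.finrank KK XX = 2) {z : XX} {f : KK}
    (hz : z ^ 2 = algebraMap KK XX f) (hz' : z ∉ Set.range (algebraMap KK XX)) {P : Place ℂ KK}
    (hunit : P.v f = 1) {Q : Place ℂ XX} (hQ : Q.Over P) : Q.ramIdx P = 1 := by
  have hle := rw1_ramIdx_le h2 Q P
  have hpos := hQ.ramIdx_pos
  by_contra hne
  have he : Q.ramIdx P = 2 := by omega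
  have hv : ∀ a : KK, Q.v (algebraMap KK XX a) = P.v a ^ 2 := fun a =>
    he ▸ (hQ.overE_ramIdx).2 a
  have hvz : Q.v z = 1 := by
    have h : Q.v z ^ 2 = 1 := by rw [← map_pow, hz, hv, hunit, one_pow]
    exact (pow_eq_one_iff_of_nonneg zero_le two_ne_zero).1 h
  obtain ⟨t, ht⟩ := Q.exists_unif
  obtain ⟨a, b, hab⟩ := rw1_repr h2 hz' t
  have hBz : Q.v (algebraMap KK XX b * z) = P.v b ^ 2 := by rw [map_mul, hvz, mul_one, hv]
  have hodd1 : Odd (-1 : ℤ) := by decide
  by_cases hne' : Q.v (algebraMap KK XX a) = Q.v (algebraMap KK XX b * z)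
  · -- equal valuations
    have hb : b ≠ 0 := by
      rintro rfl
      rw [map_zero, zero_mul, map_zero, hv] at hne'
      have ha : a = 0 := by
        have := pow_eq_zero_iff (two_ne_zero) |>.1 hne'
        exact (P.v.zero_iff).1 this
      rw [hab, ha, map_zero, zero_mul, add_zero, map_zero] at ht
      exact exp_ne_zero ht.symm
    have hB0 : algebraMap KK XX b ≠ 0 := by simpa using hb
    set u : KK := a / b with hu
    have hU : algebraMap KK XX u = algebraMap KK XX a / algebraMap KK XX b := by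
      rw [hu, map_div₀]
    have hvb0 : P.v b ≠ 0 := P.v_ne_zero hb
    have hvU : Q.v (algebraMap KK XX u) = 1 := by
      rw [hU, map_div₀, hne', hBz, hv]
      exact div_self (pow_ne_zero 2 hvb0)
    have htU : t = algebraMap KK XX b * (algebraMap KK XX u + z) := by
      rw [hab, hU]
      field_simp
    have hsum : Q.v (algebraMap KK XX u + z) = exp (-1 - 2 * log (P.v b)) := by
      have h1 : Q.v t = P.v b ^ 2 * Q.v (algebraMap KK XX u + z) := by
        rw [htU, map_mul, hv]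
      rw [ht] at h1
      have h3 : P.v b ^ 2 = exp (2 * log (P.v b)) := by
        conv_lhs => rw [← exp_log hvb0]
        rw [← exp_nsmul, nsmul_eq_mul]
        rfl
      rw [h3] at h1
      have h4 : Q.v (algebraMap KK XX u + z)
          = (exp (2 * log (P.v b)))⁻¹ * exp (-1) := by
        rw [h1, ← mul_assoc, inv_mul_cancel₀ exp_ne_zero, one_mul]
      rw [h4, ← exp_neg, ← exp_add]
      congr 1
      ring
    have hoddj : Odd (-1 - 2 * log (P.v b)) := ⟨-1 - log (P.v b), by ring⟩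
    have hlt : Q.v (algebraMap KK XX u + z) < 1 := by
      have hle1 : Q.v (algebraMap KK XX u + z) ≤ 1 := by
        refine (Q.v.map_add _ _).trans ?_
        rw [hvU, hvz, max_self]
      rcases hle1.lt_or_eq with h | h
      · exact h
      · exfalso
        rw [hsum, ← exp_zero, exp_inj] at h
        omega
    have hv2 : Q.v (2 * algebraMap KK XX u) = 1 := by
      have h2' : (2 : XX) = algebraMap ℂ XX 2 := (map_ofNat (algebraMap ℂ XX) 2).symm
      rw [map_mul, hvU, mul_one, h2', Q.triv 2 two_ne_zero]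
    have hdiff : Q.v (algebraMap KK XX u - z) = 1 := by
      have h5 : algebraMap KK XX u - z = 2 * algebraMap KK XX u - (algebraMap KK XX u + z) := by
        ring
      rw [h5, Valuation.map_sub_eq_of_lt_left _ (by rw [hv2]; exact hlt), hv2]
    have hprod : algebraMap KK XX (u ^ 2 - f) = (algebraMap KK XX u + z) * (algebraMap KK XX u - z) := by
      rw [map_sub, map_pow, ← hz]
      ring
    have h6 := hv (u ^ 2 - f)
    rw [hprod, map_mul, hdiff, mul_one, hsum] at h6
    exact rw1_sq_ne_exp _ hoddj h6.symm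
  · have h1 := Valuation.map_add_of_distinct_val Q.v hne'
    rw [← hab, ht, hBz, hv] at h1
    rcases max_choice (P.v a ^ 2) (P.v b ^ 2) with h | h <;> rw [h] at h1
    · exact rw1_sq_ne_exp _ hodd1 h1.symm
    · exact rw1_sq_ne_exp _ hodd1 h1.symm

end Kummer

/-! ### RETW3: values of the cubic at the places of the line -/

section

variable {M : Type} [Field M] [Algebra ℂ M] {x : M}

/-- value of `x - c` at a place centred at `b ≠ c` -/
theorem rw3_v_sub_of_isAt {P : Place ℂ M} {b c : ℂ} (h : P.IsAt x b) (hbc : b ≠ c) :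
    P.v (x - algebraMap ℂ M c) = 1 := by
  have hbc' : b - c ≠ 0 := sub_ne_zero.2 hbc
  have h1 : P.v (algebraMap ℂ M (b - c)) = 1 := P.triv _ hbc'
  have e : x - algebraMap ℂ M c = (x - algebraMap ℂ M b) + algebraMap ℂ M (b - c) := by
    rw [map_sub]
    ring
  rw [e, Valuation.map_add_eq_of_lt_right _ (by rw [h1]; exact h), h1]

theorem rw3_v_sub_of_isAtInf {P : Place ℂ M} (h : P.IsAtInf x) (c : ℂ) :
    P.v (x - algebraMap ℂ M c) = P.v x := by
  rw [sub_eq_add_neg]
  refine Valuation.map_add_eq_of_lt_left _ ?_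
  rw [Valuation.map_neg]
  exact lt_of_le_of_lt (retr2_v_le_one P c) h

theorem rw3_v_four (P : Place ℂ M) : P.v (4 : M) = 1 := by
  have h := P.triv 4 (by norm_num)
  rwa [map_ofNat] at h

/-- the cubic has a simple zero at each of its roots -/
theorem rw3_v_cubic_root (hx : IsRatGen x) {e : Fin 3 → ℂ} (he : Function.Injective e)
    {P : Place ℂ M} (k : Fin 3) (h : P.IsAt x (e k)) :
    P.v (4 * ∏ j, (x - algebraMap ℂ M (e j))) = exp (-1) := by
  rw [map_mul, rw3_v_four, one_mul, map_prod, Finset.prod_eq_single k, hx.v_sub_eq h]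
  · intro j _ hj
    exact rw3_v_sub_of_isAt h fun h' => hj (he h').symm
  · intro h'
    exact absurd (Finset.mem_univ k) h'

theorem rw3_v_cubic_inf (hx : IsRatGen x) (e : Fin 3 → ℂ) {P : Place ℂ M} (h : P.IsAtInf x) :
    P.v (4 * ∏ j, (x - algebraMap ℂ M (e j))) = exp 3 := by
  rw [map_mul, rw3_v_four, one_mul, map_prod]
  simp only [rw3_v_sub_of_isAtInf h, hx.v_eq_of_isAtInf h, Finset.prod_const, Finset.card_univ,
    Fintype.card_fin]
  rw [← exp_nsmul]
  norm_num

theorem rw3_v_cubic_unit {e : Fin 3 → ℂ} {P : Place ℂ M} {b : ℂ} (h : P.IsAt x b)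
    (hb : ∀ k, b ≠ e k) : P.v (4 * ∏ j, (x - algebraMap ℂ M (e j))) = 1 := by
  rw [map_mul, rw3_v_four, one_mul, map_prod]
  exact Finset.prod_eq_one fun j _ => rw3_v_sub_of_isAt h (hb j)

end

section Weier

variable {KK XX : Type} [Field KK] [Field XX] [Algebra ℂ KK] [Algebra ℂ XX] [Algebra KK XX]
  [IsScalarTower ℂ KK XX]

/-- the two-torsion polynomial splits with distinct roots -/
theorem weier_roots (W : WeierstrassCurve ℂ) (hΔ : W.Δ ≠ 0) :
    ∃ e : Fin 3 → ℂ, Function.Injective e ∧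
      ∀ (B : Type) [CommRing B] [Algebra ℂ B] (t : B),
        4 * t ^ 3 + algebraMap ℂ B W.b₂ * t ^ 2 + 2 * algebraMap ℂ B W.b₄ * t + algebraMap ℂ B W.b₆
          = 4 * ∏ k, (t - algebraMap ℂ B (e k)) := by
  have ha : W.twoTorsionPolynomial.a ≠ 0 := by
    show (4 : ℂ) ≠ 0
    norm_num
  have hsp : (W.twoTorsionPolynomial.toPoly.map (RingHom.id ℂ)).Splits := IsAlgClosed.splits _
  obtain ⟨x, y, z, h3⟩ := (Cubic.splits_iff_roots_eq_three ha).1 hsp
  have hd : W.twoTorsionPolynomial.discr ≠ 0 := by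
    rw [W.twoTorsionPolynomial_discr]
    exact mul_ne_zero (by norm_num) hΔ
  obtain ⟨hxy, hxz, hyz⟩ := (Cubic.discr_ne_zero_iff_roots_ne ha h3).1 hd
  have hb : W.b₂ = 4 * -(x + y + z) := Cubic.b_eq_three_roots ha h3
  have hc : 2 * W.b₄ = 4 * (x * y + x * z + y * z) := Cubic.c_eq_three_roots ha h3
  have hdd : W.b₆ = 4 * -(x * y * z) := Cubic.d_eq_three_roots ha h3
  refine ⟨![x, y, z], ?_, ?_⟩
  · intro i j hij
    fin_cases i <;> fin_cases j <;> simp_all
  · intro B _ _ t
    have hb' := congrArg (algebraMap ℂ B) hb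
    have hc' := congrArg (algebraMap ℂ B) hc
    have hd' := congrArg (algebraMap ℂ B) hdd
    simp only [map_mul, map_neg, map_add, map_ofNat] at hb' hc' hd'
    rw [Fin.prod_univ_three]
    simp only [Matrix.cons_val_zero, Matrix.cons_val_one, Matrix.cons_val_two, Matrix.head_cons, Matrix.tail_cons]
    linear_combination t ^ 2 * hb' + t * hc' + hd'

theorem weier_square (W : WeierstrassCurve ℂ) {x y : XX}
    (hxy : (W.baseChange XX).toAffine.Equation x y) :
    (2 * y + algebraMap ℂ XX W.a₁ * x + algebraMap ℂ XX W.a₃) ^ 2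
      = 4 * x ^ 3 + algebraMap ℂ XX W.b₂ * x ^ 2 + 2 * algebraMap ℂ XX W.b₄ * x
        + algebraMap ℂ XX W.b₆ := by
  rw [WeierstrassCurve.Affine.equation_iff] at hxy
  simp only [WeierstrassCurve.baseChange, WeierstrassCurve.map_a₁, WeierstrassCurve.map_a₂, WeierstrassCurve.map_a₃,
    WeierstrassCurve.map_a₄, WeierstrassCurve.map_a₆] at hxy
  simp only [WeierstrassCurve.b₂, WeierstrassCurve.b₄, WeierstrassCurve.b₆, map_add, map_mul, map_pow, map_ofNat]
  linear_combination 4 * hxy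

/-- the point `(a, b)` at which a place is centred lies on the curve -/
theorem weier_on_curve (W : WeierstrassCurve ℂ) {x y : XX}
    (hxy : (W.baseChange XX).toAffine.Equation x y) {ξ : Place ℂ XX} {a b : ℂ}
    (hξ : ξ.v (x - algebraMap ℂ XX a) < 1 ∧ ξ.v (y - algebraMap ℂ XX b) < 1) :
    (2 * b + W.a₁ * a + W.a₃) ^ 2 = 4 * a ^ 3 + W.b₂ * a ^ 2 + 2 * W.b₄ * a + W.b₆ := by
  have hsq := weier_square W hxy
  have hint : ∀ (s : XX) (c : ℂ), ξ.v (s - algebraMap ℂ XX c) < 1 → s ∈ ξ.O := by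
    intro s c h
    have e : s = (s - algebraMap ℂ XX c) + algebraMap ℂ XX c := by ring
    rw [e]
    exact ξ.O.add_mem _ _ ((Valuation.mem_valuationSubring_iff _ _).2 h.le) (ξ.algebraMap_mem c)
  set X : ξ.O := ⟨x, hint x a hξ.1⟩ with hX
  set Y : ξ.O := ⟨y, hint y b hξ.2⟩ with hY
  have hO : (2 * Y + algebraMap ℂ ξ.O W.a₁ * X + algebraMap ℂ ξ.O W.a₃) ^ 2
      = 4 * X ^ 3 + algebraMap ℂ ξ.O W.b₂ * X ^ 2 + 2 * algebraMap ℂ ξ.O W.b₄ * X
        + algebraMap ℂ ξ.O W.b₆ := by
    apply Subtype.ext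
    exact hsq
  have hrX : IsLocalRing.residue ξ.O X = IsLocalRing.residue ξ.O (algebraMap ℂ ξ.O a) :=
    (ξ.residue_eq_iff _ _).2 hξ.1
  have hrY : IsLocalRing.residue ξ.O Y = IsLocalRing.residue ξ.O (algebraMap ℂ ξ.O b) :=
    (ξ.residue_eq_iff _ _).2 hξ.2
  have h1 := congrArg (IsLocalRing.residue ξ.O) hO
  simp only [map_pow, map_add, map_mul, map_ofNat, hrX, hrY] at h1
  have hinj : Function.Injective ((IsLocalRing.residue ξ.O).comp (algebraMap ℂ ξ.O)) := RingHom.injective _
  apply hinj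
  simp only [RingHom.comp_apply, map_pow, map_add, map_mul, map_ofNat]
  exact h1

theorem weier_not_mem (W : WeierstrassCurve ℂ) {x₀ : KK} (hx₀ : IsRatGen x₀) {y : XX}
    (hxy : (W.baseChange XX).toAffine.Equation (algebraMap KK XX x₀) y) :
    2 * y + algebraMap ℂ XX W.a₁ * algebraMap KK XX x₀ + algebraMap ℂ XX W.a₃
      ∉ Set.range (algebraMap KK XX) := by
  rintro ⟨w, hw⟩
  have hsq := weier_square W hxy
  rw [← hw] at hsq
  have hK : w ^ 2 = 4 * x₀ ^ 3 + (algebraMap ℂ KK W.b₂ * x₀ ^ 2 + 2 * algebraMap ℂ KK W.b₄ * x₀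
      + algebraMap ℂ KK W.b₆) := by
    apply (algebraMap KK XX).injective
    simp only [map_pow, map_add, map_mul, map_ofNat, ← IsScalarTower.algebraMap_apply ℂ KK XX]
    rw [hsq]
    ring
  obtain ⟨P, hP⟩ := hx₀.exists_isAtInf
  have hv : P.v x₀ = exp 1 := hx₀.v_eq_of_isAtInf hP
  have hconst : ∀ c : ℂ, P.v (algebraMap ℂ KK c) ≤ 1 := fun c =>
    (Valuation.mem_valuationSubring_iff _ _).1 (P.algebraMap_mem c)
  have h4 : P.v (4 : KK) = 1 := by
    have := P.triv (4 : ℂ) (by norm_num)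
    rwa [map_ofNat] at this
  have h2 : P.v (2 : KK) = 1 := by
    have := P.triv (2 : ℂ) (by norm_num)
    rwa [map_ofNat] at this
  have hlead : P.v (4 * x₀ ^ 3) = exp 3 := by
    rw [map_mul, map_pow, h4, hv, one_mul, ← exp_nsmul]
    norm_num
  have hlow : P.v (algebraMap ℂ KK W.b₂ * x₀ ^ 2 + 2 * algebraMap ℂ KK W.b₄ * x₀ + algebraMap ℂ KK W.b₆)
      ≤ exp 2 := by
    have e1 : (1 : ℤᵐ⁰) ≤ exp 2 := by
      rw [← exp_zero]; exact exp_le_exp.2 (by norm_num)
    have e2 : (exp 1 : ℤᵐ⁰) ≤ exp 2 := exp_le_exp.2 (by norm_num)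
    refine (P.v.map_add _ _).trans (max_le ((P.v.map_add _ _).trans (max_le ?_ ?_)) ((hconst _).trans e1))
    · rw [map_mul, map_pow, hv, ← exp_nsmul]
      calc P.v (algebraMap ℂ KK W.b₂) * exp (2 • (1 : ℤ)) ≤ 1 * exp (2 • (1 : ℤ)) :=
            mul_le_mul_left (hconst _) _
        _ = exp 2 := by rw [one_mul]; norm_num
    · rw [map_mul, map_mul, h2, one_mul, hv]
      calc P.v (algebraMap ℂ KK W.b₄) * exp 1 ≤ 1 * exp 1 := mul_le_mul_left (hconst _) _
        _ ≤ exp 2 := by rw [one_mul]; exact e2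
  have hval : P.v (w ^ 2) = exp 3 := by
    rw [hK, Valuation.map_add_eq_of_lt_left, hlead]
    rw [hlead]
    exact lt_of_le_of_lt hlow (exp_lt_exp.2 (by norm_num))
  rw [map_pow] at hval
  have hw0 : P.v w ≠ 0 := by
    intro h0
    rw [h0] at hval
    simp only [ne_eq, OfNat.ofNat_ne_zero, not_false_eq_true, zero_pow] at hval
    exact exp_ne_zero hval.symm
  obtain ⟨n, hn⟩ : ∃ n : ℤ, P.v w = exp n := ⟨log (P.v w), (exp_log hw0).symm⟩
  rw [hn, ← exp_nsmul, exp_inj] at hval
  simp only [nsmul_eq_mul, Nat.cast_ofNat] at hval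
  omega

theorem weier_finrank (W : WeierstrassCurve ℂ) {x₀ : KK} (hx₀ : IsRatGen x₀) {y : XX}
    (hxy : (W.baseChange XX).toAffine.Equation (algebraMap KK XX x₀) y)
    (hgen : IntermediateField.adjoin ℂ {algebraMap KK XX x₀, y} = ⊤) :
    Module.finrank KK XX = 2 := by
  have hy : y ∉ (algebraMap KK XX).range := by
    rintro ⟨w, rfl⟩
    apply weier_not_mem W hx₀ hxy
    refine ⟨2 * w + algebraMap ℂ KK W.a₁ * x₀ + algebraMap ℂ KK W.a₃, ?_⟩
    simp only [map_add, map_mul, map_ofNat, ← IsScalarTower.algebraMap_apply ℂ KK XX]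
  set q : Polynomial KK := Polynomial.X ^ 2 +
    (Polynomial.C (algebraMap ℂ KK W.a₁ * x₀ + algebraMap ℂ KK W.a₃) * Polynomial.X +
      Polynomial.C (-(x₀ ^ 3 + algebraMap ℂ KK W.a₂ * x₀ ^ 2 + algebraMap ℂ KK W.a₄ * x₀
        + algebraMap ℂ KK W.a₆))) with hq
  have hdeg : (Polynomial.C (algebraMap ℂ KK W.a₁ * x₀ + algebraMap ℂ KK W.a₃) * Polynomial.X +
      Polynomial.C (-(x₀ ^ 3 + algebraMap ℂ KK W.a₂ * x₀ ^ 2 + algebraMap ℂ KK W.a₄ * x₀
        + algebraMap ℂ KK W.a₆))).degree < ((2 : ℕ) : WithBot ℕ) :=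
    lt_of_le_of_lt Polynomial.degree_linear_le (by norm_num)
  have hq_monic : q.Monic := Polynomial.monic_X_pow_add hdeg
  have hq_deg : q.natDegree ≤ 2 := Polynomial.natDegree_le_of_degree_le
    ((Polynomial.degree_add_le _ _).trans (max_le (Polynomial.degree_X_pow_le 2) hdeg.le))
  have hq_root : Polynomial.aeval y q = 0 := by
    have h := hxy
    rw [WeierstrassCurve.Affine.equation_iff] at h
    simp only [WeierstrassCurve.baseChange, WeierstrassCurve.map_a₁, WeierstrassCurve.map_a₂,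
      WeierstrassCurve.map_a₃, WeierstrassCurve.map_a₄, WeierstrassCurve.map_a₆] at h
    simp only [hq, map_add, map_mul, map_pow, map_neg, Polynomial.aeval_X, Polynomial.aeval_C,
      ← IsScalarTower.algebraMap_apply ℂ KK XX]
    linear_combination h
  have hint : IsIntegral KK y := ⟨q, hq_monic, hq_root⟩
  have hle : (minpoly KK y).natDegree ≤ 2 :=
    (Polynomial.natDegree_le_natDegree (minpoly.min KK y hq_monic hq_root)).trans hq_deg
  have hpos := minpoly.natDegree_pos hint
  have hne1 : (minpoly KK y).natDegree ≠ 1 := fun h => hy (minpoly.natDegree_eq_one_iff.1 h)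
  have htop : IntermediateField.adjoin KK {y} = ⊤ := by
    have hle' : IntermediateField.adjoin ℂ {algebraMap KK XX x₀, y}
        ≤ (IntermediateField.adjoin KK {y}).restrictScalars ℂ := by
      rw [IntermediateField.adjoin_le_iff]
      rintro s (rfl | rfl)
      · exact (IntermediateField.adjoin KK {y}).algebraMap_mem x₀
      · exact IntermediateField.mem_adjoin_simple_self KK _
    rw [hgen] at hle'
    rw [eq_top_iff]
    intro s _
    exact hle' IntermediateField.mem_top
  have hfin := IntermediateField.adjoin.finrank hint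
  rw [htop, IntermediateField.finrank_top'] at hfin
  omega

/-- **the Weierstrass double cover** -/
theorem weier_isQuadCover (W : WeierstrassCurve ℂ) (hΔ : W.Δ ≠ 0) {x₀ : KK} (hx₀ : IsRatGen x₀)
    {y : XX} (hxy : (W.baseChange XX).toAffine.Equation (algebraMap KK XX x₀) y)
    (hgen : IntermediateField.adjoin ℂ {algebraMap KK XX x₀, y} = ⊤) {n : ℕ} (a b : Fin n → ℂ)
    (ξ : Fin n → Place ℂ XX)
    (hξ : ∀ i, (ξ i).v (algebraMap KK XX x₀ - algebraMap ℂ XX (a i)) < 1 ∧
      (ξ i).v (y - algebraMap ℂ XX (b i)) < 1)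
    (ha : Function.Injective a) (hb : ∀ i, 2 * b i + W.a₁ * a i + W.a₃ ≠ 0) :
    ∃ (R : Fin 4 → Place ℂ KK) (A : Fin n → Place ℂ KK), IsQuadCover R A ξ := by
  classical
  have hFF : IsFF ℂ KK := hx₀.isFF
  have h2 : Module.finrank KK XX = 2 := weier_finrank W hx₀ hxy hgen
  have hfin : Module.Finite KK XX := Module.finite_of_finrank_pos (by rw [h2]; norm_num)
  obtain ⟨e, he_inj, he⟩ := weier_roots W hΔ
  have hz : (2 * y + algebraMap ℂ XX W.a₁ * algebraMap KK XX x₀ + algebraMap ℂ XX W.a₃) ^ 2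
      = algebraMap KK XX (4 * ∏ k, (x₀ - algebraMap ℂ KK (e k))) := by
    rw [weier_square W hxy, ← he KK x₀]
    simp only [map_add, map_mul, map_pow, ← IsScalarTower.algebraMap_apply, map_ofNat]
  have hz' := weier_not_mem W hx₀ hxy
  choose Pe hPe using fun k => hx₀.exists_isAt (e k)
  obtain ⟨Pinf, hPinf⟩ := hx₀.exists_isAtInf
  choose A hA _ using fun i => Place.existsUnique_below (M := KK) (ξ i)
  have hAat : ∀ i, (A i).IsAt x₀ (a i) := by
    intro i
    have h := (hξ i).1
    rw [IsScalarTower.algebraMap_apply ℂ KK XX, ← map_sub, (hA i).v_lt_one_iff] at h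
    exact h
  have hae : ∀ i k, a i ≠ e k := by
    intro i k hik
    have h1 := weier_on_curve W hxy (hξ i)
    have h3 := he ℂ (a i)
    simp only [Algebra.algebraMap_self, RingHom.id_apply] at h3
    rw [h3, Finset.prod_eq_zero (Finset.mem_univ k) (by rw [hik, sub_self]), mul_zero] at h1
    exact hb i (pow_eq_zero_iff (two_ne_zero) |>.1 h1)
  refine ⟨Fin.snoc (α := fun _ => Place ℂ KK) Pe Pinf, A, h2, ?_, ?_, hA, ?_⟩
  · intro k Q hQ
    induction k using Fin.lastCases with
    | last =>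
      rw [Fin.snoc_last] at hQ ⊢
      refine quad_ramIdx_of_odd h2 hz ?_ hQ
      rw [Place.ord, rw3_v_cubic_inf hx₀ e hPinf, log_exp]
      decide
    | cast k =>
      rw [Fin.snoc_castSucc] at hQ ⊢
      refine quad_ramIdx_of_odd h2 hz ?_ hQ
      rw [Place.ord, rw3_v_cubic_root hx₀ he_inj k (hPe k), log_exp]
      decide
  · intro P hP Q hQ
    rcases hx₀.isAtInf_or_isAt P with h | ⟨c, hc⟩
    · exact absurd ⟨Fin.last 3, by rw [Fin.snoc_last]; exact hx₀.isAtInf_unique hPinf h⟩ hP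
    · refine quad_ramIdx_of_unit h2 hz hz' (rw3_v_cubic_unit hc ?_) hQ
      rintro k rfl
      exact hP ⟨Fin.castSucc k, by rw [Fin.snoc_castSucc]; exact hx₀.isAt_unique (hPe k) hc⟩
  · rw [Fin.append_injective_iff, Fin.snoc_injective_iff]
    refine ⟨⟨?_, ?_⟩, ?_, ?_⟩
    · intro k k' hkk
      exact he_inj (Place.IsAt.unique_pt (hPe k) (hkk ▸ hPe k'))
    · rintro ⟨k, hk⟩
      exact (hPe k).not_isAtInf (hk ▸ hPinf)
    · intro i i' hii
      exact ha (Place.IsAt.unique_pt (hAat i) (hii ▸ hAat i'))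
    · intro k i hki
      induction k using Fin.lastCases with
      | last =>
        rw [Fin.snoc_last] at hki
        exact (hAat i).not_isAtInf (hki ▸ hPinf)
      | cast k =>
        rw [Fin.snoc_castSucc] at hki
        exact hae i k (Place.IsAt.unique_pt (hAat i) (hki ▸ hPe k))

end Weier

end Claimed.Agent.R280
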